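import Crest.Agent.Vdw.Defs

/-! S0086: from the cyclic statement to the statement on intervals. -/

set_option autoImplicit false

namespace VDW

theorem exists_digit (N : ℕ) (hN : 2 ≤ N) (t : ℕ) : ∀ d : ℕ, 1 ≤ d → d < N ^ t →
    ∃ i < t, ∃ d' : ℕ, d = N ^ i * d' ∧ ¬ N ∣ d' := by
  intro d hd hdt
  have hfin : FiniteMultiplicity N d := by
    rw [Nat.finiteMultiplicity_iff]
    exact ⟨by omega, by omega⟩
  obtain ⟨d', hd', hnd⟩ := hfin.exists_eq_pow_mul_and_not_dvd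
  refine ⟨multiplicity N d, ?_, d', hd', hnd⟩
  by_contra hcon
  push Not at hcon
  have h1 : N ^ t ∣ d := by
    refine dvd_trans (pow_dvd_pow N hcon) ?_
    exact ⟨d', hd'⟩
  have := Nat.le_of_dvd (by omega) h1
  omega

theorem final (h : Cyclic) :
    ∃ K₀ : ℕ, ∀ k : ℕ, K₀ ≤ k → ∀ r : ℕ, 2 ≤ r → ∀ N : ℕ,
      (N : ℝ) ≤ (k : ℝ) ^ ((k * Nat.log 2 r : ℕ) / (100000 : ℝ)) →
      ∃ χ : ℕ → Fin r, ∀ a d : ℕ, 1 ≤ a → 1 ≤ d → a + (k - 1) * d ≤ N →
        ∃ i, i < k ∧ χ (a + i * d) ≠ χ a := by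
  obtain ⟨K₀, h⟩ := h
  refine ⟨max K₀ 2, fun k hk r hr B hB => ?_⟩
  have hk1 : K₀ ≤ k := le_trans (le_max_left _ _) hk
  have hk2 : 2 ≤ k := le_trans (le_max_right _ _) hk
  obtain ⟨N, hN0, hN, χ0, hper, hχ⟩ := h k hk1
  set t := Nat.log 2 r with ht
  have hpow : 2 ^ t ≤ r := Nat.pow_log_le_self 2 (by omega)
  -- N ≥ 2
  have hN2 : 2 ≤ N := by
    have h1 : (1 : ℝ) ≤ (k : ℝ) ^ ((k : ℝ) / 100000) := by
      apply Real.one_le_rpow
      · exact_mod_cast (by omega : 1 ≤ k)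
      · positivity
    have h2 : (1 : ℝ) < N := lt_of_le_of_lt h1 hN
    have h3 : 1 < N := by exact_mod_cast h2
    omega
  have hBN : ∀ d : ℕ, d ≤ B → 1 ≤ t → d < N ^ t := by
    intro d hd ht1
    have h1 : (B : ℝ) ≤ ((k : ℝ) ^ ((k : ℝ) / 100000)) ^ t := by
      rw [← Real.rpow_natCast, ← Real.rpow_mul (by positivity)]
      refine hB.trans (le_of_eq ?_)
      congr 1
      push_cast
      ring
    have h2 : ((k : ℝ) ^ ((k : ℝ) / 100000)) ^ t < (N : ℝ) ^ t := by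
      apply pow_lt_pow_left₀ hN (by positivity) (by omega)
    have h3 : (d : ℝ) ≤ B := by exact_mod_cast hd
    have h4 : (d : ℝ) < ((N ^ t : ℕ) : ℝ) := by
      push_cast
      linarith
    exact_mod_cast h4
  have ht1 : 1 ≤ t := by
    rw [ht]
    exact Nat.log_pos (by norm_num) hr
  -- embed the colours
  have hcard : Fintype.card (Fin t → Bool) ≤ Fintype.card (Fin r) := by
    simpa using hpow
  obtain ⟨e⟩ : Nonempty ((Fin t → Bool) ↪ Fin r) := Function.Embedding.nonempty_of_card_le hcard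
  refine ⟨fun n => e (fun i => χ0 (n / N ^ (i : ℕ))), fun a d ha hd had => ?_⟩
  have hdB : d ≤ B := by
    have : 1 * d ≤ (k - 1) * d := Nat.mul_le_mul_right _ (by omega)
    omega
  obtain ⟨i, hi, d', rfl, hnd⟩ := exists_digit N hN2 t d hd (hBN d hdB ht1)
  obtain ⟨j, hj, j', hj', hne⟩ := hχ (a / N ^ i) d' hnd
  have hdiv : ∀ s : ℕ, (a + s * (N ^ i * d')) / N ^ i = a / N ^ i + s * d' := by
    intro s
    have : a + s * (N ^ i * d') = a + N ^ i * (s * d') := by ring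
    rw [this, Nat.add_mul_div_left _ _ (by positivity)]
  by_contra hcon
  push Not at hcon
  have h1 := hcon j hj
  have h2 := hcon j' hj'
  have h3 := e.injective (h1.trans h2.symm)
  have h4 := congrFun h3 ⟨i, hi⟩
  simp only [hdiv] at h4
  exact hne h4

end VDW
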