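import Mathlib

/-!
# S0086, module ParamsPrimes: a Bertrand chain of distinct primes
-/

set_option autoImplicit false

namespace VDW

/-- Bertrand chain: `D` distinct primes in `(M0, 2^D M0]` and a prime `q` above all of them. -/
theorem exists_primes_D (D M0 : ℕ) (hM : 1 ≤ M0) :
    ∃ (M : Fin D → ℕ) (q : ℕ), Function.Injective M ∧
      (∀ t, (M t).Prime ∧ M0 < M t ∧ M t ≤ 2 ^ D * M0) ∧
      q.Prime ∧ 2 ^ D * M0 < q ∧ q ≤ 2 ^ (D + 1) * M0 := by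
  have key : ∀ t : ℕ, ∃ p : ℕ, p.Prime ∧ 2 ^ t * M0 < p ∧ p ≤ 2 ^ (t + 1) * M0 := by
    intro t
    have hne : 2 ^ t * M0 ≠ 0 := by positivity
    obtain ⟨p, hp, h1, h2⟩ := Nat.exists_prime_lt_and_le_two_mul (2 ^ t * M0) hne
    refine ⟨p, hp, h1, ?_⟩
    calc p ≤ 2 * (2 ^ t * M0) := h2
      _ = 2 ^ (t + 1) * M0 := by ring
  choose p hp h1 h2 using key
  have hmono : StrictMono p := by
    apply strictMono_nat_of_lt_succ
    intro n
    exact lt_of_le_of_lt (h2 n) (h1 (n + 1))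
  refine ⟨fun t => p t, p D, ?_, ?_, hp _, h1 _, h2 _⟩
  · intro a b hab
    exact Fin.ext (hmono.injective hab)
  · intro t
    refine ⟨hp _, ?_, ?_⟩
    · calc M0 = 1 * M0 := (one_mul _).symm
        _ ≤ 2 ^ (t : ℕ) * M0 := Nat.mul_le_mul_right _ Nat.one_le_two_pow
        _ < p t := h1 _
    · calc p t ≤ 2 ^ ((t : ℕ) + 1) * M0 := h2 _
        _ ≤ 2 ^ D * M0 :=
          Nat.mul_le_mul_right _ (Nat.pow_le_pow_right (by norm_num) t.2)

/-- Bertrand chain: `l ^ 2` distinct primes in `(M0, 2^(l^2) M0]` and a prime `q` above all of them. -/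
theorem exists_primes (l M0 : ℕ) (hM : 1 ≤ M0) :
    ∃ (M : Fin (l ^ 2) → ℕ) (q : ℕ), Function.Injective M ∧
      (∀ t, (M t).Prime ∧ M0 < M t ∧ M t ≤ 2 ^ (l ^ 2) * M0) ∧
      q.Prime ∧ 2 ^ (l ^ 2) * M0 < q ∧ q ≤ 2 ^ (l ^ 2 + 1) * M0 :=
  exists_primes_D (l ^ 2) M0 hM

end VDW
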