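import Crest.Agent.Vdw.Defs
import Crest.Agent.Vdw.ParamsPrimes

/-! # S0086, module Params: choice of all parameters -/

set_option autoImplicit false

open Finset

namespace VDW

namespace Prm

/-! ### natural number bounds for the counting functions -/

theorem B1_le (k l b : ℕ) (hk : 100 ≤ k) (hb : b + 1 ≤ k ^ 15) :
    B1 k l b ≤ k ^ (3 + 56 * l ^ 2) := by
  unfold B1
  have h1 : 5 * (b + 1) ≤ k ^ 16 := by
    calc 5 * (b + 1) ≤ k * k ^ 15 := Nat.mul_le_mul (by omega) hb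
      _ = k ^ 16 := by ring
  have h2 : k * (5 * (b + 1)) + 1 ≤ k ^ 18 := by
    have h3 : k * (5 * (b + 1)) ≤ k ^ 17 := by
      calc k * (5 * (b + 1)) ≤ k * k ^ 16 := Nat.mul_le_mul le_rfl h1
        _ = k ^ 17 := by ring
    have h4 : 1 ≤ k ^ 17 := Nat.one_le_pow _ _ (by omega)
    calc k * (5 * (b + 1)) + 1 ≤ k ^ 17 + k ^ 17 := Nat.add_le_add h3 h4
      _ = 2 * k ^ 17 := by ring
      _ ≤ k * k ^ 17 := Nat.mul_le_mul (by omega) le_rfl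
      _ = k ^ 18 := by ring
  have h3 : k + 1 ≤ k ^ 2 := by nlinarith
  have h4 : (k + 1) * (k * (5 * (b + 1)) + 1) ^ 3 ≤ k ^ 56 := by
    calc (k + 1) * (k * (5 * (b + 1)) + 1) ^ 3 ≤ k ^ 2 * (k ^ 18) ^ 3 :=
          Nat.mul_le_mul h3 (Nat.pow_le_pow_left h2 3)
      _ = k ^ 56 := by ring
  calc k * (k + 1) * ((k + 1) * (k * (5 * (b + 1)) + 1) ^ 3) ^ l ^ 2
      ≤ k * k ^ 2 * (k ^ 56) ^ l ^ 2 :=
        Nat.mul_le_mul (Nat.mul_le_mul le_rfl h3) (Nat.pow_le_pow_left h4 _)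
    _ = k ^ (3 + 56 * l ^ 2) := by
        rw [← pow_mul, pow_add]; ring

theorem Bcell_le (k l Lam b rmax : ℕ) (hk : 100 ≤ k) (hb : b + 1 ≤ k ^ 15) (hL1 : 1 ≤ Lam)
    (hLam : Lam ≤ k ^ rmax) :
    Bcell k l Lam b ≤ k ^ ((18 + rmax) * 3 * l ^ 2) := by
  unfold Bcell
  have h1 : k * (k * Lam * (b + 1)) + 1 ≤ k ^ (18 + rmax) := by
    have h2 : k * (k * Lam * (b + 1)) ≤ k ^ 17 * k ^ rmax := by
      calc k * (k * Lam * (b + 1)) = k ^ 2 * (b + 1) * Lam := by ring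
        _ ≤ k ^ 2 * k ^ 15 * k ^ rmax :=
          Nat.mul_le_mul (Nat.mul_le_mul le_rfl hb) hLam
        _ = k ^ 17 * k ^ rmax := by ring
    have h3 : 1 ≤ k ^ 17 * k ^ rmax := Nat.one_le_iff_ne_zero.2 (by positivity)
    calc k * (k * Lam * (b + 1)) + 1 ≤ k ^ 17 * k ^ rmax + k ^ 17 * k ^ rmax :=
          Nat.add_le_add h2 h3
      _ = 2 * (k ^ 17 * k ^ rmax) := by ring
      _ ≤ k * (k ^ 17 * k ^ rmax) := Nat.mul_le_mul (by omega) le_rfl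
      _ = k ^ (18 + rmax) := by rw [pow_add]; ring
  calc ((k * (k * Lam * (b + 1)) + 1) ^ 3) ^ l ^ 2
      ≤ ((k ^ (18 + rmax)) ^ 3) ^ l ^ 2 :=
        Nat.pow_le_pow_left (Nat.pow_le_pow_left h1 _) _
    _ = k ^ ((18 + rmax) * 3 * l ^ 2) := by rw [← pow_mul, ← pow_mul, mul_assoc]

theorem Bth_le (k l rmax m : ℕ) (hk : 100 ≤ k) (hm : 1 ≤ m) :
    Bth k l rmax m ≤ (k ^ 3 * m) ^ (3 * (rmax * (l ^ 2 + 1))) := by
  unfold Bth
  have h1 : k * (k * m) + 1 ≤ k ^ 3 * m := by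
    have h2 : 1 ≤ k ^ 2 * m := Nat.one_le_iff_ne_zero.2 (by positivity)
    calc k * (k * m) + 1 = k ^ 2 * m + 1 := by ring
      _ ≤ k ^ 2 * m + k ^ 2 * m := by omega
      _ = 2 * (k ^ 2 * m) := by ring
      _ ≤ k * (k ^ 2 * m) := Nat.mul_le_mul (by omega) le_rfl
      _ = k ^ 3 * m := by ring
  calc ((k * (k * m) + 1) ^ 3) ^ (rmax * (l ^ 2 + 1))
      ≤ ((k ^ 3 * m) ^ 3) ^ (rmax * (l ^ 2 + 1)) :=
        Nat.pow_le_pow_left (Nat.pow_le_pow_left h1 _) _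
    _ = _ := by rw [← pow_mul]

/-! ### existence of large `k` facts -/

/-- the facts about `k`, `l` used below -/
structure Big (k l : ℕ) : Prop where
  hx : ((l : ℝ)) ^ 30 ≤ k
  hL6 : (10 : ℝ) ^ 6 ≤ Real.log k
  hLs : (Real.log k) ^ 2 ≤ Real.sqrt l
  hh : Real.log k / 1000 ≤ Real.log (Nat.sqrt l)

theorem exists_big : ∃ K₀ : ℕ, ∀ k : ℕ, K₀ ≤ k → ∃ l : ℕ, Big k l := by
  have t1 : Filter.Tendsto (fun k : ℕ => Real.log (k : ℝ)) Filter.atTop Filter.atTop :=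
    Real.tendsto_log_atTop.comp tendsto_natCast_atTop_atTop
  have t2 : Filter.Tendsto (fun k : ℕ => (k : ℝ) ^ (1 / 1000 : ℝ)) Filter.atTop Filter.atTop :=
    (tendsto_rpow_atTop (by norm_num)).comp tendsto_natCast_atTop_atTop
  have t3 : ∀ᶠ k : ℕ in Filter.atTop,
      ‖(Real.log (k : ℝ)) ^ (2 : ℝ)‖ ≤ 1 * ‖(k : ℝ) ^ (1 / 1000 : ℝ)‖ := by
    have := (isLittleO_log_rpow_rpow_atTop (s := 1 / 1000) (2 : ℝ) (by norm_num))
    have h2 := this.bound (c := 1) one_pos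
    exact tendsto_natCast_atTop_atTop.eventually h2
  have e1 := t1.eventually_ge_atTop ((10 : ℝ) ^ 6)
  have e2 := t2.eventually_ge_atTop ((10 : ℝ))
  have e3 : ∀ᶠ k : ℕ in Filter.atTop, 1 ≤ k := Filter.eventually_ge_atTop 1
  obtain ⟨K₀, hK₀⟩ := Filter.eventually_atTop.1 (((t3.and e1).and e2).and e3)
  refine ⟨K₀, fun k hk => ?_⟩
  obtain ⟨⟨⟨h3, h1⟩, h2⟩, h4⟩ := hK₀ k hk
  set y : ℝ := (k : ℝ) ^ (1 / 1000 : ℝ) with hy
  have hk0 : (0 : ℝ) ≤ k := Nat.cast_nonneg k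
  have hkpos : (0 : ℝ) < k := by exact_mod_cast h4
  have hypos : 0 < y := by linarith
  set l : ℕ := ⌊y ^ 4⌋₊ with hl
  have hly : (l : ℝ) ≤ y ^ 4 := Nat.floor_le (by positivity)
  have hly2 : y ^ 4 < l + 1 := Nat.lt_floor_add_one _
  have hyk : y ^ 1000 = k := by
    rw [hy, ← Real.rpow_natCast, ← Real.rpow_mul hk0]
    norm_num
  have hL2 : (Real.log (k : ℝ)) ^ 2 ≤ y := by
    have h5 : ‖(Real.log (k : ℝ)) ^ (2 : ℝ)‖ = (Real.log (k : ℝ)) ^ 2 := by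
      rw [show (2 : ℝ) = ((2 : ℕ) : ℝ) by norm_num, Real.rpow_natCast]
      rw [Real.norm_of_nonneg (by positivity)]
    rw [h5, one_mul, Real.norm_of_nonneg hypos.le] at h3
    exact h3
  have hsq : y ≤ Nat.sqrt l := by
    have h5 : l + 1 ≤ (Nat.sqrt l + 1) ^ 2 := Nat.succ_le_succ_sqrt' l
    have h6 : (l : ℝ) + 1 ≤ ((Nat.sqrt l : ℝ) + 1) ^ 2 := by exact_mod_cast h5
    have h7 : (y ^ 2) ^ 2 < ((Nat.sqrt l : ℝ) + 1) ^ 2 := by
      have h8 : (y ^ 2) ^ 2 = y ^ 4 := by ring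
      rw [h8]
      exact hly2.trans_le h6
    have h8 : y ^ 2 < (Nat.sqrt l : ℝ) + 1 := lt_of_pow_lt_pow_left₀ 2 (by positivity) h7
    nlinarith
  have hys : y ≤ Real.sqrt l := by
    refine hsq.trans ?_
    exact Real.nat_sqrt_le_real_sqrt
  refine ⟨l, ?_, h1, hL2.trans hys, ?_⟩
  · calc (l : ℝ) ^ 30 ≤ (y ^ 4) ^ 30 := pow_le_pow_left₀ (Nat.cast_nonneg _) hly 30
      _ = y ^ 120 := by ring
      _ ≤ y ^ 1000 := pow_le_pow_right₀ (by linarith) (by norm_num)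
      _ = k := hyk
  · have h5 : Real.log k / 1000 = Real.log y := by
      rw [← hyk, Real.log_pow]
      push_cast
      ring
    rw [h5]
    exact Real.log_le_log hypos hsq

/-! ### the real inequalities -/

section real

variable {k l : ℕ} (H : Big k l)

theorem s_big (H : Big k l) : (10 : ℝ) ^ 12 ≤ Real.sqrt l := by
  have h1 := H.hL6
  have h2 := H.hLs
  nlinarith

theorem s_sq : Real.sqrt (l : ℝ) ^ 2 = l := Real.sq_sqrt (Nat.cast_nonneg l)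

theorem x_big (H : Big k l) : (10 : ℝ) ^ 24 ≤ l := by
  have h1 := s_big H
  rw [← s_sq (l := l)]
  calc (10 : ℝ) ^ 24 = (10 ^ 12) ^ 2 := by norm_num
    _ ≤ _ := pow_le_pow_left₀ (by norm_num) h1 2

theorem L_le_s (H : Big k l) : 10 ^ 6 * Real.log k ≤ Real.sqrt l := by
  have h1 := H.hL6
  have h2 := H.hLs
  nlinarith

theorem s_le_x (H : Big k l) : 10 ^ 12 * Real.sqrt l ≤ l := by
  have h1 := s_big H
  have h2 := s_sq (l := l)
  nlinarith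

theorem L_le_x (H : Big k l) : 10 ^ 18 * Real.log k ≤ l := by
  have h1 := L_le_s H
  have h2 := s_le_x H
  nlinarith

theorem k_big (H : Big k l) : (10 : ℝ) ^ 24 ≤ k := by
  have h1 := x_big H
  have h2 := H.hx
  have h3 : (l : ℝ) ^ 1 ≤ (l : ℝ) ^ 30 := pow_le_pow_right₀ (by linarith) (by norm_num)
  rw [pow_one] at h3
  linarith

theorem k_pos (H : Big k l) : (0 : ℝ) < k := by
  have := k_big H
  linarith [show (0 : ℝ) < 10 ^ 24 by norm_num]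

theorem hk100 (H : Big k l) : 100 ≤ k := by
  have h1 := k_big H
  have : (100 : ℝ) ≤ k := le_trans (by norm_num) h1
  exact_mod_cast this

theorem x_pow (H : Big k l) (n : ℕ) (hn : n ≤ 30) : (l : ℝ) ^ n ≤ k := by
  have h1 := x_big H
  exact (pow_le_pow_right₀ (by linarith) hn).trans H.hx

theorem x_pow_lt (H : Big k l) (n : ℕ) (hn : n < 30) : (10 : ℝ) ^ 24 * (l : ℝ) ^ n ≤ k := by
  have h1 := x_big H
  have h2 : (l : ℝ) ^ (n + 1) ≤ k := x_pow H (n + 1) hn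
  refine le_trans ?_ h2
  rw [pow_succ, mul_comm]
  exact mul_le_mul_of_nonneg_left h1 (by positivity)

theorem kpow_exp (H : Big k l) (n : ℕ) : ((k : ℝ)) ^ n = Real.exp (n * Real.log k) := by
  rw [Real.exp_nat_mul, Real.exp_log (k_pos H)]

theorem L_pos (H : Big k l) : 0 < Real.log k := by
  have := H.hL6
  linarith [show (0 : ℝ) < 10 ^ 6 by norm_num]

/-- pattern: `n ≤ k^E` and `E log k ≤ a` imply `n exp(-a) ≤ 1` -/
theorem close (H : Big k l) (n E : ℕ) (a : ℝ) (hn : n ≤ k ^ E) (ha : E * Real.log k ≤ a) :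
    (n : ℝ) * Real.exp (-a) ≤ 1 := by
  have h1 : (n : ℝ) ≤ Real.exp (E * Real.log k) := by
    rw [← kpow_exp H]
    exact_mod_cast hn
  calc (n : ℝ) * Real.exp (-a) ≤ Real.exp (E * Real.log k) * Real.exp (-a) :=
        mul_le_mul_of_nonneg_right h1 (Real.exp_pos _).le
    _ = Real.exp (E * Real.log k - a) := by rw [← Real.exp_add]; ring_nf
    _ ≤ 1 := by
      rw [Real.exp_le_one_iff]
      linarith

theorem rmax_le (H : Big k l) : ((k / l ^ 12 : ℕ) : ℝ) * (l : ℝ) ^ 12 ≤ k := by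
  have h : (k / l ^ 12) * l ^ 12 ≤ k := Nat.div_mul_le_self k (l ^ 12)
  exact_mod_cast h

theorem l_ge (H : Big k l) (n : ℕ) (hn : n ≤ 10 ^ 24) : n ≤ l := by
  have h1 := x_big H
  have h2 : (n : ℝ) ≤ 10 ^ 24 := by exact_mod_cast hn
  exact_mod_cast h2.trans h1

theorem lpow_le (H : Big k l) (n : ℕ) (hn : n ≤ 30) : l ^ n ≤ k := by
  have := x_pow H n hn
  exact_mod_cast this

theorem rmax_pos (H : Big k l) : 1 ≤ k / l ^ 12 := by
  have h1 := lpow_le H 12 (by norm_num)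
  have h2 := l_ge H 1 (by norm_num)
  exact (Nat.one_le_div_iff (by positivity)).2 h1

theorem ratio_le (H : Big k l) : k / (k / l ^ 12) + 1 ≤ 3 * l ^ 12 := by
  have h1 := rmax_pos H
  have h2 := l_ge H 1 (by norm_num)
  have hl12 : 1 ≤ l ^ 12 := Nat.one_le_pow _ _ (by omega)
  set r := k / l ^ 12 with hr
  have h3 : k < (r + 1) * l ^ 12 := by
    rw [hr]
    exact Nat.lt_mul_of_div_lt (Nat.lt_succ_self _) (by positivity)
  have h4 : k / r ≤ 2 * l ^ 12 := by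
    have : k / r ≤ (2 * l ^ 12 * r) / r := by
      apply Nat.div_le_div_right
      nlinarith
    rwa [Nat.mul_div_cancel _ (by omega)] at this
  omega

theorem n1_real (H : Big k l) (b : ℕ) (hb : b + 1 ≤ k ^ 15) :
    16 * (k : ℝ) * (B1 k l b : ℕ) *
    Real.exp (-(2 * k : ℝ) / (5 * ((k / (k / l ^ 12) + 1 : ℕ) : ℝ))) ≤ 1 := by
  have hk := hk100 H
  have h1 := B1_le k l b hk hb
  have h2 : 16 * k * B1 k l b ≤ k ^ (5 + 56 * l ^ 2) := by
    calc 16 * k * B1 k l b ≤ k * k * k ^ (3 + 56 * l ^ 2) :=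
          Nat.mul_le_mul (Nat.mul_le_mul (by omega) le_rfl) h1
      _ = k ^ (5 + 56 * l ^ 2) := by rw [pow_add, pow_add]; ring
  have h3 := close H (16 * k * B1 k l b) (5 + 56 * l ^ 2)
    ((2 * k : ℝ) / (5 * ((k / (k / l ^ 12) + 1 : ℕ) : ℝ))) h2 ?_
  · rw [neg_div]
    push_cast at h3 ⊢
    exact h3
  · have h4 : ((k / (k / l ^ 12) + 1 : ℕ) : ℝ) ≤ 3 * (l : ℝ) ^ 12 := by
      exact_mod_cast ratio_le H
    have h5 : (0 : ℝ) < ((k / (k / l ^ 12) + 1 : ℕ) : ℝ) := by positivity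
    rw [le_div_iff₀ (by positivity)]
    have hx := x_big H
    have hx0 : (0 : ℝ) < l := by linarith [show (0 : ℝ) < 10 ^ 24 by norm_num]
    have hL : Real.log k ≤ l := by
      have := L_le_x H
      have := L_pos H
      nlinarith
    have hLp := L_pos H
    have h6 : ((5 + 56 * l ^ 2 : ℕ) : ℝ) ≤ 61 * (l : ℝ) ^ 2 := by
      push_cast
      nlinarith
    have h7 : ((5 + 56 * l ^ 2 : ℕ) : ℝ) * Real.log k ≤ 61 * (l : ℝ) ^ 2 * l :=
      mul_le_mul h6 hL hLp.le (by positivity)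
    have h8 : ((5 + 56 * l ^ 2 : ℕ) : ℝ) * Real.log k *
        (5 * ((k / (k / l ^ 12) + 1 : ℕ) : ℝ)) ≤ (61 * (l : ℝ) ^ 2 * l) * (5 * (3 * (l : ℝ) ^ 12)) :=
      mul_le_mul h7 (by linarith) (by positivity) (by positivity)
    refine h8.trans ?_
    have h9 := x_pow_lt H 15 (by norm_num)
    have h10 : (0 : ℝ) ≤ (l : ℝ) ^ 15 := by positivity
    calc (61 * (l : ℝ) ^ 2 * l) * (5 * (3 * (l : ℝ) ^ 12)) = 915 * (l : ℝ) ^ 15 := by ring
      _ ≤ 10 ^ 24 * (l : ℝ) ^ 15 := by nlinarith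
      _ ≤ k := h9
      _ ≤ 2 * k := by linarith [k_pos H]

/-- the exponent bound for `Bcell` -/
theorem cell_exp (H : Big k l) :
    (((18 + k / l ^ 12) * 3 * l ^ 2 : ℕ) : ℝ) * Real.log k * l ≤ 7 * k := by
  have hr := rmax_le H
  have hx := x_big H
  have hx0 : (0 : ℝ) < l := by linarith [show (0 : ℝ) < 10 ^ 24 by norm_num]
  have hLp := L_pos H
  have hL : Real.log k ≤ l := by
    have := L_le_x H
    nlinarith
  have h1 := x_pow_lt H 4 (by norm_num)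
  have h3 : (((k / l ^ 12 : ℕ) : ℝ)) * (l : ℝ) ^ 4 ≤ k := by
    refine le_trans ?_ hr
    have : (l : ℝ) ^ 4 ≤ (l : ℝ) ^ 12 := pow_le_pow_right₀ (by linarith) (by norm_num)
    exact mul_le_mul_of_nonneg_left this (by positivity)
  have h4 : (((18 + k / l ^ 12) * 3 * l ^ 2 : ℕ) : ℝ) * Real.log k * l ≤
      (((18 + k / l ^ 12) * 3 * l ^ 2 : ℕ) : ℝ) * l * l := by
    refine mul_le_mul_of_nonneg_right (mul_le_mul_of_nonneg_left hL (by positivity)) hx0.le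
  refine h4.trans ?_
  rw [Nat.cast_mul, Nat.cast_mul, Nat.cast_add, Nat.cast_pow, Nat.cast_ofNat, Nat.cast_ofNat]
  have h5 : ((18 : ℝ) + ((k / l ^ 12 : ℕ) : ℝ)) * 3 * (l : ℝ) ^ 2 * l * l =
      54 * (l : ℝ) ^ 4 + 3 * ((((k / l ^ 12 : ℕ) : ℝ)) * (l : ℝ) ^ 4) := by ring
  rw [h5]
  have h6 : (0 : ℝ) ≤ (l : ℝ) ^ 4 := by positivity
  nlinarith

theorem n2_real (H : Big k l) (b Lam : ℕ) (hb : b + 1 ≤ k ^ 15) (hL1 : 1 ≤ Lam)
    (hLam : Lam ≤ k ^ (k / l ^ 12)) :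
    16 * ((Bcell k l Lam b : ℕ) : ℝ) * Real.exp (-(2 * k : ℝ) / (5 * 21)) ≤ 1 := by
  have hk := hk100 H
  have h1 := Bcell_le k l Lam b (k / l ^ 12) hk hb hL1 hLam
  have h2 : 16 * Bcell k l Lam b ≤ k ^ (1 + (18 + k / l ^ 12) * 3 * l ^ 2) := by
    calc 16 * Bcell k l Lam b ≤ k * k ^ ((18 + k / l ^ 12) * 3 * l ^ 2) :=
          Nat.mul_le_mul (by omega) h1
      _ = _ := by rw [pow_add]; ring
  have h3 := close H (16 * Bcell k l Lam b) (1 + (18 + k / l ^ 12) * 3 * l ^ 2)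
    ((2 * k : ℝ) / (5 * 21)) h2 ?_
  · rw [neg_div]
    push_cast at h3 ⊢
    exact h3
  · have h4 := cell_exp H
    have hx := x_big H
    have hx0 : (0 : ℝ) < l := by linarith [show (0 : ℝ) < 10 ^ 24 by norm_num]
    have hL : Real.log k ≤ l := by
      have := L_le_x H
      have := L_pos H
      nlinarith
    have hkl := x_pow_lt H 1 (by norm_num)
    have hk0 := k_pos H
    rw [Nat.cast_add, Nat.cast_one]
    set A : ℝ := (((18 + k / l ^ 12) * 3 * l ^ 2 : ℕ) : ℝ) with hA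
    have hA0 : 0 ≤ A := by positivity
    -- `A L l ≤ 7 k`, `l ≥ 10^24`
    have h5 : A * Real.log k * 10 ^ 24 ≤ 7 * k :=
      le_trans (mul_le_mul_of_nonneg_left hx (mul_nonneg hA0 (L_pos H).le)) h4
    rw [pow_one] at hkl
    have h6 : (1 + A) * Real.log k = Real.log k + A * Real.log k := by ring
    rw [h6]
    nlinarith

/-- the exponent of `M₀` -/
noncomputable def TT (k l : ℕ) : ℝ := (k : ℝ) * Real.log k / (10 ^ 5 * (l : ℝ) ^ 2)

theorem x_pos (H : Big k l) : (0 : ℝ) < l := by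
  have := x_big H
  linarith [show (0 : ℝ) < 10 ^ 24 by norm_num]

theorem TT_mul (H : Big k l) : TT k l * (10 ^ 5 * (l : ℝ) ^ 2) = k * Real.log k := by
  unfold TT
  have := x_pos H
  field_simp

/-- lower bounds for `TT` -/
theorem le_TT (H : Big k l) (c : ℝ) (hc : c * (10 ^ 5 * (l : ℝ) ^ 2) ≤ k * Real.log k) :
    c ≤ TT k l := by
  unfold TT
  have := x_pos H
  rw [le_div_iff₀ (by positivity)]
  exact hc

theorem lt_TT (H : Big k l) (c : ℝ) (hc : c * (10 ^ 5 * (l : ℝ) ^ 2) < k * Real.log k) :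
    c < TT k l := by
  unfold TT
  have := x_pos H
  rw [lt_div_iff₀ (by positivity)]
  exact hc

theorem TT_pos (H : Big k l) : 0 < TT k l := by
  refine lt_TT H 0 ?_
  rw [zero_mul]
  exact mul_pos (k_pos H) (L_pos H)

theorem TT_le (H : Big k l) : TT k l ≤ k / 10 ^ 24 := by
  unfold TT
  have hx := x_big H
  have h0 := x_pos H
  have hL := L_le_x H
  have hLp := L_pos H
  have hk := k_pos H
  rw [div_le_div_iff₀ (by positivity) (by positivity)]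
  have h1 : Real.log k * 10 ^ 24 ≤ 10 ^ 5 * (l : ℝ) ^ 2 := by
    have : Real.log k ≤ l := by nlinarith
    nlinarith
  nlinarith

/-- the starting size of the primes -/
noncomputable def M0 (k l : ℕ) : ℕ := ⌈Real.exp (TT k l)⌉₊ + 1

theorem exp_le_M0 : Real.exp (TT k l) < M0 k l := by
  unfold M0
  have := Nat.le_ceil (Real.exp (TT k l))
  push_cast
  linarith

theorem two_le_M0 : 2 ≤ M0 k l := by
  unfold M0
  have : 0 < ⌈Real.exp (TT k l)⌉₊ := Nat.ceil_pos.2 (Real.exp_pos _)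
  omega

theorem M0_le (H : Big k l) : (M0 k l : ℝ) ≤ Real.exp (TT k l + 2) := by
  unfold M0
  have h1 : (⌈Real.exp (TT k l)⌉₊ : ℝ) < Real.exp (TT k l) + 1 :=
    Nat.ceil_lt_add_one (Real.exp_pos _).le
  have h2 : 1 ≤ Real.exp (TT k l) := Real.one_le_exp (TT_pos H).le
  have h3 : (3 : ℝ) ≤ Real.exp 2 := by
    have := Real.add_one_le_exp (2 : ℝ)
    linarith
  rw [Real.exp_add]
  push_cast
  nlinarith

theorem two_pow_le (n : ℕ) : (2 : ℝ) ^ n ≤ Real.exp n := by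
  have h1 : (2 : ℝ) ≤ Real.exp 1 := by
    have := Real.add_one_le_exp (1 : ℝ)
    linarith
  calc (2 : ℝ) ^ n ≤ (Real.exp 1) ^ n := pow_le_pow_left₀ (by norm_num) h1 n
    _ = Real.exp n := by rw [← Real.exp_nat_mul, mul_one]

theorem M_le (H : Big k l) (x : ℕ) (hx : x ≤ 2 ^ (l ^ 2) * M0 k l) :
    (x : ℝ) ≤ Real.exp (TT k l + (l : ℝ) ^ 2 + 2) := by
  have h1 : (x : ℝ) ≤ 2 ^ (l ^ 2) * M0 k l := by exact_mod_cast hx
  have h2 : (2 : ℝ) ^ (l ^ 2) ≤ Real.exp ((l ^ 2 : ℕ) : ℝ) := two_pow_le (l ^ 2)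
  calc (x : ℝ) ≤ 2 ^ (l ^ 2) * M0 k l := h1
    _ ≤ Real.exp ((l ^ 2 : ℕ) : ℝ) * Real.exp (TT k l + 2) :=
      mul_le_mul h2 (M0_le H) (by positivity) (by positivity)
    _ = _ := by rw [← Real.exp_add]; push_cast; ring_nf

theorem q_le (H : Big k l) (x : ℕ) (hx : x ≤ 2 ^ (l ^ 2 + 1) * M0 k l) :
    (x : ℝ) ≤ Real.exp (TT k l + (l : ℝ) ^ 2 + 3) := by
  have h1 : (x : ℝ) ≤ 2 ^ (l ^ 2 + 1) * M0 k l := by exact_mod_cast hx
  have h2 : (2 : ℝ) ^ (l ^ 2 + 1) ≤ Real.exp ((l ^ 2 + 1 : ℕ) : ℝ) := two_pow_le (l ^ 2 + 1)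
  calc (x : ℝ) ≤ 2 ^ (l ^ 2 + 1) * M0 k l := h1
    _ ≤ Real.exp ((l ^ 2 + 1 : ℕ) : ℝ) * Real.exp (TT k l + 2) :=
      mul_le_mul h2 (M0_le H) (by positivity) (by positivity)
    _ = _ := by rw [← Real.exp_add]; push_cast; ring_nf

theorem log_q_le (H : Big k l) (x : ℕ) (hx0 : 0 < x) (hx : x ≤ 2 ^ (l ^ 2 + 1) * M0 k l) :
    Real.log x ≤ TT k l + (l : ℝ) ^ 2 + 3 := by
  rw [← Real.log_exp (TT k l + (l : ℝ) ^ 2 + 3)]
  exact Real.log_le_log (by exact_mod_cast hx0) (q_le H x hx)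

theorem expo_le (H : Big k l) : TT k l + (l : ℝ) ^ 2 + 3 ≤ k / 10 ^ 20 := by
  have h1 := TT_le H
  have h2 := x_pow_lt H 2 (by norm_num)
  have h3 := x_pow_lt H 0 (by norm_num)
  rw [pow_zero, mul_one] at h3
  have hk := k_pos H
  have h4 : (l : ℝ) ^ 2 ≤ k / 10 ^ 24 := by
    rw [le_div_iff₀ (by positivity)]
    linarith
  have h5 : (3 : ℝ) ≤ 3 * (k / 10 ^ 24) := by
    rw [← mul_div_assoc, le_div_iff₀ (by positivity)]
    linarith
  linarith [show (k : ℝ) / 10 ^ 20 = 10 ^ 4 * (k / 10 ^ 24) by ring, 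
    show (0 : ℝ) < k / 10 ^ 24 by positivity]

/-- the parameter `b` -/
noncomputable def bb (k q : ℕ) : ℕ :=
  ⌈(k : ℝ) ^ 5 + 2 * (((8 * k ^ 12 : ℕ) : ℝ) * Real.log q + 2)⌉₊

theorem bb_le (H : Big k l) (q : ℕ) (hq0 : 0 < q) (hq : q ≤ 2 ^ (l ^ 2 + 1) * M0 k l) :
    bb k q + 1 ≤ k ^ 15 := by
  have hk := k_big H
  have hk0 := k_pos H
  have h1 : Real.log q ≤ k := by
    refine (log_q_le H q hq0 hq).trans ((expo_le H).trans ?_)
    rw [div_le_iff₀ (by positivity)]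
    nlinarith
  have h2 : 0 ≤ Real.log q := Real.log_nonneg (by exact_mod_cast hq0)
  have h3 : (bb k q : ℝ) < ((k : ℝ) ^ 5 + 2 * (((8 * k ^ 12 : ℕ) : ℝ) * Real.log q + 2)) + 1 := by
    unfold bb
    exact Nat.ceil_lt_add_one (by positivity)
  have h4 : ((8 * k ^ 12 : ℕ) : ℝ) * Real.log q ≤ 8 * (k : ℝ) ^ 13 := by
    push_cast
    calc 8 * (k : ℝ) ^ 12 * Real.log q ≤ 8 * (k : ℝ) ^ 12 * k :=
          mul_le_mul_of_nonneg_left h1 (by positivity)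
      _ = 8 * (k : ℝ) ^ 13 := by ring
  have hk1 : (1 : ℝ) ≤ k := by linarith [show (1 : ℝ) ≤ 10 ^ 24 by norm_num]
  have h5 : (k : ℝ) ^ 5 ≤ (k : ℝ) ^ 13 := pow_le_pow_right₀ hk1 (by norm_num)
  have h6 : (1 : ℝ) ≤ (k : ℝ) ^ 13 := one_le_pow₀ hk1
  have h7 : (bb k q : ℝ) + 1 ≤ 23 * (k : ℝ) ^ 13 := by linarith
  have h8 : 23 * (k : ℝ) ^ 13 ≤ (k : ℝ) ^ 15 := by
    have : (23 : ℝ) ≤ (k : ℝ) ^ 2 := by nlinarith
    calc 23 * (k : ℝ) ^ 13 ≤ (k : ℝ) ^ 2 * (k : ℝ) ^ 13 :=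
          mul_le_mul_of_nonneg_right this (by positivity)
      _ = (k : ℝ) ^ 15 := by ring
  have h9 : (bb k q : ℝ) + 1 ≤ (k : ℝ) ^ 15 := h7.trans h8
  exact_mod_cast h9

theorem fact_le : (k / l ^ 12).factorial ≤ k ^ (k / l ^ 12) :=
  (Nat.factorial_le_pow _).trans (Nat.pow_le_pow_left (Nat.div_le_self _ _) _)

theorem Lam_lt (H : Big k l) : (((k / l ^ 12).factorial : ℕ) : ℝ) < Real.exp (TT k l) := by
  have h1 : (((k / l ^ 12).factorial : ℕ) : ℝ) ≤ (k : ℝ) ^ (k / l ^ 12) := by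
    exact_mod_cast fact_le (k := k) (l := l)
  rw [kpow_exp H] at h1
  refine h1.trans_lt (Real.exp_lt_exp.2 (lt_TT H _ ?_))
  have hr := rmax_le H
  have hx := x_big H
  have hx0 := x_pos H
  have hL := L_pos H
  have hr1 : (1 : ℝ) ≤ ((k / l ^ 12 : ℕ) : ℝ) := by exact_mod_cast rmax_pos H
  have h2 : ((k / l ^ 12 : ℕ) : ℝ) * (10 ^ 5 * (l : ℝ) ^ 2) < k := by
    refine lt_of_lt_of_le ?_ hr
    have h3 : (10 : ℝ) ^ 5 * (l : ℝ) ^ 2 < (l : ℝ) ^ 12 := by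
      have h4 : (10 : ℝ) ^ 5 < (l : ℝ) ^ 10 := by
        have : (l : ℝ) ^ 1 ≤ (l : ℝ) ^ 10 :=
          pow_le_pow_right₀ (by linarith) (by norm_num)
        rw [pow_one] at this
        linarith [show (10 : ℝ) ^ 5 < 10 ^ 24 by norm_num]
      calc (10 : ℝ) ^ 5 * (l : ℝ) ^ 2 < (l : ℝ) ^ 10 * (l : ℝ) ^ 2 :=
            mul_lt_mul_of_pos_right h4 (by positivity)
        _ = (l : ℝ) ^ 12 := by ring
    exact mul_lt_mul_of_pos_left h3 (by linarith)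
  calc ((k / l ^ 12 : ℕ) : ℝ) * Real.log k * (10 ^ 5 * (l : ℝ) ^ 2)
      = ((k / l ^ 12 : ℕ) : ℝ) * (10 ^ 5 * (l : ℝ) ^ 2) * Real.log k := by ring
    _ < k * Real.log k := mul_lt_mul_of_pos_right h2 hL

theorem k_lt (H : Big k l) : (k : ℝ) ≤ Real.exp (TT k l) := by
  have h0 : (k : ℝ) = Real.exp (Real.log k) := (Real.exp_log (k_pos H)).symm
  conv_lhs => rw [h0]
  refine Real.exp_le_exp.2 (le_TT H _ ?_)
  have h1 := x_pow_lt H 2 (by norm_num)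
  have hL := L_pos H
  have hx0 := x_pos H
  have h2 : (10 : ℝ) ^ 5 * (l : ℝ) ^ 2 ≤ k := by
    refine le_trans ?_ h1
    exact mul_le_mul_of_nonneg_right (by norm_num) (by positivity)
  calc Real.log k * (10 ^ 5 * (l : ℝ) ^ 2) ≤ Real.log k * k :=
        mul_le_mul_of_nonneg_left h2 hL.le
    _ = _ := mul_comm _ _

theorem hqV_real (H : Big k l) :
    (((((2 * l) * k ^ (2 * l) + 1) ^ (2 * l) : ℕ)) : ℝ) ≤ Real.exp (TT k l) := by
  have hl1 := l_ge H 1 (by norm_num)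
  have hkl := lpow_le H 2 (by norm_num)
  have hl9 := l_ge H 9 (by norm_num)
  have h1 : ((2 * l) * k ^ (2 * l) + 1) ^ (2 * l) ≤ k ^ ((2 * l + 1) * (2 * l)) := by
    rw [pow_mul k (2 * l + 1)]
    refine Nat.pow_le_pow_left ?_ _
    have h2 : 1 ≤ k ^ (2 * l) := Nat.one_le_pow _ _ (by have := hk100 H; omega)
    calc (2 * l) * k ^ (2 * l) + 1 ≤ (2 * l) * k ^ (2 * l) + k ^ (2 * l) := by omega
      _ = (2 * l + 1) * k ^ (2 * l) := by ring
      _ ≤ k * k ^ (2 * l) := Nat.mul_le_mul (by nlinarith) le_rfl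
      _ = k ^ (2 * l + 1) := by ring
  have h2 : (((((2 * l) * k ^ (2 * l) + 1) ^ (2 * l) : ℕ)) : ℝ) ≤
      (k : ℝ) ^ ((2 * l + 1) * (2 * l)) := by exact_mod_cast h1
  refine h2.trans ?_
  rw [kpow_exp H]
  refine Real.exp_le_exp.2 (le_TT H _ ?_)
  have hL := L_pos H
  have hx0 := x_pos H
  have hx := x_big H
  have h3 := x_pow_lt H 4 (by norm_num)
  have h4 : (((2 * l + 1) * (2 * l) : ℕ) : ℝ) ≤ 6 * (l : ℝ) ^ 2 := by
    push_cast
    nlinarith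
  calc (((2 * l + 1) * (2 * l) : ℕ) : ℝ) * Real.log k * (10 ^ 5 * (l : ℝ) ^ 2)
      ≤ 6 * (l : ℝ) ^ 2 * Real.log k * (10 ^ 5 * (l : ℝ) ^ 2) := by
        refine mul_le_mul_of_nonneg_right (mul_le_mul_of_nonneg_right h4 hL.le) (by positivity)
    _ = (600000 * (l : ℝ) ^ 4) * Real.log k := by ring
    _ ≤ (10 ^ 24 * (l : ℝ) ^ 4) * Real.log k := by
        refine mul_le_mul_of_nonneg_right (mul_le_mul_of_nonneg_right (by norm_num)
          (by positivity)) hL.le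
    _ ≤ k * Real.log k := mul_le_mul_of_nonneg_right h3 hL.le

theorem hm_real (H : Big k l) : (((2 ^ (l ^ 8) : ℕ)) : ℝ) ≤ Real.exp (TT k l) := by
  push_cast
  refine (two_pow_le (l ^ 8)).trans (Real.exp_le_exp.2 (le_TT H _ ?_))
  have hL := H.hL6
  have hx0 := x_pos H
  have h3 := x_pow_lt H 10 (by norm_num)
  have hk := k_pos H
  push_cast
  calc (l : ℝ) ^ 8 * (10 ^ 5 * (l : ℝ) ^ 2) = 10 ^ 5 * (l : ℝ) ^ 10 := by ring
    _ ≤ 10 ^ 24 * (l : ℝ) ^ 10 :=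
      mul_le_mul_of_nonneg_right (by norm_num) (by positivity)
    _ ≤ k := h3
    _ = k * 1 := (mul_one _).symm
    _ ≤ k * Real.log k := mul_le_mul_of_nonneg_left (by linarith [show (1 : ℝ) ≤ 10 ^ 6 by norm_num]) hk.le

theorem N_le (H : Big k l) (M : Fin (l ^ 2) → ℕ) (hM : ∀ t, M t ≤ 2 ^ (l ^ 2) * M0 k l) :
    ((∏ t, M t : ℕ) : ℝ) ≤ Real.exp (k * Real.log k / 10 ^ 5 + k / 10 ^ 3) := by
  push_cast
  have h1 : ∏ t, (M t : ℝ) ≤ ∏ _t : Fin (l ^ 2), Real.exp (TT k l + (l : ℝ) ^ 2 + 2) :=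
    Finset.prod_le_prod (fun _ _ => by positivity) fun t _ => M_le H _ (hM t)
  refine h1.trans ?_
  rw [Finset.prod_const, Finset.card_univ, Fintype.card_fin, ← Real.exp_nat_mul]
  refine Real.exp_le_exp.2 ?_
  have h2 := TT_mul H
  have hx0 := x_pos H
  have hx := x_big H
  have h4 := x_pow_lt H 4 (by norm_num)
  have hk := k_pos H
  have h5 : (((l ^ 2 : ℕ) : ℝ)) * (TT k l + (l : ℝ) ^ 2 + 2) =
      (TT k l * (10 ^ 5 * (l : ℝ) ^ 2)) / 10 ^ 5 + ((l : ℝ) ^ 4 + 2 * (l : ℝ) ^ 2) := by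
    push_cast
    ring
  rw [h5, h2]
  have h6 : (l : ℝ) ^ 2 ≤ (l : ℝ) ^ 4 := pow_le_pow_right₀ (by linarith) (by norm_num)
  have h7 : (l : ℝ) ^ 4 + 2 * (l : ℝ) ^ 2 ≤ k / 10 ^ 3 := by
    rw [le_div_iff₀ (by positivity)]
    have h8 : (0 : ℝ) ≤ (l : ℝ) ^ 4 := by positivity
    nlinarith
  linarith

theorem N_gt (H : Big k l) (M : Fin (l ^ 2) → ℕ) (hM : ∀ t, M0 k l < M t) :
    (k : ℝ) ^ ((k : ℝ) / 100000) < ((∏ t, M t : ℕ) : ℝ) := by
  push_cast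
  have hx0 := x_pos H
  have hl1 := l_ge H 1 (by norm_num)
  have h1 : ∏ _t : Fin (l ^ 2), Real.exp (TT k l) < ∏ t, (M t : ℝ) := by
    refine Finset.prod_lt_prod_of_nonempty (fun _ _ => Real.exp_pos _) (fun t _ => ?_) ?_
    · have h2 : (M0 k l : ℝ) < M t := by exact_mod_cast hM t
      exact exp_le_M0.trans h2
    · have : 0 < l ^ 2 := by positivity
      exact ⟨⟨0, this⟩, Finset.mem_univ _⟩
  refine lt_of_eq_of_lt ?_ h1
  rw [Finset.prod_const, Finset.card_univ, Fintype.card_fin, ← Real.exp_nat_mul,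
    Real.rpow_def_of_pos (k_pos H)]
  congr 1
  have h2 := TT_mul H
  push_cast
  have h3 : (l : ℝ) ^ 2 * TT k l = (TT k l * (10 ^ 5 * (l : ℝ) ^ 2)) / 10 ^ 5 := by ring
  rw [h3, h2]
  ring

theorem n3_real (H : Big k l) (N : ℕ)
    (hN : (N : ℝ) ≤ Real.exp (k * Real.log k / 10 ^ 5 + k / 10 ^ 3)) :
    4 * ((N ^ 2 : ℕ) : ℝ) * 2 ^ k ≤ ((Nat.sqrt l : ℕ) : ℝ) ^ ((3 * k : ℝ) / 100) := by
  have hk := k_pos H
  have hL := H.hL6
  have hh := H.hh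
  have hkb := k_big H
  have hspos : (0 : ℝ) < ((Nat.sqrt l : ℕ) : ℝ) := by
    have : 0 < Nat.sqrt l := Nat.sqrt_pos.2 (l_ge H 1 (by norm_num))
    exact_mod_cast this
  rw [Real.rpow_def_of_pos hspos]
  have h1 : (4 : ℝ) ≤ Real.exp 3 := by
    have := Real.add_one_le_exp (3 : ℝ)
    linarith
  have h2 : ((N ^ 2 : ℕ) : ℝ) ≤ Real.exp (2 * (k * Real.log k / 10 ^ 5 + k / 10 ^ 3)) := by
    push_cast
    calc (N : ℝ) ^ 2 ≤ (Real.exp (k * Real.log k / 10 ^ 5 + k / 10 ^ 3)) ^ 2 :=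
          pow_le_pow_left₀ (by positivity) hN 2
      _ = _ := by rw [← Real.exp_nat_mul]; push_cast; rfl
  have h3 := two_pow_le k
  have h4 : 4 * ((N ^ 2 : ℕ) : ℝ) * 2 ^ k ≤
      Real.exp 3 * Real.exp (2 * (k * Real.log k / 10 ^ 5 + k / 10 ^ 3)) * Real.exp k :=
    mul_le_mul (mul_le_mul h1 h2 (by positivity) (by positivity)) h3 (by positivity)
      (by positivity)
  refine h4.trans ?_
  rw [← Real.exp_add, ← Real.exp_add]
  refine Real.exp_le_exp.2 ?_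
  have h5 : Real.log k / 1000 * (3 * k / 100) ≤ Real.log (Nat.sqrt l) * (3 * k / 100) :=
    mul_le_mul_of_nonneg_right hh (by positivity)
  refine le_trans ?_ h5
  have h6 : 10 ^ 6 * (k : ℝ) ≤ Real.log k * k := mul_le_mul_of_nonneg_right hL hk.le
  nlinarith

theorem n4_real (H : Big k l) (N : ℕ)
    (hN : (N : ℝ) ≤ Real.exp (k * Real.log k / 10 ^ 5 + k / 10 ^ 3)) :
    ((N ^ 2 : ℕ) : ℝ) * 2 ^ k * ((3 * ((l ^ 7 : ℕ) : ℝ)) / ((2 ^ (l ^ 8) : ℕ) : ℝ)) ^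
      ((k : ℝ) / (50 * ((l ^ 7 : ℕ) : ℝ))) < 1 := by
  have hk := k_pos H
  have hl0 : 0 < l := l_ge H 1 (by norm_num)
  have hx0 := x_pos H
  have hx := x_big H
  have hL := L_le_x H
  have hLp := L_pos H
  have h2 : ((N ^ 2 : ℕ) : ℝ) ≤ Real.exp (2 * (k * Real.log k / 10 ^ 5 + k / 10 ^ 3)) := by
    push_cast
    calc (N : ℝ) ^ 2 ≤ (Real.exp (k * Real.log k / 10 ^ 5 + k / 10 ^ 3)) ^ 2 :=
          pow_le_pow_left₀ (by positivity) hN 2
      _ = _ := by rw [← Real.exp_nat_mul]; push_cast; rfl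
  have h3 := two_pow_le k
  have hbase : (0 : ℝ) < (3 * ((l ^ 7 : ℕ) : ℝ)) / ((2 ^ (l ^ 8) : ℕ) : ℝ) := by positivity
  have hlog : Real.log ((3 * ((l ^ 7 : ℕ) : ℝ)) / ((2 ^ (l ^ 8) : ℕ) : ℝ)) ≤
      -((l : ℝ) ^ 8 / 2) := by
    rw [Real.log_div (by positivity) (by positivity)]
    have h5 : Real.log (3 * ((l ^ 7 : ℕ) : ℝ)) ≤ 3 * (l : ℝ) ^ 7 := by
      refine (Real.log_le_sub_one_of_pos (by positivity)).trans ?_
      push_cast
      linarith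
    have h6 : Real.log (((2 ^ (l ^ 8) : ℕ) : ℝ)) = (l : ℝ) ^ 8 * Real.log 2 := by
      push_cast
      rw [Real.log_pow]
      push_cast
      rfl
    have h7 := Real.log_two_gt_d9
    have h8 : 10 ^ 24 * (l : ℝ) ^ 7 ≤ (l : ℝ) ^ 8 := by
      calc (10 : ℝ) ^ 24 * (l : ℝ) ^ 7 ≤ l * (l : ℝ) ^ 7 :=
            mul_le_mul_of_nonneg_right hx (by positivity)
        _ = (l : ℝ) ^ 8 := by ring
    rw [h6]
    have h9 : (0 : ℝ) < (l : ℝ) ^ 7 := by positivity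
    have h10 : (l : ℝ) ^ 8 * 0.69 ≤ (l : ℝ) ^ 8 * Real.log 2 :=
      mul_le_mul_of_nonneg_left (by linarith) (by positivity)
    linarith [show (3 : ℝ) * (l : ℝ) ^ 7 ≤ 0.19 * (10 ^ 24 * (l : ℝ) ^ 7) by nlinarith]
  have h4 : ((3 * ((l ^ 7 : ℕ) : ℝ)) / ((2 ^ (l ^ 8) : ℕ) : ℝ)) ^
      ((k : ℝ) / (50 * ((l ^ 7 : ℕ) : ℝ))) ≤ Real.exp (-(k * l / 100)) := by
    rw [Real.rpow_def_of_pos hbase]
    refine Real.exp_le_exp.2 ?_
    have h5 : Real.log ((3 * ((l ^ 7 : ℕ) : ℝ)) / ((2 ^ (l ^ 8) : ℕ) : ℝ)) *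
        ((k : ℝ) / (50 * ((l ^ 7 : ℕ) : ℝ))) ≤
        -((l : ℝ) ^ 8 / 2) * ((k : ℝ) / (50 * ((l ^ 7 : ℕ) : ℝ))) :=
      mul_le_mul_of_nonneg_right hlog (by positivity)
    refine h5.trans (le_of_eq ?_)
    push_cast
    field_simp
    ring
  have h5 : ((N ^ 2 : ℕ) : ℝ) * 2 ^ k * ((3 * ((l ^ 7 : ℕ) : ℝ)) / ((2 ^ (l ^ 8) : ℕ) : ℝ)) ^
      ((k : ℝ) / (50 * ((l ^ 7 : ℕ) : ℝ))) ≤
      Real.exp (2 * (k * Real.log k / 10 ^ 5 + k / 10 ^ 3)) * Real.exp k *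
        Real.exp (-(k * l / 100)) :=
    mul_le_mul (mul_le_mul h2 h3 (by positivity) (by positivity)) h4 (by positivity)
      (by positivity)
  refine h5.trans_lt ?_
  rw [← Real.exp_add, ← Real.exp_add, Real.exp_lt_one_iff]
  have h6 : k * Real.log k ≤ k * (l / 10 ^ 18) := by
    refine mul_le_mul_of_nonneg_left ?_ hk.le
    rw [le_div_iff₀ (by positivity)]
    linarith
  have h7 : (k : ℝ) * 10 ^ 24 ≤ k * l := mul_le_mul_of_nonneg_left hx hk.le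
  nlinarith

theorem n5_cell (H : Big k l) (b Lam : ℕ) (hb : b + 1 ≤ k ^ 15) (hL1 : 1 ≤ Lam)
    (hLam : Lam ≤ k ^ (k / l ^ 12)) :
    ((Bcell k l Lam b : ℕ) : ℝ) ≤ Real.exp (7 * k / l) := by
  have hx0 := x_pos H
  have h1 := Bcell_le k l Lam b (k / l ^ 12) (hk100 H) hb hL1 hLam
  have h2 : ((Bcell k l Lam b : ℕ) : ℝ) ≤ (k : ℝ) ^ ((18 + k / l ^ 12) * 3 * l ^ 2) := by
    exact_mod_cast h1
  rw [kpow_exp H] at h2
  refine h2.trans (Real.exp_le_exp.2 ?_)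
  rw [le_div_iff₀ hx0]
  exact cell_exp H

theorem km_le (H : Big k l) (m : ℕ) (hm : (m : ℝ) ≤ Real.exp ((l : ℝ) ^ 8)) :
    (k : ℝ) ^ 3 * m ≤ Real.exp (2 * (l : ℝ) ^ 8) := by
  have hx0 := x_pos H
  have hx := x_big H
  rw [kpow_exp H]
  calc Real.exp ((3 : ℕ) * Real.log k) * m
      ≤ Real.exp ((3 : ℕ) * Real.log k) * Real.exp ((l : ℝ) ^ 8) :=
        mul_le_mul_of_nonneg_left hm (Real.exp_pos _).le
    _ = Real.exp ((3 : ℕ) * Real.log k + (l : ℝ) ^ 8) := by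
        rw [← Real.exp_add]
    _ ≤ _ := by
        refine Real.exp_le_exp.2 ?_
        have h4 : (l : ℝ) ^ 1 ≤ (l : ℝ) ^ 8 :=
          pow_le_pow_right₀ (by linarith) (by norm_num)
        have h5 := L_le_x H
        have h6 := L_pos H
        rw [pow_one] at h4
        push_cast
        nlinarith

theorem n5_th (H : Big k l) (m : ℕ) (hm1 : 1 ≤ m) (hm : (m : ℝ) ≤ Real.exp ((l : ℝ) ^ 8)) :
    ((Bth k l (k / l ^ 12) m : ℕ) : ℝ) ≤ Real.exp (12 * k / l) := by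
  have hx0 := x_pos H
  have hx := x_big H
  have h1 := Bth_le k l (k / l ^ 12) m (hk100 H) hm1
  have h2 : ((Bth k l (k / l ^ 12) m : ℕ) : ℝ) ≤
      ((k : ℝ) ^ 3 * m) ^ (3 * ((k / l ^ 12) * (l ^ 2 + 1))) := by
    exact_mod_cast h1
  refine h2.trans ?_
  have h4 : ((k : ℝ) ^ 3 * m) ^ (3 * ((k / l ^ 12) * (l ^ 2 + 1))) ≤
      (Real.exp (2 * (l : ℝ) ^ 8)) ^ (3 * ((k / l ^ 12) * (l ^ 2 + 1))) :=
    pow_le_pow_left₀ (by positivity) (km_le H m hm) _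
  refine h4.trans ?_
  rw [← Real.exp_nat_mul]
  refine Real.exp_le_exp.2 ?_
  rw [le_div_iff₀ hx0]
  have hr := rmax_le H
  generalize k / l ^ 12 = r at hr ⊢
  push_cast
  have hr0 : (0 : ℝ) ≤ (r : ℝ) := by positivity
  have h5 : (l : ℝ) ^ 2 + 1 ≤ 2 * (l : ℝ) ^ 2 := by nlinarith
  have h6 : 3 * ((r : ℝ) * ((l : ℝ) ^ 2 + 1)) * (2 * (l : ℝ) ^ 8) * l ≤
      3 * ((r : ℝ) * (2 * (l : ℝ) ^ 2)) * (2 * (l : ℝ) ^ 8) * l := by
    refine mul_le_mul_of_nonneg_right (mul_le_mul_of_nonneg_right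
      (mul_le_mul_of_nonneg_left (mul_le_mul_of_nonneg_left h5 hr0) (by norm_num))
      (by positivity)) hx0.le
  refine h6.trans ?_
  have h7 : 3 * ((r : ℝ) * (2 * (l : ℝ) ^ 2)) * (2 * (l : ℝ) ^ 8) * l =
      12 * ((r : ℝ) * (l : ℝ) ^ 11) := by ring
  rw [h7]
  have h8 : (l : ℝ) ^ 11 ≤ (l : ℝ) ^ 12 := pow_le_pow_right₀ (by linarith) (by norm_num)
  have h9 := mul_le_mul_of_nonneg_left h8 hr0
  linarith

theorem n5_q (H : Big k l) (q : ℕ) (hq : q ≤ 2 ^ (l ^ 2 + 1) * M0 k l) :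
    ((q ^ (2 * l) : ℕ) : ℝ) ≤ Real.exp ((2 * l) * (TT k l + (l : ℝ) ^ 2 + 3)) := by
  push_cast
  calc (q : ℝ) ^ (2 * l) ≤ (Real.exp (TT k l + (l : ℝ) ^ 2 + 3)) ^ (2 * l) :=
        pow_le_pow_left₀ (by positivity) (q_le H q hq) _
    _ = _ := by rw [← Real.exp_nat_mul]; push_cast; rfl

theorem n5_exps (H : Big k l) :
    7 + (7 * (k : ℝ) / l + 12 * k / l + (2 * l) * (TT k l + (l : ℝ) ^ 2 + 3)) +
      -(49 * k / (50 * Real.sqrt l)) ≤ 0 := by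
  have hk := k_pos H
  have hkb := k_big H
  have hx0 := x_pos H
  have hx := x_big H
  have hLp := L_pos H
  have hs := s_big H
  have hsx := s_le_x H
  have hs0 : 0 < Real.sqrt l := by linarith [show (0 : ℝ) < 10 ^ 12 by norm_num]
  -- the inequality between exponents, multiplied by `√l`
  have hLs := L_le_s H
  have hs2 := s_sq (l := l)
  have hT := TT_mul H
  have g1 : (7 : ℝ) ≤ k / (100 * Real.sqrt l) := by
    rw [le_div_iff₀ (by positivity)]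
    have := x_pow_lt H 1 (by norm_num)
    rw [pow_one] at this
    nlinarith
  have g2 : 7 * (k : ℝ) / l + 12 * k / l ≤ k / (100 * Real.sqrt l) := by
    rw [← add_div, div_le_div_iff₀ hx0 (by positivity)]
    have : 1900 * Real.sqrt l ≤ l := by nlinarith
    calc (7 * (k : ℝ) + 12 * k) * (100 * Real.sqrt l) = k * (1900 * Real.sqrt l) := by ring
      _ ≤ k * l := mul_le_mul_of_nonneg_left this hk.le
  have g3 : 2 * (l : ℝ) * TT k l ≤ k / (100 * Real.sqrt l) := by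
    rw [le_div_iff₀ (by positivity)]
    have h5 : 2 * (l : ℝ) * TT k l * (100 * Real.sqrt l) * (10 ^ 5 * l) =
        (TT k l * (10 ^ 5 * (l : ℝ) ^ 2)) * (200 * Real.sqrt l) := by ring
    have h6 : 2 * (l : ℝ) * TT k l * (100 * Real.sqrt l) * (10 ^ 5 * l) ≤ k * (10 ^ 5 * l) := by
      rw [h5, hT]
      have h7 : Real.log k * (200 * Real.sqrt l) ≤ 10 ^ 5 * l := by
        have h9 : Real.log k ≤ Real.sqrt l := by nlinarith
        have h10 : Real.log k * Real.sqrt l ≤ Real.sqrt l * Real.sqrt l :=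
          mul_le_mul_of_nonneg_right h9 hs0.le
        nlinarith
      calc k * Real.log k * (200 * Real.sqrt l) = k * (Real.log k * (200 * Real.sqrt l)) := by
            ring
        _ ≤ k * (10 ^ 5 * l) := mul_le_mul_of_nonneg_left h7 hk.le
    exact le_of_mul_le_mul_right h6 (by positivity)
  have g4 : 2 * (l : ℝ) * ((l : ℝ) ^ 2 + 3) ≤ k / (100 * Real.sqrt l) := by
    rw [le_div_iff₀ (by positivity)]
    have h5 := x_pow_lt H 4 (by norm_num)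
    have h6 : Real.sqrt l ≤ l := by nlinarith
    have h7 : (l : ℝ) ^ 2 + 3 ≤ 2 * (l : ℝ) ^ 2 := by nlinarith
    calc 2 * (l : ℝ) * ((l : ℝ) ^ 2 + 3) * (100 * Real.sqrt l)
        ≤ 2 * (l : ℝ) * (2 * (l : ℝ) ^ 2) * (100 * l) := by
          refine mul_le_mul (mul_le_mul_of_nonneg_left h7 (by positivity)) (by linarith)
            (by positivity) (by positivity)
      _ = 400 * (l : ℝ) ^ 4 := by ring
      _ ≤ 10 ^ 24 * (l : ℝ) ^ 4 := mul_le_mul_of_nonneg_right (by norm_num) (by positivity)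
      _ ≤ k := h5
  have g5 : 49 * (k : ℝ) / (50 * Real.sqrt l) = 98 * (k / (100 * Real.sqrt l)) := by
    field_simp
    ring
  have g6 : 0 < (k : ℝ) / (100 * Real.sqrt l) := by positivity
  rw [g5]
  have g7 : 2 * (l : ℝ) * (TT k l + (l : ℝ) ^ 2 + 3) =
      2 * (l : ℝ) * TT k l + 2 * (l : ℝ) * ((l : ℝ) ^ 2 + 3) := by ring
  rw [g7]
  linarith

theorem n5_real (H : Big k l) (b Lam q m : ℕ) (hb : b + 1 ≤ k ^ 15) (hL1 : 1 ≤ Lam)
    (hLam : Lam ≤ k ^ (k / l ^ 12)) (hq : q ≤ 2 ^ (l ^ 2 + 1) * M0 k l)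
    (hm1 : 1 ≤ m) (hm : (m : ℝ) ≤ Real.exp ((l : ℝ) ^ 8)) :
    8 * ((Bcell k l Lam b * Bth k l (k / l ^ 12) m * q ^ (2 * l) : ℕ) : ℝ) *
    Real.exp (-(49 * k : ℝ) / (50 * ((Nat.sqrt l : ℕ) : ℝ))) ≤ 1 := by
  have hk := k_pos H
  have hB1 := n5_cell H b Lam hb hL1 hLam
  have hB2 := n5_th H m hm1 hm
  have hB3 := n5_q H q hq
  have h8 : (8 : ℝ) ≤ Real.exp 7 := by
    have := Real.add_one_le_exp (7 : ℝ)
    linarith
  rw [Nat.cast_mul, Nat.cast_mul]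
  generalize ((Bcell k l Lam b : ℕ) : ℝ) = u1 at hB1 ⊢
  have hu2 : (0 : ℝ) ≤ ((Bth k l (k / l ^ 12) m : ℕ) : ℝ) := Nat.cast_nonneg _
  generalize ((Bth k l (k / l ^ 12) m : ℕ) : ℝ) = u2 at hB2 hu2 ⊢
  have hu3 : (0 : ℝ) ≤ ((q ^ (2 * l) : ℕ) : ℝ) := Nat.cast_nonneg _
  generalize ((q ^ (2 * l) : ℕ) : ℝ) = u3 at hB3 hu3 ⊢
  have h1 : 8 * (u1 * u2 * u3) ≤
      Real.exp 7 * ((Real.exp (7 * k / l) * Real.exp (12 * k / l)) *
        Real.exp ((2 * l) * (TT k l + (l : ℝ) ^ 2 + 3))) := by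
    refine (mul_le_mul_of_nonneg_left ?_ (by norm_num)).trans
      (mul_le_mul_of_nonneg_right h8 (by positivity))
    refine mul_le_mul ?_ hB3 hu3 (by positivity)
    exact mul_le_mul hB1 hB2 hu2 (by positivity)
  have hsq : (0 : ℝ) < ((Nat.sqrt l : ℕ) : ℝ) := by
    have : 0 < Nat.sqrt l := Nat.sqrt_pos.2 (l_ge H 1 (by norm_num))
    exact_mod_cast this
  have hsq2 : ((Nat.sqrt l : ℕ) : ℝ) ≤ Real.sqrt l := Real.nat_sqrt_le_real_sqrt
  have h2 : Real.exp (-(49 * k : ℝ) / (50 * ((Nat.sqrt l : ℕ) : ℝ))) ≤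
      Real.exp (-(49 * k / (50 * Real.sqrt l))) := by
    refine Real.exp_le_exp.2 ?_
    rw [neg_div]
    refine neg_le_neg ?_
    exact div_le_div_of_nonneg_left (by positivity) (by positivity) (by linarith)
  refine (mul_le_mul h1 h2 (Real.exp_pos _).le (by positivity)).trans ?_
  rw [← Real.exp_add, ← Real.exp_add, ← Real.exp_add, ← Real.exp_add, Real.exp_le_one_iff]
  exact n5_exps H

end real

end Prm

open Prm in
theorem params : ∃ K₀ : ℕ, ∀ k : ℕ, K₀ ≤ k →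
    ∃ P : Par, P.k = k ∧ P.Num ∧ (k : ℝ) ^ ((k : ℝ) / 100000) < P.N := by
  obtain ⟨K₀, hK₀⟩ := exists_big
  refine ⟨K₀, fun k hk => ?_⟩
  obtain ⟨l, H⟩ := hK₀ k hk
  have hl1 : 1 ≤ l := l_ge H 1 (by norm_num)
  obtain ⟨M, q, hinj, hM, hqp, hqlow, hqup⟩ :=
    exists_primes_D (l ^ 2) (M0 k l) (le_trans (by norm_num) two_le_M0)
  have hMp : ∀ t, (M t).Prime := fun t => (hM t).1
  have hMlow : ∀ t, M0 k l < M t := fun t => (hM t).2.1
  have hMup : ∀ t, M t ≤ 2 ^ (l ^ 2) * M0 k l := fun t => (hM t).2.2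
  have hk100 := hk100 H
  have hM0M : ∀ t, Real.exp (TT k l) < M t := fun t =>
    exp_le_M0.trans (by exact_mod_cast hMlow t)
  have hq0 : 0 < q := hqp.pos
  have hMq : ∀ t, M t < q := fun t => (hMup t).trans_lt hqlow
  have hexpq : Real.exp (TT k l) < q := by
    have h1 : M0 k l ≤ 2 ^ (l ^ 2) * M0 k l := Nat.le_mul_of_pos_left _ (by positivity)
    have h2 : M0 k l < q := lt_of_le_of_lt h1 hqlow
    exact exp_le_M0.trans (by exact_mod_cast h2)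
  have hb := bb_le H q hq0 hqup
  have hLam1 : 1 ≤ (k / l ^ 12).factorial := Nat.factorial_pos _
  have hLamk : (k / l ^ 12).factorial ≤ k ^ (k / l ^ 12) := fact_le
  have hm8 : (((2 ^ (l ^ 8) : ℕ)) : ℝ) ≤ Real.exp ((l : ℝ) ^ 8) := by
    have := two_pow_le (l ^ 8)
    push_cast at this ⊢
    exact this
  have hN := N_le H M hMup
  refine ⟨{
    k := k
    l := l
    rmax := k / l ^ 12
    w := l ^ 7
    R := 8 * k ^ 12
    Lam := (k / l ^ 12).factorial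
    m := 2 ^ (l ^ 8)
    q := q
    h := Nat.sqrt l
    b := bb k q
    M := M
    hk := hk100
    hl := hl1
    hr1 := rmax_pos H
    hrk := ?_
    hLam := hLam1
    hdiv := fun r hr hr' => Nat.dvd_factorial hr hr'
    hR := le_rfl
    hMp := hMp
    hMinj := hinj
    hMk := ?_
    hMLam := ?_
    hMq := hMq
    hq := hqp
    hqV := ?_
    hw := ?_
    hwk := lpow_le H 7 (by norm_num)
    hb := ?_
    hh := ?_
    hmq := ?_
    hwm := ?_ }, rfl, ⟨?_, ?_, ?_, ?_, ?_⟩, ?_⟩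
  · -- hrk
    have h1 : k / l ^ 12 * l ^ 12 ≤ k := Nat.div_mul_le_self k (l ^ 12)
    have h2 : 20 ≤ l ^ 12 := (l_ge H 20 (by norm_num)).trans (Nat.le_self_pow (by norm_num) l)
    calc 20 * (k / l ^ 12) ≤ l ^ 12 * (k / l ^ 12) := Nat.mul_le_mul h2 le_rfl
      _ = k / l ^ 12 * l ^ 12 := mul_comm _ _
      _ ≤ k := h1
  · -- hMk
    intro t
    have := (k_lt H).trans_lt (hM0M t)
    exact_mod_cast this
  · intro t
    have := (Lam_lt H).trans (hM0M t)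
    exact_mod_cast this
  · have := (hqV_real H).trans_lt hexpq
    exact_mod_cast this
  · -- hw
    have h1 : 6400000000 ≤ l := l_ge H _ (by norm_num)
    calc 10 ^ 8 * (2 * l) ^ 6 = 6400000000 * l ^ 6 := by ring
      _ ≤ l * l ^ 6 := Nat.mul_le_mul h1 le_rfl
      _ = l ^ 7 := by ring
  · -- hb
    intro t
    unfold bb
    refine le_trans ?_ (Nat.le_ceil _)
    have h1 : Real.log (M t) ≤ Real.log q := by
      refine Real.log_le_log ?_ ?_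
      · exact_mod_cast (hMp t).pos
      · exact_mod_cast (hMq t).le
    have h2 : ((8 * k ^ 12 : ℕ) : ℝ) * Real.log (M t) ≤ ((8 * k ^ 12 : ℕ) : ℝ) * Real.log q :=
      mul_le_mul_of_nonneg_left h1 (by positivity)
    linarith
  · -- hh
    exact Nat.le_sqrt'.2 ((l_ge H (2 ^ 2) (by norm_num)))
  · -- hmq
    have := (hm_real H).trans hexpq.le
    exact_mod_cast this
  · -- hwm
    have h1 : 3 * l ^ 7 ≤ l ^ 8 := by
      have := l_ge H 3 (by norm_num)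
      calc 3 * l ^ 7 ≤ l * l ^ 7 := Nat.mul_le_mul this le_rfl
        _ = l ^ 8 := by ring
    exact h1.trans (Nat.lt_two_pow_self).le
  · exact n1_real H _ hb
  · exact n2_real H _ _ hb hLam1 hLamk
  · exact n3_real H _ hN
  · exact n4_real H _ hN
  · exact n5_real H _ _ _ _ hb hLam1 hLamk hqup Nat.one_le_two_pow hm8
  · exact N_gt H M hMlow

end VDW
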