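import Crest.Agent.Vdw.Assembly
import Crest.Agent.Vdw.Params
import Crest.Agent.Vdw.Final

/-! S0086: the cyclic statement and the final theorem. -/

set_option autoImplicit false

namespace VDW

theorem cyclic : Cyclic := by
  obtain ⟨K₀, h⟩ := params
  refine ⟨K₀, fun k hk => ?_⟩
  obtain ⟨P, hPk, hnum, hN⟩ := h k hk
  subst hPk
  refine ⟨P.N, ?_, hN, assembly P hnum⟩
  exact Finset.prod_pos (fun t _ => (P.hMp t).pos)

end VDW
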