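import Crest.Agent.S86.LLL

/-!
S0086 (van der Waerden), module Balance: a colouring `g` of the cells which is balanced on all
patterns (Lovász local lemma + Chernoff).
-/

set_option autoImplicit false

open Finset

namespace VDW

/-- **Chernoff bound**, counting form. -/
theorem chernoff2 {C : Type*} [Fintype C] [DecidableEq C] (m : C → ℕ) (k w : ℕ) (hw : 1 ≤ w)
    (hsum : ∑ c, m c = k) (hm : ∀ c, m c ≤ w) (b : Bool) :
    ((univ.filter fun g : C → Bool => 20 * ∑ c, (if g c = b then m c else 0) ≤ k).card : ℝ) ≤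
      Real.exp (-(2 * k : ℝ) / (5 * w)) * 2 ^ Fintype.card C := by
  have hw' : (0 : ℝ) < w := by exact_mod_cast hw
  set s : ℝ := 9 / (10 * w) with hs
  have hs0 : 0 ≤ s := by positivity
  -- exponential moment
  have hmom : ∑ g : C → Bool, Real.exp (s * ∑ c, (if g c = b then -(m c : ℝ) else m c)) =
      ∏ c : C, (2 * Real.cosh (s * m c)) := by
    have h1 : ∀ c : C, (2 * Real.cosh (s * m c)) =
        ∑ j : Bool, Real.exp (s * (if j = b then -(m c : ℝ) else m c)) := by
      intro c
      rw [Real.cosh_eq]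
      cases b <;> simp <;> ring
    simp_rw [h1]
    rw [Finset.prod_univ_sum]
    rw [Fintype.piFinset_univ]
    apply Finset.sum_congr rfl
    intro g _
    rw [Finset.mul_sum, Real.exp_sum]
  have hsq : ∑ c : C, ((m c : ℝ)) ^ 2 ≤ w * k := by
    have h1 : ∑ c : C, ((m c : ℝ)) ^ 2 ≤ ∑ c : C, (w : ℝ) * m c := by
      apply Finset.sum_le_sum
      intro c _
      rw [sq]
      apply mul_le_mul_of_nonneg_right _ (Nat.cast_nonneg _)
      exact_mod_cast hm c
    rw [← Finset.mul_sum] at h1
    have h2 : ∑ c : C, (m c : ℝ) = k := by exact_mod_cast hsum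
    rwa [h2] at h1
  have hfac : ∏ c : C, (2 * Real.cosh (s * m c)) ≤
      2 ^ Fintype.card C * Real.exp (s ^ 2 * (w * k) / 2) := by
    have h1 : ∏ c : C, (2 * Real.cosh (s * m c)) ≤ ∏ c : C, (2 * Real.exp ((s * m c) ^ 2 / 2)) := by
      apply Finset.prod_le_prod
      · intro c _
        have := Real.cosh_pos (s * m c)
        positivity
      · intro c _
        have := Real.cosh_le_exp_half_sq (s * m c)
        linarith
    refine h1.trans ?_
    rw [Finset.prod_mul_distrib, Finset.prod_const, Finset.card_univ, ← Real.exp_sum]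
    apply mul_le_mul_of_nonneg_left _ (by positivity)
    apply Real.exp_le_exp.mpr
    have h2 : ∑ c : C, (s * (m c : ℝ)) ^ 2 / 2 = s ^ 2 * (∑ c : C, (m c : ℝ) ^ 2) / 2 := by
      rw [Finset.mul_sum, Finset.sum_div]
      apply Finset.sum_congr rfl
      intro c _
      ring
    rw [h2]
    have := mul_le_mul_of_nonneg_left hsq (sq_nonneg s)
    linarith
  set A := univ.filter fun g : C → Bool => 20 * ∑ c, (if g c = b then m c else 0) ≤ k with hA
  have hlow : (A.card : ℝ) * Real.exp (s * (9 / 10 * k)) ≤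
      ∑ g : C → Bool, Real.exp (s * ∑ c, (if g c = b then -(m c : ℝ) else m c)) := by
    have h1 : (A.card : ℝ) * Real.exp (s * (9 / 10 * k)) = ∑ g ∈ A, Real.exp (s * (9 / 10 * k)) := by
      rw [Finset.sum_const, nsmul_eq_mul]
    rw [h1]
    refine le_trans (Finset.sum_le_sum (fun g hg => ?_))
      (Finset.sum_le_sum_of_subset_of_nonneg (Finset.subset_univ A)
        (fun g _ _ => (Real.exp_pos _).le))
    rw [hA, mem_filter] at hg
    apply Real.exp_le_exp.mpr
    apply mul_le_mul_of_nonneg_left _ hs0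
    have h2 : (20 : ℝ) * ∑ c, (if g c = b then (m c : ℝ) else 0) ≤ k := by
      have := hg.2
      exact_mod_cast this
    have h3 : ∑ c, (if g c = b then -(m c : ℝ) else m c) =
        ∑ c, (m c : ℝ) - 2 * ∑ c, (if g c = b then (m c : ℝ) else 0) := by
      rw [Finset.mul_sum, ← Finset.sum_sub_distrib]
      apply Finset.sum_congr rfl
      intro c _
      by_cases h : g c = b <;> simp [h]
      ring
    have h4 : ∑ c : C, (m c : ℝ) = k := by exact_mod_cast hsum
    rw [h3, h4]
    linarith
  rw [hmom] at hlow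
  have h1 := hlow.trans hfac
  have h2 : (A.card : ℝ) ≤ 2 ^ Fintype.card C * Real.exp (s ^ 2 * (w * k) / 2) *
      Real.exp (-(s * (9 / 10 * k))) := by
    have h3 : Real.exp (s * (9 / 10 * k)) * Real.exp (-(s * (9 / 10 * k))) = 1 := by
      rw [← Real.exp_add, add_neg_cancel, Real.exp_zero]
    calc (A.card : ℝ) = A.card * Real.exp (s * (9 / 10 * k)) * Real.exp (-(s * (9 / 10 * k))) := by
          rw [mul_assoc, h3, mul_one]
      _ ≤ _ := mul_le_mul_of_nonneg_right h1 (Real.exp_pos _).le
  refine h2.trans ?_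
  rw [mul_assoc, ← Real.exp_add, mul_comm]
  apply mul_le_mul_of_nonneg_right _ (by positivity)
  apply Real.exp_le_exp.mpr
  have h5 : s ^ 2 * (w * k) / 2 + -(s * (9 / 10 * k)) = -(81 / 200 : ℝ) * (k / w) := by
    rw [hs]; field_simp; ring
  have h6 : -(2 * k : ℝ) / (5 * w) = -(80 / 200 : ℝ) * (k / w) := by
    field_simp; ring
  rw [h5, h6]
  have h7 : (0 : ℝ) ≤ k / w := by positivity
  linarith

/-- number of visits. -/
theorem card_colour_eq {C : Type*} [Fintype C] [DecidableEq C] {k : ℕ} (p : Fin k → C)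
    (g : C → Bool) (b : Bool) :
    (univ.filter fun j => g (p j) = b).card =
      ∑ c, (if g c = b then (univ.filter fun j => p j = c).card else 0) := by
  rw [← Finset.sum_filter]
  rw [Finset.card_eq_sum_card_fiberwise (s := (univ.filter fun j => g (p j) = b))
    (t := univ.filter fun c => g c = b) (f := p) (fun x hx => by
      simp only [coe_filter, mem_univ, true_and, Set.mem_ofPred_eq] at hx ⊢
      exact hx)]
  apply Finset.sum_congr rfl
  intro c hc
  congr 1
  ext j
  simp only [mem_filter, mem_univ, true_and] at hc ⊢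
  constructor
  · rintro ⟨_, h⟩; exact h
  · intro h; exact ⟨by rw [h]; exact hc, h⟩

theorem bad_card_le {C : Type*} [Fintype C] [DecidableEq C] {k : ℕ} (w : ℕ) (hw : 1 ≤ w)
    (p : Fin k → C) (h : ∀ c, (univ.filter (fun j => p j = c)).card ≤ w)
    [DecidablePred fun g : C → Bool => ∃ b, 20 * (univ.filter fun j => g (p j) = b).card ≤ k] :
    ((univ.filter fun g : C → Bool => ∃ b, 20 * (univ.filter fun j => g (p j) = b).card ≤ k).card : ℝ)
      ≤ 2 * Real.exp (-(2 * k : ℝ) / (5 * w)) * 2 ^ Fintype.card C := by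
  classical
  have hs : ∑ c, (univ.filter (fun j => p j = c)).card = k := by
    have := Finset.card_eq_sum_card_fiberwise (s := (univ : Finset (Fin k)))
      (t := (univ : Finset C)) (f := p) (fun x _ => by simp)
    rw [Finset.card_univ, Fintype.card_fin] at this
    exact this.symm
  have h1 : (univ.filter fun g : C → Bool =>
        ∃ b, 20 * (univ.filter fun j => g (p j) = b).card ≤ k) ⊆
      (univ.filter fun g : C → Bool =>
        20 * ∑ c, (if g c = true then (univ.filter fun j => p j = c).card else 0) ≤ k) ∪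
      (univ.filter fun g : C → Bool =>
        20 * ∑ c, (if g c = false then (univ.filter fun j => p j = c).card else 0) ≤ k) := by
    intro g hg
    obtain ⟨b, hb⟩ := (mem_filter.mp hg).2
    rw [mem_union, mem_filter, mem_filter, ← card_colour_eq, ← card_colour_eq]
    cases b
    · right; exact ⟨mem_univ _, hb⟩
    · left; exact ⟨mem_univ _, hb⟩
  have h2 := (Finset.card_le_card h1).trans (Finset.card_union_le _ _)
  have h3 := chernoff2 (fun c => (univ.filter (fun j => p j = c)).card) k w hw hs h true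
  have h4 := chernoff2 (fun c => (univ.filter (fun j => p j = c)).card) k w hw hs h false
  have h5 : ((univ.filter fun g : C → Bool =>
        ∃ b, 20 * (univ.filter fun j => g (p j) = b).card ≤ k).card : ℝ) ≤
      ((univ.filter fun g : C → Bool =>
        20 * ∑ c, (if g c = true then (univ.filter fun j => p j = c).card else 0) ≤ k).card : ℝ) +
      ((univ.filter fun g : C → Bool =>
        20 * ∑ c, (if g c = false then (univ.filter fun j => p j = c).card else 0) ≤ k).card : ℝ) := by
    exact_mod_cast h2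
  linarith

theorem balance_fin {C : Type*} [Fintype C] [DecidableEq C] (k w B₁ B₂ : ℕ)
    (P₁ P₂ : Finset (Fin k → C))
    (hk : 1 ≤ k) (hw : 1 ≤ w)
    (h1 : ∀ p ∈ P₁, ∀ c, (univ.filter (fun j => p j = c)).card ≤ w)
    (h2 : ∀ p ∈ P₂, ∀ c, (univ.filter (fun j => p j = c)).card ≤ 21)
    (hB1 : ∀ c, (P₁.filter (fun p => ∃ j, p j = c)).card ≤ B₁) (hB2 : P₂.card ≤ B₂)
    (hn1 : 16 * (k : ℝ) * B₁ * Real.exp (-(2 * k : ℝ) / (5 * w)) ≤ 1)
    (hn2 : 16 * (B₂ : ℝ) * Real.exp (-(2 * k : ℝ) / (5 * 21)) ≤ 1) :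
    ∃ g : C → Bool, ∀ p ∈ P₁ ∪ P₂,
      k < 20 * (univ.filter (fun j => g (p j) = true)).card ∧
      k < 20 * (univ.filter (fun j => g (p j) = false)).card := by
  classical
  have hk1 : (1 : ℝ) ≤ k := by exact_mod_cast hk
  set e1 : ℝ := Real.exp (-(2 * k : ℝ) / (5 * w)) with he1
  set e2 : ℝ := Real.exp (-(2 * k : ℝ) / (5 * 21)) with he2
  have he1p : 0 < e1 := Real.exp_pos _
  have he2p : 0 < e2 := Real.exp_pos _
  let S : (Fin k → C) → Finset C := fun p => univ.image p
  let B : (Fin k → C) → (C → Bool) → Prop := fun p g => ∃ b : Bool,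
    20 * (univ.filter fun j => g (p j) = b).card ≤ k
  let q : (Fin k → C) → ℝ := fun p => if p ∈ P₁ then 2 * e1 else 2 * e2
  have hq0 : ∀ p, 0 ≤ q p := by
    intro p
    simp only [q]
    split <;> positivity
  have hcard : ∀ b : ℕ, 0 < b → (1 : ℝ) ≤ b := fun b hb => by exact_mod_cast hb
  obtain ⟨g, hg⟩ := Crest.Agent.S86.lll (α := Bool) (P₁ ∪ P₂) S B (by
      intro p _ g g' hgg' ⟨b, hb⟩
      refine ⟨b, ?_⟩
      have : (univ.filter fun j => g' (p j) = b) = (univ.filter fun j => g (p j) = b) := by
        apply Finset.filter_congr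
        intro j _
        rw [hgg' (p j) (mem_image_of_mem _ (mem_univ _))]
      rw [this]; exact hb) q (by
      intro p hp
      have h6 : (Fintype.card (C → Bool) : ℝ) = 2 ^ Fintype.card C := by
        rw [Fintype.card_fun, Fintype.card_bool]; push_cast; rfl
      rw [h6]
      simp only [q]
      split_ifs with hp1
      · exact bad_card_le w hw p (h1 p hp1)
      · have hp2 : p ∈ P₂ := by
          rcases mem_union.mp hp with h | h
          · exact absurd h hp1
          · exact h
        have := bad_card_le 21 (by norm_num) p (h2 p hp2)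
        rw [he2]
        exact_mod_cast this) (by
      intro p hp
      simp only [q]
      split_ifs with hp1
      · have hpos : 0 < B₁ := by
          refine lt_of_lt_of_le ?_ (hB1 (p ⟨0, hk⟩))
          rw [Finset.card_pos]
          exact ⟨p, mem_filter.mpr ⟨hp1, ⟨0, hk⟩, rfl⟩⟩
        have hB := hcard _ hpos
        have : e1 ≤ k * B₁ * e1 := by
          have : (1 : ℝ) ≤ k * B₁ := by nlinarith
          nlinarith
        nlinarith
      · have hp2 : p ∈ P₂ := by
          rcases mem_union.mp hp with h | h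
          · exact absurd h hp1
          · exact h
        have hpos : 0 < B₂ := lt_of_lt_of_le (Finset.card_pos.mpr ⟨p, hp2⟩) hB2
        have hB := hcard _ hpos
        nlinarith) (by
      intro p hp
      have hsub : (P₁ ∪ P₂).filter (fun j => ¬ Disjoint (S j) (S p)) ⊆
          ((S p).biUnion (fun c => P₁.filter (fun p => ∃ j, p j = c))) ∪ (P₂ \ P₁) := by
        intro j hj
        rw [mem_filter, Finset.not_disjoint_iff] at hj
        obtain ⟨hjI, c, hc1, hc2⟩ := hj
        rw [mem_union]
        by_cases hj1 : j ∈ P₁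
        · left
          rw [mem_biUnion]
          refine ⟨c, hc2, mem_filter.mpr ⟨hj1, ?_⟩⟩
          obtain ⟨i, _, hi⟩ := mem_image.mp hc1
          exact ⟨i, hi⟩
        · right
          rw [mem_sdiff]
          rcases mem_union.mp hjI with h | h
          · exact absurd h hj1
          · exact ⟨h, hj1⟩
      have hcount : (((S p).biUnion (fun c => P₁.filter (fun p => ∃ j, p j = c))).card : ℝ) ≤
          k * B₁ := by
        have h3 : ((S p).biUnion (fun c => P₁.filter (fun p => ∃ j, p j = c))).card ≤ k * B₁ := by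
          refine (Finset.card_biUnion_le_card_mul _ _ B₁ (fun c _ => hB1 c)).trans ?_
          apply Nat.mul_le_mul_right
          have := Finset.card_image_le (s := (univ : Finset (Fin k))) (f := p)
          simpa using this
        exact_mod_cast h3
      have hcount2 : (((P₂ \ P₁)).card : ℝ) ≤ B₂ := by
        exact_mod_cast (Finset.card_le_card (Finset.sdiff_subset)).trans hB2
      calc ∑ j ∈ (P₁ ∪ P₂).filter (fun j => ¬ Disjoint (S j) (S p)), q j
          ≤ ∑ j ∈ ((S p).biUnion (fun c => P₁.filter (fun p => ∃ j, p j = c))) ∪ (P₂ \ P₁), q j :=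
            Finset.sum_le_sum_of_subset_of_nonneg hsub (fun j _ _ => hq0 j)
        _ ≤ ∑ j ∈ ((S p).biUnion (fun c => P₁.filter (fun p => ∃ j, p j = c))), q j +
            ∑ j ∈ (P₂ \ P₁), q j := by
            rw [← Finset.sum_union_inter]
            have := Finset.sum_nonneg (fun j (_ : j ∈
              ((S p).biUnion (fun c => P₁.filter (fun p => ∃ j, p j = c))) ∩ (P₂ \ P₁)) => hq0 j)
            linarith
        _ = ∑ j ∈ ((S p).biUnion (fun c => P₁.filter (fun p => ∃ j, p j = c))), 2 * e1 +
            ∑ j ∈ (P₂ \ P₁), 2 * e2 := by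
            congr 1
            · apply Finset.sum_congr rfl
              intro j hj
              obtain ⟨c, _, hc⟩ := mem_biUnion.mp hj
              simp only [q]
              rw [if_pos (mem_filter.mp hc).1]
            · apply Finset.sum_congr rfl
              intro j hj
              simp only [q]
              rw [if_neg (mem_sdiff.mp hj).2]
        _ ≤ (k * B₁) * (2 * e1) + B₂ * (2 * e2) := by
            rw [Finset.sum_const, Finset.sum_const, nsmul_eq_mul, nsmul_eq_mul]
            have := mul_le_mul_of_nonneg_right hcount (show (0 : ℝ) ≤ 2 * e1 by positivity)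
            have := mul_le_mul_of_nonneg_right hcount2 (show (0 : ℝ) ≤ 2 * e2 by positivity)
            linarith
        _ ≤ 1 / 4 := by nlinarith)
  refine ⟨g, fun p hp => ?_⟩
  have h := hg p hp
  constructor
  · by_contra hcon
    exact h ⟨true, by omega⟩
  · by_contra hcon
    exact h ⟨false, by omega⟩

theorem balance {C : Type} [DecidableEq C] (k w B₁ B₂ : ℕ) (P₁ P₂ : Finset (Fin k → C))
    (hk : 1 ≤ k) (hw : 1 ≤ w)
    (h1 : ∀ p ∈ P₁, ∀ c, (univ.filter (fun j => p j = c)).card ≤ w)
    (h2 : ∀ p ∈ P₂, ∀ c, (univ.filter (fun j => p j = c)).card ≤ 21)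
    (hB1 : ∀ c, (P₁.filter (fun p => ∃ j, p j = c)).card ≤ B₁) (hB2 : P₂.card ≤ B₂)
    (hn1 : 16 * (k : ℝ) * B₁ * Real.exp (-(2 * k : ℝ) / (5 * w)) ≤ 1)
    (hn2 : 16 * (B₂ : ℝ) * Real.exp (-(2 * k : ℝ) / (5 * 21)) ≤ 1) :
    ∃ g : C → Bool, ∀ p ∈ P₁ ∪ P₂,
      k < 20 * (univ.filter (fun j => g (p j) = true)).card ∧
      k < 20 * (univ.filter (fun j => g (p j) = false)).card := by
  classical
  set F : Finset C := (P₁ ∪ P₂).biUnion (fun p => univ.image p) with hF
  rcases (P₁ ∪ P₂).eq_empty_or_nonempty with hE | hne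
  · refine ⟨fun _ => true, fun p hp => ?_⟩
    rw [hE] at hp
    exact absurd hp (Finset.notMem_empty _)
  obtain ⟨p0, hp0⟩ := hne
  have hmem : ∀ p ∈ P₁ ∪ P₂, ∀ j, p j ∈ F := by
    intro p hp j
    rw [hF, mem_biUnion]
    exact ⟨p, hp, mem_image_of_mem _ (mem_univ _)⟩
  let c0 : F := ⟨p0 ⟨0, hk⟩, hmem p0 hp0 _⟩
  let e : (Fin k → C) → (Fin k → F) := fun p j => if h : p j ∈ F then ⟨p j, h⟩ else c0
  have he : ∀ p ∈ P₁ ∪ P₂, ∀ j, ((e p j : F) : C) = p j := by
    intro p hp j
    simp only [e]
    rw [dif_pos (hmem p hp j)]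
  have he' : ∀ p ∈ P₁ ∪ P₂, ∀ j (c : F), e p j = c ↔ p j = c := by
    intro p hp j c
    rw [← he p hp j, Subtype.ext_iff]
  obtain ⟨g, hg⟩ := balance_fin (C := F) k w B₁ B₂ (P₁.image e) (P₂.image e) hk hw (by
      intro p' hp' c
      obtain ⟨p, hp, rfl⟩ := mem_image.mp hp'
      refine le_trans (le_of_eq ?_) (h1 p hp c)
      congr 1
      ext j
      simp only [mem_filter, mem_univ, true_and]
      exact he' p (mem_union_left _ hp) j c) (by
      intro p' hp' c
      obtain ⟨p, hp, rfl⟩ := mem_image.mp hp'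
      refine le_trans (le_of_eq ?_) (h2 p hp c)
      congr 1
      ext j
      simp only [mem_filter, mem_univ, true_and]
      exact he' p (mem_union_right _ hp) j c) (by
      intro c
      refine le_trans ?_ (hB1 c)
      refine le_trans (Finset.card_le_card (t := (P₁.filter (fun p => ∃ j, p j = (c : C))).image e) ?_)
        Finset.card_image_le
      intro p' hp'
      obtain ⟨hp1, j, hj⟩ := mem_filter.mp hp'
      obtain ⟨p, hp, rfl⟩ := mem_image.mp hp1
      exact mem_image_of_mem _ (mem_filter.mpr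
        ⟨hp, j, (he' p (mem_union_left _ hp) j c).mp hj⟩))
    (Finset.card_image_le.trans hB2) hn1 hn2
  refine ⟨fun c => if h : c ∈ F then g ⟨c, h⟩ else true, fun p hp => ?_⟩
  have hp' : e p ∈ P₁.image e ∪ P₂.image e := by
    rw [mem_union]
    rcases mem_union.mp hp with h | h
    · exact Or.inl (mem_image_of_mem _ h)
    · exact Or.inr (mem_image_of_mem _ h)
  have h := hg (e p) hp'
  have hval : ∀ j, (if h : p j ∈ F then g ⟨p j, h⟩ else true) = g (e p j) := by
    intro j
    rw [dif_pos (hmem p hp j)]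
    congr 1
    rw [Subtype.ext_iff]
    exact (he p hp j).symm
  simp only [hval]
  exact h

end VDW
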