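import Crest.Agent.Vdw.Defs

/-!
# S0086, module Thr: the thresholds of the data of `y`
-/

set_option autoImplicit false

open Finset

namespace VDW

namespace ThrAux

/-- jump positions of a function `ℕ → ℕ`. -/
def jumps (g : ℕ → ℕ) (m : ℕ) : Finset ℕ :=
  (Finset.range m).filter (fun y => y ≠ 0 ∧ g y ≠ g (y - 1))

lemma jumps_mono (g : ℕ → ℕ) (m : ℕ) (hg : ∀ y, y + 1 < m → g y ≤ g (y + 1)) (hm : 0 < m) :
    (jumps g m).card + g 0 ≤ g (m - 1) := by
  induction m with
  | zero => omega
  | succ m ih =>
    rcases Nat.eq_zero_or_pos m with h0 | hpos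
    · subst h0
      have : jumps g 1 = ∅ := by
        rw [jumps, Finset.filter_eq_empty_iff]
        intro y hy
        have : y = 0 := by simpa using hy
        simp [this]
      simp [this]
    · have ih' := ih (fun y hy => hg y (by omega)) hpos
      have hstep : (jumps g (m + 1)).card ≤ (jumps g m).card + (g m - g (m - 1)) := by
        have hle : g (m - 1) ≤ g m := by
          have := hg (m - 1) (by omega)
          rwa [Nat.sub_add_cancel hpos] at this
        by_cases heq : g m = g (m - 1)
        · have : jumps g (m + 1) = jumps g m := by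
            rw [jumps, jumps, Finset.range_add_one, Finset.filter_insert, if_neg]
            rintro ⟨-, h⟩
            exact h heq
          rw [this]; omega
        · have : jumps g (m + 1) ⊆ insert m (jumps g m) := by
            rw [jumps, jumps, Finset.range_add_one, Finset.filter_insert]
            split_ifs
            · exact subset_rfl
            · exact Finset.subset_insert _ _
          have h2 := (Finset.card_le_card this).trans (Finset.card_insert_le _ _)
          omega
      have hle : g (m - 1) ≤ g m := by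
        have := hg (m - 1) (by omega)
        rwa [Nat.sub_add_cancel hpos] at this
      simp only [Nat.add_sub_cancel]
      omega

lemma jumps_anti (g : ℕ → ℕ) (m : ℕ) (hg : ∀ y, y + 1 < m → g (y + 1) ≤ g y) (hm : 0 < m) :
    (jumps g m).card ≤ g 0 := by
  have hb : ∀ y, y < m → g y ≤ g 0 := by
    intro y
    induction y with
    | zero => intro _; exact le_rfl
    | succ y ih => intro hy; exact (hg y hy).trans (ih (by omega))
  have h := jumps_mono (fun y => g 0 - g y) m (fun y hy => by
    have := hg y hy
    omega) hm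
  have hsub : jumps g m ⊆ jumps (fun y => g 0 - g y) m := by
    intro y hy
    simp only [jumps, Finset.mem_filter, Finset.mem_range] at hy ⊢
    obtain ⟨hym, hy0, hne⟩ := hy
    refine ⟨hym, hy0, ?_⟩
    have h1 := hb y hym
    have h2 := hb (y - 1) (by omega)
    omega
  have := Finset.card_le_card hsub
  omega

end ThrAux

open ThrAux

theorem thr_zero (k R m : ℕ) (hm : 0 < m) : 0 ∈ Thr k R m := by
  classical
  unfold Thr
  rw [Finset.mem_filter]
  exact ⟨Finset.mem_range.2 hm, Or.inl rfl⟩

theorem thr_lt (k R m : ℕ) : ∀ y ∈ Thr k R m, y < m := by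
  classical
  intro y hy
  unfold Thr at hy
  rw [Finset.mem_filter] at hy
  exact Finset.mem_range.1 hy.1

theorem thr_det_aux (k R m y n : ℕ) (hy' : y + n < m)
    (h : ∀ τ ∈ Thr k R m, τ ≤ y ↔ τ ≤ y + n) :
    (k ^ 5 * y) / m = (k ^ 5 * (y + n)) / m ∧ phi R m y = phi R m (y + n) := by
  classical
  induction n with
  | zero => exact ⟨rfl, rfl⟩
  | succ n ih =>
    have h' : ∀ τ ∈ Thr k R m, τ ≤ y ↔ τ ≤ y + n := by
      intro τ hτ
      have := h τ hτ
      constructor
      · intro h1; omega
      · intro h1; exact this.2 (by omega)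
    obtain ⟨i1, i2⟩ := ih (by omega) h'
    have hnot : y + (n + 1) ∉ Thr k R m := by
      intro hmem
      have := (h _ hmem).2 le_rfl
      omega
    have hpt : ((k ^ 5 * (y + (n + 1))) / m, phi R m (y + (n + 1))) =
        ((k ^ 5 * (y + (n + 1) - 1)) / m, phi R m (y + (n + 1) - 1)) := by
      by_contra hne
      apply hnot
      unfold Thr
      rw [Finset.mem_filter]
      exact ⟨Finset.mem_range.2 hy', Or.inr hne⟩
    have he : y + (n + 1) - 1 = y + n := by omega
    rw [he, Prod.mk.injEq] at hpt
    exact ⟨i1.trans hpt.1.symm, i2.trans hpt.2.symm⟩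

theorem thr_det (k R m y y' : ℕ) (hy : y < m) (hy' : y' < m)
    (h : ∀ τ ∈ Thr k R m, τ ≤ y ↔ τ ≤ y') :
    (k ^ 5 * y) / m = (k ^ 5 * y') / m ∧ phi R m y = phi R m y' := by
  rcases le_total y y' with hle | hle
  · obtain ⟨n, rfl⟩ := Nat.exists_eq_add_of_le hle
    exact thr_det_aux k R m y n hy' h
  · obtain ⟨n, rfl⟩ := Nat.exists_eq_add_of_le hle
    have := thr_det_aux k R m y' n hy (fun τ hτ => (h τ hτ).symm)
    exact ⟨this.1.symm, this.2.symm⟩

theorem thr_card (k R m b : ℕ) (hm : 0 < m)
    (hb : (k : ℝ) ^ 5 + 2 * ((R : ℝ) * Real.log m + 2) ≤ b) : (Thr k R m).card ≤ b + 1 := by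
  classical
  set g1 : ℕ → ℕ := fun y => (k ^ 5 * y) / m with hg1
  set g2 : ℕ → ℕ := fun y => (phi R m y).1 with hg2
  set g3 : ℕ → ℕ := fun y => (phi R m y).2 with hg3
  have hsub : Thr k R m ⊆ insert 0 (jumps g1 m ∪ (jumps g2 m ∪ jumps g3 m)) := by
    intro y hy
    unfold Thr at hy
    rw [Finset.mem_filter] at hy
    obtain ⟨hym, h0 | hne⟩ := hy
    · rw [h0]; exact Finset.mem_insert_self _ _
    · by_cases hy0 : y = 0
      · rw [hy0]; exact Finset.mem_insert_self _ _
      refine Finset.mem_insert_of_mem ?_
      simp only [Finset.mem_union, jumps, Finset.mem_filter]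
      by_contra hcon
      push Not at hcon
      obtain ⟨c1, c2, c3⟩ := hcon
      apply hne
      have e1 := c1 hym hy0
      have e2 := c2 hym hy0
      have e3 := c3 hym hy0
      simp only [hg1, hg2, hg3] at e1 e2 e3
      rw [Prod.mk.injEq]
      exact ⟨e1, Prod.ext e2 e3⟩
  have hlog : 0 ≤ Real.log m := Real.log_natCast_nonneg m
  have hR0 : (0 : ℝ) ≤ R := Nat.cast_nonneg R
  -- first function
  have c1 : (jumps g1 m).card ≤ k ^ 5 := by
    have := jumps_mono g1 m (fun y _ => by
      simp only [hg1]
      exact Nat.div_le_div_right (Nat.mul_le_mul_left _ (by omega))) hm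
    have h2 : g1 (m - 1) ≤ k ^ 5 := by
      simp only [hg1]
      calc k ^ 5 * (m - 1) / m ≤ k ^ 5 * m / m :=
            Nat.div_le_div_right (Nat.mul_le_mul_left _ (by omega))
        _ = k ^ 5 := Nat.mul_div_cancel _ hm
    omega
  -- second function
  have c2 : ((jumps g2 m).card : ℝ) ≤ R * Real.log m := by
    have := jumps_mono g2 m (fun y _ => by
      simp only [hg2, phi]
      apply Nat.floor_le_floor
      apply mul_le_mul_of_nonneg_left _ hR0
      apply Real.log_le_log (by positivity)
      push_cast
      linarith) hm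
    have h2 : (g2 (m - 1) : ℝ) ≤ R * Real.log m := by
      have hnn : 0 ≤ (R : ℝ) * Real.log m := mul_nonneg hR0 hlog
      simp only [hg2, phi]
      have he : ((m - 1 : ℕ) : ℝ) + 1 = m := by
        rw [Nat.cast_sub (by omega)]; simp
      rw [he]
      exact Nat.floor_le hnn
    have h3 : ((jumps g2 m).card : ℝ) ≤ g2 (m - 1) := by
      exact_mod_cast (by omega : (jumps g2 m).card ≤ g2 (m - 1))
    linarith
  -- third function
  have c3 : ((jumps g3 m).card : ℝ) ≤ R * Real.log m := by
    have := jumps_anti g3 m (fun y hy => by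
      simp only [hg3, phi]
      apply Nat.floor_le_floor
      apply mul_le_mul_of_nonneg_left _ hR0
      have hym : ((y : ℝ) + 1) < m := by exact_mod_cast hy
      apply Real.log_le_log
      · push_cast; linarith
      · push_cast; linarith) hm
    have h2 : (g3 0 : ℝ) ≤ R * Real.log m := by
      have hnn : 0 ≤ (R : ℝ) * Real.log m := mul_nonneg hR0 hlog
      simp only [hg3, phi]
      have he : (m : ℝ) - ((0 : ℕ) : ℝ) = m := by simp
      rw [he]
      exact Nat.floor_le hnn
    have h3 : ((jumps g3 m).card : ℝ) ≤ g3 0 := by exact_mod_cast this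
    linarith
  have hc : (Thr k R m).card ≤
      (jumps g1 m).card + ((jumps g2 m).card + (jumps g3 m).card) + 1 := by
    calc (Thr k R m).card ≤ _ := Finset.card_le_card hsub
      _ ≤ (jumps g1 m ∪ (jumps g2 m ∪ jumps g3 m)).card + 1 := Finset.card_insert_le _ _
      _ ≤ (jumps g1 m).card + ((jumps g2 m).card + (jumps g3 m).card) + 1 := by
          have h1 := Finset.card_union_le (jumps g1 m) (jumps g2 m ∪ jumps g3 m)
          have h2 := Finset.card_union_le (jumps g2 m) (jumps g3 m)
          omega
  have hfin : ((Thr k R m).card : ℝ) ≤ b + 1 := by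
    have hc' : ((Thr k R m).card : ℝ) ≤
        (jumps g1 m).card + ((jumps g2 m).card + (jumps g3 m).card) + 1 := by exact_mod_cast hc
    have c1' : ((jumps g1 m).card : ℝ) ≤ (k : ℝ) ^ 5 := by exact_mod_cast c1
    linarith
  exact_mod_cast hfin

end VDW
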