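import Crest.Agent.Vdw.PatCount
import Crest.Agent.Vdw.Thr

/-!
# S0086, module Count1: number of cell patterns for one modulus
-/

set_option autoImplicit false

open Finset

namespace VDW

namespace Count1Aux

lemma yy_congr_mod (Lam m n n' : ℕ) (h : n % m = n' % m) : yy Lam m n = yy Lam m n' := by
  unfold yy
  exact Nat.ModEq.mul_left Lam h

lemma aa_congr_mod (Lam m n n' : ℕ) (h : n % m = n' % m) : aa Lam m n = aa Lam m n' := by
  unfold aa
  rw [h]

lemma cell1_congr_mod (k Lam R m n n' : ℕ) (h : n % m = n' % m) :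
    cell1 k Lam R m n = cell1 k Lam R m n' := by
  unfold cell1 hcell1
  rw [yy_congr_mod Lam m n n' h, aa_congr_mod Lam m n n' h]

/-- the data as functions of `V = Lam * x`. -/
lemma aa_eq (Lam m x : ℕ) (hLam : 1 ≤ Lam) (hm : 0 < m) :
    aa Lam m x = (Lam * x / m) % Lam := by
  unfold aa
  have hx : Lam * x = m * (Lam * (x / m)) + Lam * (x % m) := by
    conv_lhs => rw [← Nat.div_add_mod x m]
    ring
  have h1 : Lam * x / m = Lam * (x / m) + Lam * (x % m) / m := by
    rw [hx, Nat.mul_add_div hm]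
  have h2 : Lam * (x % m) / m < Lam := by
    rw [Nat.div_lt_iff_lt_mul hm]
    exact Nat.mul_lt_mul_of_pos_left (Nat.mod_lt _ hm) hLam
  rw [h1, Nat.mul_add_mod, Nat.mod_eq_of_lt h2]

/-- determination of the data by thresholds. -/
lemma det_V (k R m K V V' : ℕ) (hm : 0 < m) (hV : V < K * m) (hV' : V' < K * m)
    (h : ∀ Q < K, ∀ τ ∈ Thr k R m, m * Q + τ ≤ V ↔ m * Q + τ ≤ V') :
    V / m = V' / m ∧ (k ^ 5 * (V % m)) / m = (k ^ 5 * (V' % m)) / m ∧
      phi R m (V % m) = phi R m (V' % m) := by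
  have hq : V / m < K := (Nat.div_lt_iff_lt_mul hm).2 hV
  have hq' : V' / m < K := (Nat.div_lt_iff_lt_mul hm).2 hV'
  have e1 : V / m = V' / m := by
    apply le_antisymm
    · rw [Nat.le_div_iff_mul_le hm]
      have := (h (V / m) hq 0 (thr_zero k R m hm)).1 (by
        rw [add_zero]; exact Nat.mul_div_le V m)
      rw [add_zero] at this
      rwa [mul_comm]
    · rw [Nat.le_div_iff_mul_le hm]
      have := (h (V' / m) hq' 0 (thr_zero k R m hm)).2 (by
        rw [add_zero]; exact Nat.mul_div_le V' m)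
      rw [add_zero] at this
      rwa [mul_comm]
  have hd := thr_det k R m (V % m) (V' % m) (Nat.mod_lt _ hm) (Nat.mod_lt _ hm) (by
    intro τ hτ
    have h0 := h (V / m) hq τ hτ
    have hV1 := Nat.div_add_mod V m
    have hV2 := Nat.div_add_mod V' m
    rw [← e1] at hV2
    constructor
    · intro ht
      have := h0.1 (by omega)
      omega
    · intro ht
      have := h0.2 (by omega)
      omega)
  exact ⟨e1, hd.1, hd.2⟩

end Count1Aux

open Count1Aux in
theorem count1 (k Lam R m b : ℕ) (hk : 1 ≤ k) (hLam : 1 ≤ Lam) (hm : 0 < m)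
    (hT : (Thr k R m).card ≤ b + 1) :
    ∃ F : Finset (Fin k → (ℕ × ℕ) × (ℕ × ℕ)), F.card ≤ (k * (k * Lam * (b + 1)) + 1) ^ 3 ∧
      ∀ a d : ℕ, (fun j : Fin k => cell1 k Lam R m (a + j * d)) ∈ F := by
  classical
  set Z : Finset (ℤ × ℤ) :=
    ((range m) ×ˢ (range m)).image (fun p : ℕ × ℕ => ((p.1 : ℤ), (p.2 : ℤ))) with hZ
  set T : Fin k → Finset ℤ := fun _ =>
    ((range (k * Lam)) ×ˢ (Thr k R m)).image (fun p : ℕ × ℕ => ((m * p.1 + p.2 : ℕ) : ℤ))
    with hTdef
  set Φ : ℤ × ℤ → Fin k → (ℕ × ℕ) × (ℕ × ℕ) := fun z j =>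
    cell1 k Lam R m (z.1.toNat + j * z.2.toNat) with hΦdef
  have hcard := pattern_count Z T (fun _ => 0) (fun _ => (Lam : ℤ)) (fun j => (Lam : ℤ) * j) Φ
    (by
      intro z hz z' hz' j hj
      rw [hZ, mem_image] at hz hz'
      obtain ⟨⟨x1, x2⟩, hx, rfl⟩ := hz
      obtain ⟨⟨y1, y2⟩, hy, rfl⟩ := hz'
      simp only [mem_product, mem_range] at hx hy
      simp only [hΦdef, Int.toNat_natCast]
      set V : ℕ := Lam * (x1 + j * x2) with hV
      set V' : ℕ := Lam * (y1 + j * y2) with hV'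
      have hjk : (j : ℕ) + 1 ≤ k := j.2
      have bnd : ∀ u1 u2 : ℕ, u1 < m → u2 < m → Lam * (u1 + j * u2) < (k * Lam) * m := by
        intro u1 u2 h1 h2
        have hlt : u1 + j * u2 < k * m := by
          calc u1 + j * u2 < m + j * m := by
                have : (j : ℕ) * u2 ≤ j * m := Nat.mul_le_mul_left _ h2.le
                omega
            _ = (j + 1) * m := by ring
            _ ≤ k * m := Nat.mul_le_mul_right _ hjk
        calc Lam * (u1 + j * u2) < Lam * (k * m) := Nat.mul_lt_mul_of_pos_left hlt hLam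
          _ = (k * Lam) * m := by ring
      have hdet := det_V k R m (k * Lam) V V' hm (bnd x1 x2 hx.1 hx.2) (bnd y1 y2 hy.1 hy.2) (by
        intro Q hQ τ hτ
        have hmem : ((m * Q + τ : ℕ) : ℤ) ∈ T j := by
          simp only [hTdef, mem_image, mem_product, mem_range]
          exact ⟨(Q, τ), ⟨hQ, hτ⟩, rfl⟩
        have h0 := hj _ hmem
        simp only at h0
        have r1 : (0 : ℤ) + (Lam : ℤ) * (x1 : ℤ) + (Lam : ℤ) * ((j : ℕ) : ℤ) * (x2 : ℤ) =
            ((V : ℕ) : ℤ) := by rw [hV]; push_cast; ring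
        have r2 : (0 : ℤ) + (Lam : ℤ) * (y1 : ℤ) + (Lam : ℤ) * ((j : ℕ) : ℤ) * (y2 : ℤ) =
            ((V' : ℕ) : ℤ) := by rw [hV']; push_cast; ring
        rw [r1, r2] at h0
        exact_mod_cast h0)
      have ea : aa Lam m (x1 + j * x2) = aa Lam m (y1 + j * y2) := by
        rw [aa_eq Lam m _ hLam hm, aa_eq Lam m _ hLam hm]
        rw [← hV, ← hV', hdet.1]
      unfold cell1 hcell1
      rw [ea]
      have e2 : (k ^ 5 * yy Lam m (x1 + j * x2)) / m = (k ^ 5 * yy Lam m (y1 + j * y2)) / m := by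
        unfold yy
        rw [← hV, ← hV']
        exact hdet.2.1
      have e3 : phi R m (yy Lam m (x1 + j * x2)) = phi R m (yy Lam m (y1 + j * y2)) := by
        unfold yy
        rw [← hV, ← hV']
        exact hdet.2.2
      rw [e2, e3])
    (k * Lam * (b + 1)) (by
      intro j
      calc (T j).card ≤ ((range (k * Lam)) ×ˢ (Thr k R m)).card := card_image_le
        _ = k * Lam * (Thr k R m).card := by rw [card_product, card_range]
        _ ≤ k * Lam * (b + 1) := Nat.mul_le_mul_left _ hT)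
  refine ⟨Z.image Φ, hcard, ?_⟩
  intro a d
  rw [mem_image]
  refine ⟨((a % m : ℕ), (d % m : ℕ)), ?_, ?_⟩
  · rw [hZ, mem_image]
    exact ⟨(a % m, d % m), by simp [Nat.mod_lt _ hm], rfl⟩
  · funext j
    simp only [hΦdef, Int.toNat_natCast]
    apply cell1_congr_mod
    rw [Nat.add_mod, Nat.mul_mod]
    simp [Nat.add_mod, Nat.mul_mod]

end VDW
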