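import Mathlib

/-!
# S0086, module PatCount

The number of patterns cut out of a finite set of points of `ℤ²` by a family of at most
`k * m` affine half-planes is at most `(k * m + 1) ^ 3` (Sauer–Shelah: the dual set system has
VC dimension at most `2`).
-/

set_option autoImplicit false

open Finset

namespace VDW

namespace PatCount

/-- three integer vectors of the plane are linearly dependent. -/
lemma exists_dep (a b : Fin 3 → ℤ) :
    ∃ l : Fin 3 → ℤ, l ≠ 0 ∧ ∑ i, l i * a i = 0 ∧ ∑ i, l i * b i = 0 := by
  by_cases h : ∀ i : Fin 3, a i = 0 ∧ b i = 0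
  · refine ⟨1, one_ne_zero, ?_, ?_⟩
    · simp [fun i => (h i).1]
    · simp [fun i => (h i).2]
  by_cases h' : a 1 * b 2 - a 2 * b 1 = 0 ∧ a 2 * b 0 - a 0 * b 2 = 0 ∧
      a 0 * b 1 - a 1 * b 0 = 0
  · obtain ⟨h1, h2, h3⟩ := h'
    push Not at h
    obtain ⟨i, hi⟩ := h
    -- all the vectors are parallel; use two of them.
    fin_cases i
    · -- vector 0 nonzero
      simp only [Fin.zero_eta, Fin.isValue] at hi
      by_cases ha : a 0 = 0
      · have hb := hi ha
        refine ⟨![b 1, -b 0, 0], ?_, ?_, ?_⟩
        · intro h0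
          have := congrFun h0 1
          simp at this
          exact hb this
        · simp [Fin.sum_univ_three]; nlinarith
        · simp [Fin.sum_univ_three]; ring
      · refine ⟨![a 1, -a 0, 0], ?_, ?_, ?_⟩
        · intro h0
          have := congrFun h0 1
          simp at this
          exact ha this
        · simp [Fin.sum_univ_three]; ring
        · simp [Fin.sum_univ_three]; nlinarith
    · simp only [Fin.mk_one, Fin.isValue] at hi
      by_cases ha : a 1 = 0
      · have hb := hi ha
        refine ⟨![b 1, -b 0, 0], ?_, ?_, ?_⟩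
        · intro h0
          have := congrFun h0 0
          simp at this
          exact hb this
        · simp [Fin.sum_univ_three]; nlinarith
        · simp [Fin.sum_univ_three]; ring
      · refine ⟨![a 1, -a 0, 0], ?_, ?_, ?_⟩
        · intro h0
          have := congrFun h0 0
          simp at this
          exact ha this
        · simp [Fin.sum_univ_three]; ring
        · simp [Fin.sum_univ_three]; nlinarith
    · simp only [Fin.reduceFinMk, Fin.isValue] at hi
      by_cases ha : a 2 = 0
      · have hb := hi ha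
        refine ⟨![b 2, 0, -b 0], ?_, ?_, ?_⟩
        · intro h0
          have := congrFun h0 0
          simp at this
          exact hb this
        · simp [Fin.sum_univ_three]; nlinarith
        · simp [Fin.sum_univ_three]; ring
      · refine ⟨![a 2, 0, -a 0], ?_, ?_, ?_⟩
        · intro h0
          have := congrFun h0 0
          simp at this
          exact ha this
        · simp [Fin.sum_univ_three]; ring
        · simp [Fin.sum_univ_three]; nlinarith
  · refine ⟨![a 1 * b 2 - a 2 * b 1, a 2 * b 0 - a 0 * b 2, a 0 * b 1 - a 1 * b 0], ?_, ?_, ?_⟩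
    · intro h0
      apply h'
      refine ⟨?_, ?_, ?_⟩
      · simpa using congrFun h0 0
      · simpa using congrFun h0 1
      · simpa using congrFun h0 2
    · simp [Fin.sum_univ_three]; ring
    · simp [Fin.sum_univ_three]; ring

/-- three half-planes do not cut out all eight patterns. -/
lemma not_all_patterns (c a b τ : Fin 3 → ℤ)
    (h : ∀ s : Fin 3 → Prop, ∃ z : ℤ × ℤ, ∀ i, τ i ≤ c i + a i * z.1 + b i * z.2 ↔ s i) :
    False := by
  obtain ⟨l, hl, ha, hb⟩ := exists_dep a b
  have key : ∀ z : ℤ × ℤ, ∑ i, l i * (c i + a i * z.1 + b i * z.2) = ∑ i, l i * c i := by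
    intro z
    have : ∑ i, l i * (c i + a i * z.1 + b i * z.2) =
        ∑ i, l i * c i + (∑ i, l i * a i) * z.1 + (∑ i, l i * b i) * z.2 := by
      rw [Finset.sum_mul, Finset.sum_mul, ← Finset.sum_add_distrib, ← Finset.sum_add_distrib]
      exact Finset.sum_congr rfl fun i _ => by ring
    rw [this, ha, hb]; ring
  obtain ⟨z, hz⟩ := h (fun i => 0 < l i)
  obtain ⟨z', hz'⟩ := h (fun i => l i < 0)
  obtain ⟨i, hi⟩ : ∃ i, l i ≠ 0 := by
    by_contra hcon
    push Not at hcon
    exact hl (funext hcon)
  have h1 : ∀ j, l j * τ j ≤ l j * (c j + a j * z.1 + b j * z.2) := by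
    intro j
    rcases lt_trichotomy (l j) 0 with hj | hj | hj
    · have := mt (hz j).1 (by simpa using hj.le)
      push Not at this
      nlinarith
    · simp [hj]
    · have := (hz j).2 hj
      nlinarith
  have h2 : ∀ j, l j * (c j + a j * z'.1 + b j * z'.2) ≤ l j * τ j := by
    intro j
    rcases lt_trichotomy (l j) 0 with hj | hj | hj
    · have := (hz' j).2 hj
      nlinarith
    · simp [hj]
    · have := mt (hz' j).1 (by simpa using hj.le)
      push Not at this
      nlinarith
  rcases lt_or_gt_of_ne hi with hneg | hpos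
  · have h1' : l i * τ i < l i * (c i + a i * z.1 + b i * z.2) := by
      have := mt (hz i).1 (by simpa using hneg.le)
      push Not at this
      nlinarith
    have s1 := Finset.sum_lt_sum (s := univ) (fun j _ => h1 j) ⟨i, mem_univ _, h1'⟩
    have s2 := Finset.sum_le_sum (s := univ) (fun j _ => h2 j)
    rw [key] at s1 s2
    linarith
  · have h2' : l i * (c i + a i * z'.1 + b i * z'.2) < l i * τ i := by
      have := mt (hz' i).1 (by simpa using hpos.le)
      push Not at this
      nlinarith
    have s1 := Finset.sum_le_sum (s := univ) (fun j _ => h1 j)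
    have s2 := Finset.sum_lt_sum (s := univ) (fun j _ => h2 j) ⟨i, mem_univ _, h2'⟩
    rw [key] at s1 s2
    linarith

end PatCount

open PatCount in
theorem pattern_count {k : ℕ} {α : Type} [DecidableEq α] (Z : Finset (ℤ × ℤ))
    (T : Fin k → Finset ℤ) (P Q S : Fin k → ℤ) (Φ : ℤ × ℤ → Fin k → α)
    (hΦ : ∀ z ∈ Z, ∀ z' ∈ Z, ∀ j,
      (∀ τ ∈ T j, τ ≤ P j + Q j * z.1 + S j * z.2 ↔ τ ≤ P j + Q j * z'.1 + S j * z'.2) →
      Φ z j = Φ z' j)
    (m : ℕ) (hm : ∀ j, (T j).card ≤ m) :
    (Z.image Φ).card ≤ (k * m + 1) ^ 3 := by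
  classical
  let ι : Type := Σ j : Fin k, T j
  let A : ℤ × ℤ → Finset ι := fun z =>
    univ.filter fun p => (p.2 : ℤ) ≤ P p.1 + Q p.1 * z.1 + S p.1 * z.2
  have hA : ∀ z ∈ Z, ∀ z' ∈ Z, A z = A z' → Φ z = Φ z' := by
    intro z hz z' hz' h
    funext j
    refine hΦ z hz z' hz' j fun τ hτ => ?_
    have := Finset.ext_iff.1 h ⟨j, ⟨τ, hτ⟩⟩
    simpa [A] using this
  -- step 1: the number of patterns is at most the number of sets
  have h1 : (Z.image Φ).card ≤ (Z.image A).card := by
    let g : Finset ι → Fin k → α := fun s =>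
      if h : ∃ z ∈ Z, A z = s then Φ h.choose else Φ (0, 0)
    have hg : Z.image Φ = (Z.image A).image g := by
      rw [Finset.image_image]
      refine Finset.image_congr fun z hz => ?_
      have hex : ∃ z' ∈ Z, A z' = A z := ⟨z, hz, rfl⟩
      simp only [Function.comp, g, dif_pos hex]
      exact (hA _ hex.choose_spec.1 _ hz hex.choose_spec.2).symm
    rw [hg]
    exact card_image_le
  -- step 2: no three-element set is shattered
  have h2 : (Z.image A).vcDim ≤ 2 := by
    rw [vcDim, Finset.sup_le_iff]
    intro s hs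
    rw [mem_shatterer] at hs
    by_contra hcard
    push Not at hcard
    obtain ⟨t, hts, ht⟩ := Finset.exists_subset_card_eq (n := 3) (s := s) (by omega)
    have hsh := hs.mono_right hts
    let e : Fin 3 ≃ t := (Finset.equivFinOfCardEq ht).symm
    refine not_all_patterns (fun i => P (e i).1.1) (fun i => Q (e i).1.1)
      (fun i => S (e i).1.1) (fun i => ((e i).1.2 : ℤ)) fun f => ?_
    obtain ⟨u, hu, hu'⟩ := hsh (t := univ.filter (fun p => ∃ i, f i ∧ (e i).1 = p)) (by
      intro p hp
      obtain ⟨i, -, rfl⟩ := (mem_filter.1 hp).2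
      exact (e i).2)
    obtain ⟨z, -, rfl⟩ := mem_image.1 hu
    refine ⟨z, fun i => ?_⟩
    have := Finset.ext_iff.1 hu' (e i).1
    have hi : ((e i).1 ∈ univ.filter (fun p => ∃ i, f i ∧ (e i).1 = p)) ↔ f i := by
      simp only [mem_filter, mem_univ, true_and]
      constructor
      · rintro ⟨i', h', heq⟩
        have : i' = i := e.injective (Subtype.ext heq)
        rwa [← this]
      · intro h
        exact ⟨i, h, rfl⟩
    rw [hi] at this
    rw [← this]
    simp [A, (e i).2]
  -- step 3: Sauer–Shelah
  have h3 : (Z.image A).card ≤ ∑ i ∈ Iic (Z.image A).vcDim, (Fintype.card ι).choose i :=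
    (card_le_card_shatterer _).trans card_shatterer_le_sum_vcDim
  have h4 : ∑ i ∈ Iic (Z.image A).vcDim, (Fintype.card ι).choose i ≤
      ∑ i ∈ Iic 2, (Fintype.card ι).choose i :=
    Finset.sum_le_sum_of_subset (Iic_subset_Iic.2 h2)
  have hι : Fintype.card ι ≤ k * m := by
    have : Fintype.card ι = ∑ j : Fin k, (T j).card := by
      simp [ι, Fintype.card_sigma]
    rw [this]
    calc ∑ j : Fin k, (T j).card ≤ ∑ _j : Fin k, m := Finset.sum_le_sum fun j _ => hm j
      _ = k * m := by simp
  have h5 : ∑ i ∈ Iic 2, (Fintype.card ι).choose i ≤ (Fintype.card ι + 1) ^ 3 := by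
    have : (Iic 2 : Finset ℕ) = {0, 1, 2} := by decide
    rw [this]
    have hc : (Fintype.card ι).choose 2 ≤ (Fintype.card ι) ^ 2 := Nat.choose_le_pow _ _
    simp only [mem_insert, mem_singleton, zero_ne_one, OfNat.zero_ne_ofNat, or_self,
      not_false_eq_true, sum_insert, Nat.choose_zero_right, OfNat.one_ne_ofNat, Nat.choose_one_right,
      sum_singleton]
    nlinarith [Nat.zero_le (Fintype.card ι), Nat.zero_le ((Fintype.card ι) ^ 3)]
  calc (Z.image Φ).card ≤ (Z.image A).card := h1
    _ ≤ (Fintype.card ι + 1) ^ 3 := h3.trans (h4.trans h5)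
    _ ≤ (k * m + 1) ^ 3 := Nat.pow_le_pow_left (by omega) 3

end VDW
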