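import Crest.Agent.Vdw.Defs
import Crest.Agent.Vdw.PatCount
import Crest.Agent.Vdw.Thr

/-! # S0086 module Count2: cell patterns through a given cell (one modulus) -/

set_option autoImplicit false

open Finset

namespace VDW

namespace C2

/-- the cell data of an integer `V = Λ x` -/
noncomputable def cellZ (k Lam R m : ℕ) (V : ℤ) : (ℕ × ℕ) × (ℕ × ℕ) :=
  ((((V / m) % Lam).toNat, (k ^ 5 * (V % m).toNat) / m), phi R m (V % m).toNat)

theorem cell1_eq (k Lam R m n : ℕ) (hm : 0 < m) (hLam : 1 ≤ Lam) (x : ℤ)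
    (h : (n : ℤ) ≡ x [ZMOD m]) : cell1 k Lam R m n = cellZ k Lam R m (Lam * x) := by
  obtain ⟨s, hs⟩ := h.dvd
  set ρ : ℕ := n % m with hρ
  have hρm : ρ < m := Nat.mod_lt _ hm
  have hn : (n : ℤ) = m * (n / m : ℕ) + ρ := by
    have := Nat.div_add_mod n m
    exact_mod_cast this.symm
  have hx : x = ρ + m * ((n / m : ℕ) + s) := by
    have : x = n + m * s := by linarith
    rw [this, hn]; ring
  have hV : (Lam : ℤ) * x = ((Lam * ρ : ℕ) : ℤ) + m * (Lam * ((n / m : ℕ) + s)) := by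
    rw [hx]; push_cast; ring
  have hm0 : (m : ℤ) ≠ 0 := by exact_mod_cast hm.ne'
  have h1 : ((Lam : ℤ) * x) % m = ((Lam * ρ % m : ℕ) : ℤ) := by
    rw [hV, Int.add_mul_emod_self_left]
    norm_cast
  have h2 : ((Lam : ℤ) * x) / m = ((Lam * ρ / m : ℕ) : ℤ) + Lam * ((n / m : ℕ) + s) := by
    rw [hV, Int.add_mul_ediv_left _ _ hm0]
    norm_cast
  have h3 : Lam * ρ / m < Lam := by
    apply Nat.div_lt_of_lt_mul
    rw [mul_comm m Lam]
    exact Nat.mul_lt_mul_of_pos_left hρm hLam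
  have h4 : (((Lam : ℤ) * x) / m) % Lam = ((Lam * ρ / m : ℕ) : ℤ) := by
    rw [h2, Int.add_mul_emod_self_left]
    exact_mod_cast Nat.mod_eq_of_lt h3
  have h5 : yy Lam m n = Lam * ρ % m := by
    unfold yy
    rw [hρ, Nat.mul_mod_mod]
  unfold cell1 cellZ hcell1
  rw [h1, h4, h5]
  rfl

theorem cellZ_congr (k Lam R m : ℕ) (hm : 0 < m) (C V V' : ℤ)
    (f1 : m * (C - 1) ≤ V) (f2 : V < m * (C + 3))
    (hcmp : ∀ Q : ℤ, C - 1 ≤ Q → Q ≤ C + 3 → ∀ τ ∈ Thr k R m,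
      ((m : ℤ) * Q + τ ≤ V ↔ (m : ℤ) * Q + τ ≤ V')) :
    cellZ k Lam R m V = cellZ k Lam R m V' := by
  have hm0 : (0 : ℤ) < m := by exact_mod_cast hm
  set Q0 : ℤ := V / m with hQ0
  have g1 : (m : ℤ) * Q0 ≤ V := Int.mul_ediv_self_le hm0.ne'
  have g2 : V < (m : ℤ) * Q0 + m := Int.lt_mul_ediv_self_add hm0
  have g3 : C - 1 ≤ Q0 := by
    rw [hQ0]
    exact (Int.le_ediv_iff_mul_le hm0).2 (by linarith)
  have g4 : Q0 < C + 3 := by
    rw [hQ0]
    exact (Int.ediv_lt_iff_lt_mul hm0).2 (by linarith)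
  have hz0 := thr_zero k R m hm
  have g5 : (m : ℤ) * Q0 ≤ V' := by
    have := (hcmp Q0 g3 (by omega) 0 hz0).1 (by push_cast; linarith)
    push_cast at this
    linarith
  have g6 : V' < (m : ℤ) * Q0 + m := by
    by_contra hcon
    rw [not_lt] at hcon
    have := (hcmp (Q0 + 1) (by omega) (by omega) 0 hz0).2 (by push_cast; linarith)
    push_cast at this
    linarith
  have g7 : V' / m = Q0 := by
    apply le_antisymm
    · have : V' / m < Q0 + 1 := (Int.ediv_lt_iff_lt_mul hm0).2 (by linarith)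
      omega
    · exact (Int.le_ediv_iff_mul_le hm0).2 (by linarith)
  have r1 : V % m = V - m * Q0 := by rw [Int.emod_def]
  have r2 : V' % m = V' - m * Q0 := by rw [Int.emod_def, g7]
  have hy : (V % m).toNat < m := by
    have := Int.emod_lt_of_pos V hm0
    have := Int.emod_nonneg V hm0.ne'
    omega
  have hy' : (V' % m).toNat < m := by
    have := Int.emod_lt_of_pos V' hm0
    have := Int.emod_nonneg V' hm0.ne'
    omega
  have n1 : (((V % m).toNat : ℕ) : ℤ) = V - m * Q0 := by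
    rw [Int.toNat_of_nonneg (Int.emod_nonneg V hm0.ne'), r1]
  have n2 : (((V' % m).toNat : ℕ) : ℤ) = V' - m * Q0 := by
    rw [Int.toNat_of_nonneg (Int.emod_nonneg V' hm0.ne'), r2]
  have key : ∀ τ ∈ Thr k R m, τ ≤ (V % m).toNat ↔ τ ≤ (V' % m).toNat := by
    intro τ hτ
    have h1 := hcmp Q0 g3 (by omega) τ hτ
    constructor
    · intro h
      have h2 : (τ : ℤ) ≤ V - m * Q0 := by rw [← n1]; exact_mod_cast h
      have h3 := h1.1 (by linarith)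
      have h4 : (τ : ℤ) ≤ (((V' % m).toNat : ℕ) : ℤ) := by rw [n2]; linarith
      exact_mod_cast h4
    · intro h
      have h2 : (τ : ℤ) ≤ V' - m * Q0 := by rw [← n2]; exact_mod_cast h
      have h3 := h1.2 (by linarith)
      have h4 : (τ : ℤ) ≤ (((V % m).toNat : ℕ) : ℤ) := by rw [n1]; linarith
      exact_mod_cast h4
  obtain ⟨k1, k2⟩ := thr_det k R m _ _ hy hy' key
  unfold cellZ
  rw [k1, k2, g7]

/-- the finite set of admissible pairs -/
noncomputable def ZZ (k Lam m r : ℕ) (P : Fin k → ℤ) (S : Fin k → ℤ) : Finset (ℤ × ℤ) :=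
  ((Finset.Icc (0 : ℤ) m) ×ˢ (Finset.Icc (-(m : ℤ)) m)).filter
    (fun z => z.1 < m ∧ Lam * k ^ 5 * z.2.natAbs < m ∧ ∀ j, (r : ℤ) ∣ P j + r * z.1 + S j * z.2)

/-- arithmetic of the floor -/
theorem floor_bounds (k Lam m r : ℕ) (hk : 2 ≤ k) (hm : 0 < m) (hr : 1 ≤ r) (A u s z1 ρ V : ℤ)
    (hs : |s| ≤ k) (h0 : 0 ≤ z1) (h1 : z1 < m) (hρ : Lam * k ^ 5 * ρ.natAbs < m)
    (hV : (r : ℤ) * V = (r * (m * A) + s * Lam * u * m) + r * z1 + (s * Lam) * ρ) :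
    m * (A + (s * Lam * u) / r - 1) ≤ V ∧ V < m * (A + (s * Lam * u) / r + 3) := by
  have hr0 : (0 : ℤ) < r := by exact_mod_cast hr
  have hm0 : (0 : ℤ) < m := by exact_mod_cast hm
  have h3 : |s * Lam * ρ| < m := by
    rw [abs_mul, abs_mul]
    have e1 : (Lam : ℤ) * k ^ 5 * |ρ| < m := by
      have : ((Lam * k ^ 5 * ρ.natAbs : ℕ) : ℤ) < m := by exact_mod_cast hρ
      simpa using this
    have e2 : |s| * |(Lam : ℤ)| * |ρ| ≤ k * Lam * |ρ| := by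
      have : |(Lam : ℤ)| = Lam := abs_of_nonneg (by positivity)
      rw [this]
      gcongr
    have e3 : (k : ℤ) * Lam * |ρ| ≤ Lam * k ^ 5 * |ρ| := by
      have h1 : (k : ℤ) ≤ k ^ 5 := by
        have : k ^ 1 ≤ k ^ 5 := Nat.pow_le_pow_right (by omega) (by norm_num)
        rw [pow_one] at this
        exact_mod_cast this
      calc (k : ℤ) * Lam * |ρ| ≤ k ^ 5 * Lam * |ρ| := by gcongr
        _ = Lam * k ^ 5 * |ρ| := by ring
    linarith
  rw [abs_lt] at h3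
  have h4 : (r : ℤ) * ((s * Lam * u) / r) ≤ s * Lam * u := Int.mul_ediv_self_le hr0.ne'
  have h5 : s * Lam * u < (r : ℤ) * ((s * Lam * u) / r) + r :=
    Int.lt_mul_ediv_self_add hr0
  set q : ℤ := (s * Lam * u) / r with hq
  set w : ℤ := s * Lam * u with hw
  have h6 : (m : ℤ) * (r * q) ≤ m * w := mul_le_mul_of_nonneg_left h4 hm0.le
  have h7 : (m : ℤ) * w < m * (r * q + r) := mul_lt_mul_of_pos_left h5 hm0
  have hr1 : (m : ℤ) ≤ r * m := by
    have : (1 : ℤ) ≤ r := by exact_mod_cast hr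
    nlinarith
  have e1 : (m : ℤ) * (r * q) = r * (m * q) := by ring
  have e2 : (m : ℤ) * (r * q + r) = r * (m * q) + r * m := by ring
  have e3 : w * m = m * w := by ring
  have h9 : (r : ℤ) * z1 < r * m := mul_lt_mul_of_pos_left h1 hr0
  have h10 : (0 : ℤ) ≤ r * z1 := mul_nonneg hr0.le h0
  constructor
  · have : (r : ℤ) * (m * (A + q - 1)) ≤ r * V := by
      rw [hV]
      have e4 : (r : ℤ) * (m * (A + q - 1)) = r * (m * A) + r * (m * q) - r * m := by ring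
      rw [e4, e3]
      linarith
    exact le_of_mul_le_mul_left this hr0
  · have : (r : ℤ) * V < r * (m * (A + q + 3)) := by
      rw [hV]
      have e4 : (r : ℤ) * (m * (A + q + 3)) = r * (m * A) + r * (m * q) + 3 * (r * m) := by ring
      rw [e4, e3]
      linarith
    exact lt_of_mul_lt_mul_left this hr0.le

/-- patterns for fixed `u` -/
theorem card_u (k Lam R m b : ℕ) (hk : 2 ≤ k) (hm : 0 < m)
    (hT : (Thr k R m).card ≤ b + 1) (A u : ℤ) (s : Fin k → ℤ) (hs : ∀ j, |s j| ≤ k) (r : ℕ)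
    (hr : 1 ≤ r) :
    ((ZZ k Lam m r (fun j => r * (m * A) + s j * Lam * u * m) (fun j => s j * Lam)).image
      (fun (z : ℤ × ℤ) (j : Fin k) => cellZ k Lam R m
        (((r * (m * A) + s j * Lam * u * m) + r * z.1 + (s j * Lam) * z.2) / r))).card ≤
      (k * (5 * (b + 1)) + 1) ^ 3 := by
  classical
  have hr0 : (0 : ℤ) < r := by exact_mod_cast hr
  refine pattern_count _ (fun j => ((Finset.Icc (A + (s j * Lam * u) / r - 1)
    (A + (s j * Lam * u) / r + 3)) ×ˢ (Thr k R m)).image (fun p => (r : ℤ) * (m * p.1 + p.2)))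
    (fun j => r * (m * A) + s j * Lam * u * m) (fun _ => (r : ℤ)) (fun j => s j * Lam) _ ?_ _ ?_
  · intro z hz z' hz' j hcmp
    rw [ZZ, mem_filter, mem_product, mem_Icc] at hz hz'
    obtain ⟨⟨⟨h0, _⟩, _⟩, h1, h2, hd⟩ := hz
    obtain ⟨_, _, _, hd'⟩ := hz'
    obtain ⟨V, hV⟩ := hd j
    obtain ⟨V', hV'⟩ := hd' j
    rw [hV, hV', Int.mul_ediv_cancel_left _ hr0.ne', Int.mul_ediv_cancel_left _ hr0.ne']
    obtain ⟨f1, f2⟩ := floor_bounds k Lam m r hk hm hr A u (s j) z.1 z.2 V (hs j) h0 h1 h2 hV.symm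
    refine cellZ_congr k Lam R m hm _ V V' f1 f2 ?_
    intro Q hQ1 hQ2 τ hτ
    have h3 := hcmp ((r : ℤ) * (m * Q + τ)) (by
      rw [mem_image]
      exact ⟨(Q, τ), by rw [mem_product, mem_Icc]; exact ⟨⟨hQ1, hQ2⟩, hτ⟩, rfl⟩)
    rw [hV, hV'] at h3
    constructor
    · intro h
      exact le_of_mul_le_mul_left (h3.1 (mul_le_mul_of_nonneg_left h hr0.le)) hr0
    · intro h
      exact le_of_mul_le_mul_left (h3.2 (mul_le_mul_of_nonneg_left h hr0.le)) hr0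
  · intro j
    refine card_image_le.trans ?_
    rw [card_product, Int.card_Icc]
    have h1 : A + (s j * Lam * u) / r + 3 + 1 - (A + (s j * Lam * u) / r - 1) = 5 := by ring
    rw [h1]
    exact Nat.mul_le_mul_left 5 hT

/-- the parameters of a line -/
theorem exists_u (m r a d j0 : ℕ) (hm : 0 < m) (hr : 1 ≤ r) :
    ∃ u : ℕ, u ≤ r ∧ ((r : ℤ) * (d % m : ℕ) = m * u + ((r * d : ℕ) : ZMod m).valMinAbs) ∧
      ((r * d : ℕ) : ZMod m).valMinAbs < m ∧ -(m : ℤ) < ((r * d : ℕ) : ZMod m).valMinAbs ∧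
      ∀ j : ℕ, ((a + j * d : ℕ) : ℤ) ≡
        ((a + j0 * d) % m : ℕ) + ((j : ℤ) - j0) * (d % m : ℕ) [ZMOD m] := by
  have hr0 : (0 : ℤ) < r := by exact_mod_cast hr
  have hm0 : (0 : ℤ) < m := by exact_mod_cast hm
  have : NeZero m := ⟨hm.ne'⟩
  set ρ : ℤ := ((r * d : ℕ) : ZMod m).valMinAbs with hρ
  set dd : ℕ := d % m with hdd
  set x0 : ℕ := (a + j0 * d) % m with hx0
  have hρ1 : (m : ℤ) ∣ ((r * d : ℕ) : ℤ) - ρ := by
    rw [← ZMod.intCast_eq_intCast_iff_dvd_sub, hρ, ZMod.coe_valMinAbs]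
    push_cast
    rfl
  have hρ2 : ρ.natAbs ≤ m / 2 := ZMod.natAbs_valMinAbs_le _
  have hρ3 : |ρ| < m := by
    have : ρ.natAbs < m := lt_of_le_of_lt hρ2 (Nat.div_lt_self hm (by norm_num))
    rw [Int.abs_eq_natAbs]
    exact_mod_cast this
  rw [abs_lt] at hρ3
  have hd1 : (m : ℤ) ∣ (d : ℤ) - dd := by
    have := Nat.div_add_mod d m
    refine ⟨(d / m : ℕ), ?_⟩
    have h1 : (d : ℤ) = m * (d / m : ℕ) + dd := by exact_mod_cast this.symm
    linarith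
  obtain ⟨u, hu⟩ : (m : ℤ) ∣ r * dd - ρ := by
    have h1 : (r : ℤ) * dd - ρ = (((r * d : ℕ) : ℤ) - ρ) - r * ((d : ℤ) - dd) := by
      push_cast; ring
    rw [h1]
    exact dvd_sub hρ1 (Dvd.dvd.mul_left hd1 _)
  have hdm : dd < m := Nat.mod_lt _ hm
  have hdm' : (dd : ℤ) < m := by exact_mod_cast hdm
  have hu0 : 0 ≤ u := by
    by_contra hcon
    rw [not_le] at hcon
    have h1 : (m : ℤ) * u ≤ m * (-1) := mul_le_mul_of_nonneg_left (by omega) hm0.le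
    have h2 : (0 : ℤ) ≤ r * dd := by positivity
    linarith [hρ3.1, hρ3.2]
  have hu1 : u < r + 1 := by
    by_contra hcon
    rw [not_lt] at hcon
    have h1 : (m : ℤ) * (r + 1) ≤ m * u := mul_le_mul_of_nonneg_left hcon hm0.le
    have h2 : (r : ℤ) * dd ≤ r * m := mul_le_mul_of_nonneg_left hdm'.le hr0.le
    linarith [hρ3.1, hρ3.2]
  obtain ⟨u', rfl⟩ : ∃ u' : ℕ, u = u' := ⟨u.toNat, by omega⟩
  refine ⟨u', by omega, by linarith, hρ3.2, hρ3.1, ?_⟩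
  intro j
  rw [Int.modEq_iff_dvd]
  have h1 : (m : ℤ) ∣ ((a + j0 * d : ℕ) : ℤ) - x0 := by
    have := Nat.div_add_mod (a + j0 * d) m
    refine ⟨((a + j0 * d) / m : ℕ), ?_⟩
    have h2 : ((a + j0 * d : ℕ) : ℤ) = m * ((a + j0 * d) / m : ℕ) + x0 := by
      exact_mod_cast this.symm
    linarith
  have h3 : ((x0 : ℤ) + ((j : ℤ) - j0) * dd) - ((a + j * d : ℕ) : ℤ) =
      -((((a + j0 * d : ℕ) : ℤ) - x0) + ((j : ℤ) - j0) * ((d : ℤ) - dd)) := by
    push_cast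
    ring
  rw [h3]
  exact (dvd_neg).2 (dvd_add h1 (Dvd.dvd.mul_left hd1 _))

end C2

open C2 in
theorem count2 (k Lam R m b : ℕ) (hk : 2 ≤ k) (hLam : 1 ≤ Lam) (hm : 0 < m)
    (hT : (Thr k R m).card ≤ b + 1) (c : (ℕ × ℕ) × (ℕ × ℕ)) (j0 : Fin k) (r : ℕ)
    (hr : 1 ≤ r) (hrk : r ≤ k) :
    ∃ F : Finset (Fin k → (ℕ × ℕ) × (ℕ × ℕ)), F.card ≤ (k + 1) * (k * (5 * (b + 1)) + 1) ^ 3 ∧
      ∀ a d : ℕ, cell1 k Lam R m (a + j0 * d) = c → near1 k Lam m (r * d) →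
        (fun j : Fin k => cell1 k Lam R m (a + j * d)) ∈ F := by
  classical
  have hr0 : (0 : ℤ) < r := by exact_mod_cast hr
  have hs : ∀ j : Fin k, |((j : ℕ) : ℤ) - ((j0 : ℕ) : ℤ)| ≤ k := by
    intro j
    have h1 : ((j : ℕ) : ℤ) < k := by exact_mod_cast j.2
    have h2 : ((j0 : ℕ) : ℤ) < k := by exact_mod_cast j0.2
    rw [abs_le]
    constructor <;> omega
  refine ⟨(Finset.range (k + 1)).biUnion (fun u =>
    (ZZ k Lam m r (fun j => r * (m * (c.1.1 : ℤ)) + (((j : ℕ) : ℤ) - ((j0 : ℕ) : ℤ)) * Lam *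
      ((u : ℕ) : ℤ) * m) (fun j => (((j : ℕ) : ℤ) - ((j0 : ℕ) : ℤ)) * Lam)).image
      (fun (z : ℤ × ℤ) (j : Fin k) => cellZ k Lam R m
        (((r * (m * (c.1.1 : ℤ)) + (((j : ℕ) : ℤ) - ((j0 : ℕ) : ℤ)) * Lam * ((u : ℕ) : ℤ) * m) +
          r * z.1 + ((((j : ℕ) : ℤ) - ((j0 : ℕ) : ℤ)) * Lam) * z.2) / r))), ?_, ?_⟩
  · refine card_biUnion_le.trans ?_
    refine (Finset.sum_le_sum fun (u : ℕ) _ => card_u k Lam R m b hk hm hT (c.1.1 : ℤ) (u : ℤ)
      (fun j => ((j : ℕ) : ℤ) - ((j0 : ℕ) : ℤ)) hs r hr).trans ?_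
    rw [Finset.sum_const, card_range, smul_eq_mul]
  · intro a d hc hnear
    obtain ⟨u, hu1, hu2, hu3, hu4, hu5⟩ := exists_u m r a d j0 hm hr
    rw [mem_biUnion]
    refine ⟨u, mem_range.2 (by omega), ?_⟩
    rw [mem_image]
    set ρ : ℤ := ((r * d : ℕ) : ZMod m).valMinAbs with hρ
    set dd : ℕ := d % m with hdd
    set x0 : ℕ := (a + j0 * d) % m with hx0
    have hYm : (Lam * x0) % m < m := Nat.mod_lt _ hm
    have hA : c.1.1 = (Lam * x0) / m := by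
      rw [← hc]
      rfl
    have hbase : (Lam : ℤ) * x0 = m * c.1.1 + ((Lam * x0) % m : ℕ) := by
      have := Nat.div_add_mod (Lam * x0) m
      rw [← hA] at this
      exact_mod_cast this.symm
    have hV : ∀ j : Fin k, (r : ℤ) * (Lam * ((x0 : ℤ) + (((j : ℕ) : ℤ) - ((j0 : ℕ) : ℤ)) * dd)) =
        (r * (m * (c.1.1 : ℤ)) + (((j : ℕ) : ℤ) - ((j0 : ℕ) : ℤ)) * Lam * ((u : ℕ) : ℤ) * m) +
          r * ((Lam * x0) % m : ℕ) + ((((j : ℕ) : ℤ) - ((j0 : ℕ) : ℤ)) * Lam) * ρ := by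
      intro j
      have h1 : (r : ℤ) * (Lam * ((x0 : ℤ) + (((j : ℕ) : ℤ) - ((j0 : ℕ) : ℤ)) * dd)) =
          r * (Lam * x0) + (((j : ℕ) : ℤ) - ((j0 : ℕ) : ℤ)) * Lam * (r * dd) := by ring
      rw [h1, hbase, hu2]
      ring
    refine ⟨((((Lam * x0) % m : ℕ) : ℤ), ρ), ?_, ?_⟩
    · rw [ZZ, mem_filter, mem_product, mem_Icc, mem_Icc]
      have hYm' : (((Lam * x0) % m : ℕ) : ℤ) < m := by exact_mod_cast hYm
      refine ⟨⟨⟨Int.natCast_nonneg _, hYm'.le⟩, ⟨hu4.le, hu3.le⟩⟩, hYm', hnear, ?_⟩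
      intro j
      exact ⟨_, (hV j).symm⟩
    · funext j
      rw [← hV j, Int.mul_ediv_cancel_left _ hr0.ne']
      exact (cell1_eq k Lam R m _ hm hLam _ (hu5 j)).symm

end VDW
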