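import Crest.Agent.Vdw.Geom1

/-! S0086, module Geom: the period and the coarse cells. -/

set_option autoImplicit false

open Finset

namespace VDW

section
variable {D : ℕ} (k Lam : ℕ) (M : Fin D → ℕ)

theorem per_pos (d : ℕ) : 1 ≤ per k Lam M d := by
  classical
  unfold per
  split_ifs with h
  · exact (Nat.find_spec h).1
  · omega

theorem per_le (d : ℕ) : per k Lam M d ≤ k + 1 := by
  classical
  unfold per
  split_ifs with h
  · have := (Nat.find_spec h).2.1
    omega
  · omega

theorem per_near (d : ℕ) (h : per k Lam M d ≤ k) : near k Lam M (per k Lam M d * d) := by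
  classical
  unfold per at h ⊢
  split_ifs with h'
  · exact (Nat.find_spec h').2.2
  · rw [dif_neg h'] at h
    omega

theorem per_le_of_near (d r : ℕ) (hr : 1 ≤ r) (hrk : r ≤ k) (hn : near k Lam M (r * d)) :
    per k Lam M d ≤ r := by
  classical
  have h : ∃ r, 1 ≤ r ∧ r ≤ k ∧ near k Lam M (r * d) := ⟨r, hr, hrk, hn⟩
  unfold per
  rw [dif_pos h]
  exact Nat.find_min' h ⟨hr, hrk, hn⟩

theorem per_dvd (d h : ℕ) (hk : 2 ≤ k) (hLam : 1 ≤ Lam) (hM : ∀ t, 0 < M t)
    (hh : 1 ≤ h) (hhk : h ≤ k) (hn : near k Lam M (h * d)) :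
    per k Lam M d ≤ k ∧ per k Lam M d ∣ h := by
  have hle : per k Lam M d ≤ k := (per_le_of_near k Lam M d h hh hhk hn).trans hhk
  refine ⟨hle, ?_⟩
  have hnear := per_near k Lam M d hle
  have hpos := per_pos k Lam M d
  have hg : near k Lam M (Nat.gcd (per k Lam M d) h * d) := fun t =>
    near1_gcd k Lam (M t) (per k Lam M d) h d hk hLam (hM t) hpos hle hh hhk (hnear t) (hn t)
  have hgpos : 1 ≤ Nat.gcd (per k Lam M d) h := Nat.gcd_pos_of_pos_left _ hpos
  have hgle : Nat.gcd (per k Lam M d) h ≤ per k Lam M d := Nat.gcd_le_left _ hpos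
  have hmin := per_le_of_near k Lam M d _ hgpos (hgle.trans hle) hg
  have heq : Nat.gcd (per k Lam M d) h = per k Lam M d := le_antisymm hgle hmin
  exact Nat.gcd_eq_left_iff_dvd.mp heq

theorem per_of_hcell (a d j j' : ℕ) (hk : 2 ≤ k) (hLam : 1 ≤ Lam) (hM : ∀ t, 0 < M t)
    (hjj : j < j') (hj' : j' < k) (h : hcell k Lam M (a + j * d) = hcell k Lam M (a + j' * d)) :
    per k Lam M d ≤ k ∧ per k Lam M d ∣ j' - j := by
  refine per_dvd k Lam M d (j' - j) hk hLam hM (by omega) (by omega) (fun t => ?_)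
  refine near1_of_hcell1 k Lam (M t) (a + j * d) ((j' - j) * d) (hM t) ?_
  have e : a + j * d + (j' - j) * d = a + j' * d := by
    obtain ⟨s, rfl⟩ := Nat.exists_eq_add_of_lt hjj
    rw [show j + s + 1 - j = s + 1 by omega]
    ring
  rw [e]
  exact congrFun h t

theorem fiber_card (a d : ℕ) (hk : 2 ≤ k) (hLam : 1 ≤ Lam) (hM : ∀ t, 0 < M t)
    (c : Fin D → ℕ × ℕ) :
    (univ.filter (fun j : Fin k => hcell k Lam M (a + j * d) = c)).card ≤
      (k - 1) / per k Lam M d + 1 := by
  have hpos := per_pos k Lam M d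
  have key : ∀ i j : Fin k, hcell k Lam M (a + i * d) = c → hcell k Lam M (a + j * d) = c →
      (i : ℕ) < j → (i : ℕ) / per k Lam M d ≠ (j : ℕ) / per k Lam M d := by
    intro i j hi hj hij he
    obtain ⟨-, hdvd⟩ := per_of_hcell k Lam M a d i j hk hLam hM hij j.2 (hi.trans hj.symm)
    have h1 := Nat.le_of_dvd (by omega) hdvd
    have h2 := Nat.div_add_mod (i : ℕ) (per k Lam M d)
    have h3 := Nat.div_add_mod (j : ℕ) (per k Lam M d)
    have h4 := Nat.mod_lt (j : ℕ) hpos
    have h5 := Nat.mod_lt (i : ℕ) hpos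
    rw [he] at h2
    omega
  have hinj : Set.InjOn (fun j : Fin k => (j : ℕ) / per k Lam M d)
      (univ.filter (fun j : Fin k => hcell k Lam M (a + j * d) = c) : Finset (Fin k)) := by
    intro i hi j hj he
    simp only [coe_filter, mem_univ, true_and, Set.mem_ofPred_eq] at hi hj
    rcases lt_trichotomy (i : ℕ) j with h | h | h
    · exact absurd he (key i j hi hj h)
    · exact Fin.ext h
    · exact absurd he.symm (key j i hj hi h)
  have hcard := Finset.card_le_card_of_injOn (t := range ((k - 1) / per k Lam M d + 1))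
    (fun j : Fin k => (j : ℕ) / per k Lam M d) (fun j _ => by
      simp only [coe_range, Set.mem_Iio]
      exact Nat.lt_succ_of_le (Nat.div_le_div_right (by have := j.2; omega))) hinj
  simpa using hcard

/-- everything depends on residues mod `N = ∏ M t` only -/
theorem yy_congr (n n' : ℕ) (h : n % (∏ t, M t) = n' % (∏ t, M t)) (t : Fin D) :
    n % M t = n' % M t :=
  Nat.ModEq.of_dvd (Finset.dvd_prod_of_mem M (mem_univ t)) h

end

end VDW
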