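import Crest.Agent.Vdw.Defs
import Crest.Agent.Vdw.Thr
import Crest.Agent.Vdw.Count1
import Crest.Agent.Vdw.Count2
import Crest.Agent.Vdw.Geom

/-! S0086, module CountAll (helper5): counting cell patterns over all moduli. -/

set_option autoImplicit false

open Finset

namespace VDW

/-- product of per-modulus pattern sets -/
private theorem prod_patterns {k D : ℕ} {α : Type} [DecidableEq α] (B : ℕ)
    (F : Fin D → Finset (Fin k → α)) (hF : ∀ t, (F t).card ≤ B) :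
    ∃ G : Finset (Fin k → Fin D → α), G.card ≤ B ^ D ∧
      ∀ p : Fin k → Fin D → α, (∀ t, (fun j => p j t) ∈ F t) → p ∈ G := by
  classical
  refine ⟨(Fintype.piFinset F).image (fun p j t => p t j), ?_, ?_⟩
  · refine Finset.card_image_le.trans ?_
    rw [Fintype.card_piFinset]
    calc ∏ t, (F t).card ≤ ∏ _t : Fin D, B := Finset.prod_le_prod' (fun t _ => hF t)
      _ = B ^ D := by simp
  · intro p hp
    rw [Finset.mem_image]
    refine ⟨fun t j => p j t, ?_, rfl⟩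
    rw [Fintype.mem_piFinset]
    exact hp

theorem cell_patterns (P : Par) :
    ∃ F : Finset (Fin P.k → Fin (P.l ^ 2) → (ℕ × ℕ) × (ℕ × ℕ)),
      F.card ≤ Bcell P.k P.l P.Lam P.b ∧
      ∀ a d : ℕ, (fun j : Fin P.k => cell P.k P.Lam P.R P.M (a + j * d)) ∈ F := by
  classical
  have hk : 1 ≤ P.k := by have := P.hk; omega
  have hM : ∀ t, 0 < P.M t := fun t => (P.hMp t).pos
  have h1 : ∀ t, ∃ F : Finset (Fin P.k → (ℕ × ℕ) × (ℕ × ℕ)),
      F.card ≤ (P.k * (P.k * P.Lam * (P.b + 1)) + 1) ^ 3 ∧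
      ∀ a d : ℕ, (fun j : Fin P.k => cell1 P.k P.Lam P.R (P.M t) (a + j * d)) ∈ F := fun t =>
    count1 P.k P.Lam P.R (P.M t) P.b hk P.hLam (hM t) (thr_card P.k P.R (P.M t) P.b (hM t) (P.hb t))
  choose F hF1 hF2 using h1
  obtain ⟨G, hG1, hG2⟩ := prod_patterns _ F hF1
  exact ⟨G, hG1, fun a d => hG2 _ (fun t => hF2 t a d)⟩

theorem cell_patterns_through (P : Par) (c : Fin (P.l ^ 2) → (ℕ × ℕ) × (ℕ × ℕ)) :
    ∃ F : Finset (Fin P.k → Fin (P.l ^ 2) → (ℕ × ℕ) × (ℕ × ℕ)),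
      F.card ≤ B1 P.k P.l P.b ∧
      ∀ a d : ℕ, (∃ j : Fin P.k, cell P.k P.Lam P.R P.M (a + j * d) = c) →
        per P.k P.Lam P.M d ≤ P.k →
        (fun j : Fin P.k => cell P.k P.Lam P.R P.M (a + j * d)) ∈ F := by
  classical
  have hk : 2 ≤ P.k := by have := P.hk; omega
  have hM : ∀ t, 0 < P.M t := fun t => (P.hMp t).pos
  -- for each position `j0` and period `r`
  have h1 : ∀ (j0 : Fin P.k) (r : ℕ), ∃ G : Finset (Fin P.k → Fin (P.l ^ 2) → (ℕ × ℕ) × (ℕ × ℕ)),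
      G.card ≤ ((P.k + 1) * (P.k * (5 * (P.b + 1)) + 1) ^ 3) ^ (P.l ^ 2) ∧
      (1 ≤ r → r ≤ P.k → ∀ a d : ℕ, cell P.k P.Lam P.R P.M (a + j0 * d) = c →
        near P.k P.Lam P.M (r * d) →
        (fun j : Fin P.k => cell P.k P.Lam P.R P.M (a + j * d)) ∈ G) := by
    intro j0 r
    by_cases hr : 1 ≤ r ∧ r ≤ P.k
    · have h2 : ∀ t, ∃ F : Finset (Fin P.k → (ℕ × ℕ) × (ℕ × ℕ)),
          F.card ≤ (P.k + 1) * (P.k * (5 * (P.b + 1)) + 1) ^ 3 ∧
          ∀ a d : ℕ, cell1 P.k P.Lam P.R (P.M t) (a + j0 * d) = c t →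
            near1 P.k P.Lam (P.M t) (r * d) →
            (fun j : Fin P.k => cell1 P.k P.Lam P.R (P.M t) (a + j * d)) ∈ F := fun t =>
        count2 P.k P.Lam P.R (P.M t) P.b hk P.hLam (hM t)
          (thr_card P.k P.R (P.M t) P.b (hM t) (P.hb t)) (c t) j0 r hr.1 hr.2
      choose F hF1 hF2 using h2
      obtain ⟨G, hG1, hG2⟩ := prod_patterns _ F hF1
      refine ⟨G, hG1, fun _ _ a d hc hn => hG2 _ (fun t => hF2 t a d ?_ (hn t))⟩
      exact congrFun hc t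
    · exact ⟨∅, by simp, fun h1 h2 => absurd ⟨h1, h2⟩ hr⟩
  choose G hG1 hG2 using h1
  refine ⟨(univ : Finset (Fin P.k)).biUnion (fun j0 => (range (P.k + 1)).biUnion (G j0)), ?_, ?_⟩
  · set X := ((P.k + 1) * (P.k * (5 * (P.b + 1)) + 1) ^ 3) ^ (P.l ^ 2) with hX
    refine Finset.card_biUnion_le.trans ?_
    calc ∑ j0 : Fin P.k, ((range (P.k + 1)).biUnion (G j0)).card
        ≤ ∑ _j0 : Fin P.k, (P.k + 1) * X := by
          refine Finset.sum_le_sum fun j0 _ => ?_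
          refine Finset.card_biUnion_le.trans ?_
          calc ∑ r ∈ range (P.k + 1), (G j0 r).card ≤ ∑ _r ∈ range (P.k + 1), X :=
                Finset.sum_le_sum fun r _ => hG1 j0 r
            _ = (P.k + 1) * X := by simp
      _ = P.k * ((P.k + 1) * X) := by simp
      _ = B1 P.k P.l P.b := by rw [B1, ← hX]; ring
  · rintro a d ⟨j0, hj0⟩ hper
    rw [Finset.mem_biUnion]
    refine ⟨j0, mem_univ _, ?_⟩
    rw [Finset.mem_biUnion]
    refine ⟨per P.k P.Lam P.M d, mem_range.2 (by omega), ?_⟩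
    exact hG2 j0 _ (per_pos P.k P.Lam P.M d) hper a d hj0 (per_near P.k P.Lam P.M d hper)

end VDW
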