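import Mathlib

/-! # S0086 module Exc: the random exception set -/

set_option autoImplicit false

open Finset

namespace VDW

namespace Exc

/-- counting functions with prescribed values in small sets on `S` -/
theorem card_constr {K : Type} [Fintype K] [DecidableEq K] (h : ℕ) (hh : 2 ≤ h) (S : Finset K)
    (A : K → Finset (Fin h)) (a : ℕ) (hA : ∀ c ∈ S, (A c).card ≤ a) :
    ((univ.filter (fun u : K → Fin h => ∀ c ∈ S, u c ∈ A c)).card : ℝ) ≤
      (h : ℝ) ^ (Fintype.card K) * ((a : ℝ) / h) ^ S.card := by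
  have hh0 : (0 : ℝ) < h := by exact_mod_cast (by omega : 0 < h)
  have h1 : univ.filter (fun u : K → Fin h => ∀ c ∈ S, u c ∈ A c) =
      Fintype.piFinset (fun c => if c ∈ S then A c else univ) := by
    ext u
    simp only [mem_filter, mem_univ, true_and, Fintype.mem_piFinset]
    refine forall_congr' fun c => ?_
    by_cases hc : c ∈ S <;> simp [hc]
  rw [h1, Fintype.card_piFinset]
  have h2 : ∏ c, (if c ∈ S then A c else univ : Finset (Fin h)).card ≤
      a ^ S.card * h ^ (Fintype.card K - S.card) := by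
    rw [← Finset.prod_mul_prod_compl S]
    have e1 : ∏ c ∈ S, (if c ∈ S then A c else univ : Finset (Fin h)).card ≤ a ^ S.card := by
      apply Finset.prod_le_pow_card
      intro c hc
      simpa [hc] using hA c hc
    have e2 : ∏ c ∈ Sᶜ, (if c ∈ S then A c else univ : Finset (Fin h)).card =
        h ^ (Fintype.card K - S.card) := by
      rw [← Finset.card_compl]
      rw [Finset.prod_congr rfl (g := fun _ => h)]
      · simp
      · intro c hc
        rw [Finset.mem_compl] at hc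
        simp [hc]
    rw [e2]
    exact Nat.mul_le_mul_right _ e1
  have h3 : ((∏ c, (if c ∈ S then A c else univ : Finset (Fin h)).card : ℕ) : ℝ) ≤
      (a : ℝ) ^ S.card * (h : ℝ) ^ (Fintype.card K - S.card) := by
    exact_mod_cast h2
  refine h3.trans (le_of_eq ?_)
  have hS : S.card ≤ Fintype.card K := Finset.card_le_univ S
  rw [div_pow]
  have : (h : ℝ) ^ (Fintype.card K) =
      (h : ℝ) ^ (Fintype.card K - S.card) * (h : ℝ) ^ S.card := by
    rw [← pow_add, Nat.sub_add_cancel hS]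
  rw [this]
  field_simp

section fin

variable {K : Type} [Fintype K] [DecidableEq K] (k h : ℕ)

/-- unique positions -/
def uniq (κ : Fin k → K) : Finset (Fin k) := univ.filter (fun j => ¬ ∃ j', j' ≠ j ∧ κ j' = κ j)

omit [Fintype K] in
theorem uniq_inj (κ : Fin k → K) : Set.InjOn κ (uniq k κ : Set (Fin k)) := by
  intro a ha b hb hab
  by_contra hne
  rw [uniq, mem_coe, mem_filter] at ha
  exact ha.2 ⟨b, fun h => hne h.symm, hab.symm⟩

omit [Fintype K] in
theorem uniq_card (κ : Fin k → K)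
    (hQ : 50 * (univ.filter (fun j => ∃ j', j' ≠ j ∧ κ j' = κ j)).card ≤ k) :
    49 * k ≤ 50 * (uniq k κ).card := by
  have h1 := Finset.card_filter_add_card_filter_not (s := (univ : Finset (Fin k)))
    (fun j => ∃ j', j' ≠ j ∧ κ j' = κ j)
  rw [Finset.card_univ, Fintype.card_fin] at h1
  have h2 : (uniq k κ).card = (univ.filter (fun j => ¬ ∃ j', j' ≠ j ∧ κ j' = κ j)).card := rfl
  omega

/-- bad event of the first kind -/
theorem bad1 [NeZero h] (hh : 2 ≤ h) (κ : Fin k → K)
    (hQ : 50 * (univ.filter (fun j => ∃ j', j' ≠ j ∧ κ j' = κ j)).card ≤ k) :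
    ((univ.filter (fun u : K → Fin h =>
      k < 20 * (univ.filter (fun j => u (κ j) = 0)).card)).card : ℝ) ≤
      (h : ℝ) ^ (Fintype.card K) * (2 ^ k / (h : ℝ) ^ ((3 * k : ℝ) / 100)) := by
  have hh0 : (0 : ℝ) < h := by exact_mod_cast (by omega : 0 < h)
  have hh1 : (1 : ℝ) ≤ h := by exact_mod_cast (by omega : 1 ≤ h)
  set I : Finset (Finset (Fin k)) :=
    (univ : Finset (Finset (Fin k))).filter (fun W => W ⊆ uniq k κ ∧ 3 * k ≤ 100 * W.card) with hI
  have hsub : univ.filter (fun u : K → Fin h =>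
      k < 20 * (univ.filter (fun j => u (κ j) = 0)).card) ⊆
      I.biUnion (fun W => univ.filter (fun u : K → Fin h => ∀ c ∈ W.image κ, u c ∈ ({0} : Finset (Fin h)))) := by
    intro u hu
    rw [mem_filter] at hu
    rw [mem_biUnion]
    refine ⟨(uniq k κ).filter (fun j => u (κ j) = 0), ?_, ?_⟩
    · rw [hI, mem_filter]
      refine ⟨mem_univ _, filter_subset _ _, ?_⟩
      have h1 : (univ.filter (fun j => u (κ j) = 0)).card ≤
          ((uniq k κ).filter (fun j => u (κ j) = 0)).card +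
            (univ.filter (fun j => ∃ j', j' ≠ j ∧ κ j' = κ j)).card := by
        refine (Finset.card_le_card ?_).trans (Finset.card_union_le _ _)
        intro j hj
        rw [mem_filter] at hj
        rw [mem_union, mem_filter, mem_filter, uniq, mem_filter]
        by_cases hc : ∃ j', j' ≠ j ∧ κ j' = κ j
        · exact Or.inr ⟨mem_univ _, hc⟩
        · exact Or.inl ⟨⟨mem_univ _, hc⟩, hj.2⟩
      have h2 := hu.2
      omega
    · rw [mem_filter]
      refine ⟨mem_univ _, ?_⟩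
      intro c hc
      rw [mem_image] at hc
      obtain ⟨j, hj, rfl⟩ := hc
      rw [mem_filter] at hj
      rw [mem_singleton]
      exact hj.2
  have h1 : ((univ.filter (fun u : K → Fin h =>
      k < 20 * (univ.filter (fun j => u (κ j) = 0)).card)).card : ℝ) ≤
      ∑ W ∈ I, ((univ.filter (fun u : K → Fin h =>
        ∀ c ∈ W.image κ, u c ∈ ({0} : Finset (Fin h)))).card : ℝ) := by
    have := (Finset.card_le_card hsub).trans Finset.card_biUnion_le
    exact_mod_cast this
  refine h1.trans ?_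
  have h2 : ∀ W ∈ I, ((univ.filter (fun u : K → Fin h =>
        ∀ c ∈ W.image κ, u c ∈ ({0} : Finset (Fin h)))).card : ℝ) ≤
        (h : ℝ) ^ (Fintype.card K) * (1 / (h : ℝ) ^ ((3 * k : ℝ) / 100)) := by
    intro W hW
    rw [hI, mem_filter] at hW
    have e1 := card_constr h hh (W.image κ) (fun _ => {0}) 1 (by simp)
    refine e1.trans ?_
    apply mul_le_mul_of_nonneg_left _ (by positivity)
    have e2 : (W.image κ).card = W.card :=
      Finset.card_image_of_injOn ((uniq_inj k κ).mono (by exact_mod_cast hW.2.1))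
    rw [e2, Nat.cast_one, div_pow, one_pow]
    apply one_div_le_one_div_of_le (by positivity)
    rw [← Real.rpow_natCast]
    apply Real.rpow_le_rpow_of_exponent_le hh1
    have e3 : (3 * k : ℝ) ≤ 100 * (W.card : ℝ) := by exact_mod_cast hW.2.2
    linarith
  refine (Finset.sum_le_sum h2).trans ?_
  rw [Finset.sum_const, nsmul_eq_mul]
  have h3 : (I.card : ℝ) ≤ 2 ^ k := by
    have e1 : I.card ≤ Fintype.card (Finset (Fin k)) := Finset.card_le_univ I
    rw [Fintype.card_finset, Fintype.card_fin] at e1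
    exact_mod_cast e1
  calc (I.card : ℝ) * ((h : ℝ) ^ (Fintype.card K) * (1 / (h : ℝ) ^ ((3 * k : ℝ) / 100)))
      ≤ 2 ^ k * ((h : ℝ) ^ (Fintype.card K) * (1 / (h : ℝ) ^ ((3 * k : ℝ) / 100))) :=
        mul_le_mul_of_nonneg_right h3 (by positivity)
    _ = _ := by ring

/-- bad event of the second kind -/
theorem bad2 [NeZero h] (hh : 2 ≤ h) (κ : Fin k → K) (γ : Fin k → Bool)
    (hQ : 50 * (univ.filter (fun j => ∃ j', j' ≠ j ∧ κ j' = κ j)).card ≤ k) :
    ((univ.filter (fun u : K → Fin h =>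
      ∀ j j', xor (γ j) (decide (u (κ j) = 0)) = xor (γ j') (decide (u (κ j') = 0)))).card : ℝ) ≤
      (h : ℝ) ^ (Fintype.card K) * (2 * Real.exp (-(49 * k : ℝ) / (50 * h))) := by
  have hh0 : (0 : ℝ) < h := by exact_mod_cast (by omega : 0 < h)
  have hh1 : (1 : ℝ) ≤ h := by exact_mod_cast (by omega : 1 ≤ h)
  -- the prescribed sets
  rcases Nat.eq_zero_or_pos k with hk0 | hk0
  · subst hk0
    have e1 : ((univ.filter (fun u : K → Fin h =>
      ∀ j j', xor (γ j) (decide (u (κ j) = 0)) = xor (γ j') (decide (u (κ j') = 0)))).card : ℝ) ≤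
        (h : ℝ) ^ (Fintype.card K) := by
      have : (univ.filter (fun u : K → Fin h =>
        ∀ j j', xor (γ j) (decide (u (κ j) = 0)) = xor (γ j') (decide (u (κ j') = 0)))).card ≤
          Fintype.card (K → Fin h) := Finset.card_le_univ _
      rw [Fintype.card_fun, Fintype.card_fin] at this
      exact_mod_cast this
    refine e1.trans ?_
    have : (0:ℝ) < (h : ℝ) ^ (Fintype.card K) := by positivity
    simp
    linarith
  let j0 : Fin k := ⟨0, hk0⟩
  let A : Bool → K → Finset (Fin h) := fun b c =>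
    univ.filter (fun v => ∀ j ∈ uniq k κ, κ j = c → decide (v = 0) = xor (γ j) b)
  have hA : ∀ b, ∀ c ∈ (uniq k κ).image κ, (A b c).card ≤ h - 1 := by
    intro b c hc
    rw [mem_image] at hc
    obtain ⟨j, hj, rfl⟩ := hc
    by_cases hb : xor (γ j) b = true
    · have : A b (κ j) ⊆ {0} := by
        intro v hv
        rw [mem_filter] at hv
        have := hv.2 j hj rfl
        rw [hb] at this
        rw [mem_singleton]
        exact of_decide_eq_true this
      refine (Finset.card_le_card this).trans ?_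
      rw [card_singleton]
      omega
    · have : A b (κ j) ⊆ univ.erase 0 := by
        intro v hv
        rw [mem_filter] at hv
        have := hv.2 j hj rfl
        rw [Bool.not_eq_true] at hb
        rw [hb] at this
        rw [mem_erase]
        exact ⟨of_decide_eq_false this, mem_univ _⟩
      refine (Finset.card_le_card this).trans ?_
      rw [Finset.card_erase_of_mem (mem_univ _), Finset.card_univ, Fintype.card_fin]
  have hsub : univ.filter (fun u : K → Fin h =>
      ∀ j j', xor (γ j) (decide (u (κ j) = 0)) = xor (γ j') (decide (u (κ j') = 0))) ⊆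
      (univ.filter (fun u : K → Fin h => ∀ c ∈ (uniq k κ).image κ, u c ∈ A true c)) ∪
      (univ.filter (fun u : K → Fin h => ∀ c ∈ (uniq k κ).image κ, u c ∈ A false c)) := by
    intro u hu
    rw [mem_filter] at hu
    have key : ∀ b, xor (γ j0) (decide (u (κ j0) = 0)) = b →
        u ∈ (univ.filter (fun u : K → Fin h => ∀ c ∈ (uniq k κ).image κ, u c ∈ A b c)) := by
      intro b hb
      rw [mem_filter]
      refine ⟨mem_univ _, ?_⟩
      intro c hc
      change u c ∈ univ.filter _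
      rw [mem_filter]
      refine ⟨mem_univ _, ?_⟩
      intro j hj hjc
      have h1 := hu.2 j j0
      rw [hb, hjc] at h1
      rw [← h1]
      cases γ j <;> simp
    rw [mem_union]
    cases hb : xor (γ j0) (decide (u (κ j0) = 0)) with
    | true => exact Or.inl (key true hb)
    | false => exact Or.inr (key false hb)
  have hcard : ∀ b, ((univ.filter (fun u : K → Fin h =>
      ∀ c ∈ (uniq k κ).image κ, u c ∈ A b c)).card : ℝ) ≤
      (h : ℝ) ^ (Fintype.card K) * Real.exp (-(49 * k : ℝ) / (50 * h)) := by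
    intro b
    refine (card_constr h hh ((uniq k κ).image κ) (A b) (h - 1) (hA b)).trans ?_
    apply mul_le_mul_of_nonneg_left _ (by positivity)
    rw [Finset.card_image_of_injOn (uniq_inj k κ)]
    have e1 : (((h - 1 : ℕ) : ℝ) / h) = 1 - 1 / h := by
      rw [Nat.cast_sub (by omega)]
      field_simp
      simp
    rw [e1]
    have e2 : (1 : ℝ) - 1 / h ≤ Real.exp (-(1 / h)) := by
      have := Real.add_one_le_exp (-(1 / (h : ℝ)))
      linarith
    have e3 : (0 : ℝ) ≤ 1 - 1 / h := by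
      rw [sub_nonneg, div_le_one hh0]
      exact hh1
    refine (pow_le_pow_left₀ e3 e2 _).trans ?_
    rw [← Real.exp_nat_mul]
    apply Real.exp_le_exp.2
    have e4 := uniq_card k κ hQ
    have e5 : (49 * k : ℝ) ≤ 50 * ((uniq k κ).card : ℝ) := by exact_mod_cast e4
    rw [neg_div, mul_neg, neg_le_neg_iff, mul_one_div, div_le_div_iff₀ (by positivity) hh0]
    nlinarith
  have h1 : ((univ.filter (fun u : K → Fin h =>
      ∀ j j', xor (γ j) (decide (u (κ j) = 0)) = xor (γ j') (decide (u (κ j') = 0)))).card : ℝ) ≤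
      ((univ.filter (fun u : K → Fin h => ∀ c ∈ (uniq k κ).image κ, u c ∈ A true c)).card : ℝ) +
      ((univ.filter (fun u : K → Fin h => ∀ c ∈ (uniq k κ).image κ, u c ∈ A false c)).card : ℝ) := by
    have := (Finset.card_le_card hsub).trans (Finset.card_union_le _ _)
    exact_mod_cast this
  have h2 := hcard true
  have h3 := hcard false
  linarith

/-- the finite version -/
theorem exceptions_fin (B₃ B₄ : ℕ) (hh : 2 ≤ h)
    (Q₁ : Finset (Fin k → K)) (Q₂ : Finset ((Fin k → K) × (Fin k → Bool)))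
    (hQ1 : ∀ κ ∈ Q₁, 50 * (univ.filter (fun j => ∃ j', j' ≠ j ∧ κ j' = κ j)).card ≤ k)
    (hQ2 : ∀ κ ∈ Q₂, 50 * (univ.filter (fun j => ∃ j', j' ≠ j ∧ κ.1 j' = κ.1 j)).card ≤ k)
    (hB3 : Q₁.card ≤ B₃) (hB4 : Q₂.card ≤ B₄)
    (hn3 : 4 * (B₃ : ℝ) * 2 ^ k ≤ (h : ℝ) ^ ((3 * k : ℝ) / 100))
    (hn4 : 8 * (B₄ : ℝ) * Real.exp (-(49 * k : ℝ) / (50 * h)) ≤ 1) :
    ∃ X : K → Bool,
      (∀ κ ∈ Q₁, 20 * (univ.filter (fun j => X (κ j) = true)).card ≤ k) ∧
      ∀ κ ∈ Q₂, ∃ j j', xor (κ.2 j) (X (κ.1 j)) ≠ xor (κ.2 j') (X (κ.1 j')) := by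
  have : NeZero h := ⟨by omega⟩
  have hh0 : (0 : ℝ) < h := by exact_mod_cast (by omega : 0 < h)
  set Bad1 : (Fin k → K) → Finset (K → Fin h) := fun κ => univ.filter (fun u : K → Fin h =>
      k < 20 * (univ.filter (fun j => u (κ j) = 0)).card) with hBad1
  set Bad2 : ((Fin k → K) × (Fin k → Bool)) → Finset (K → Fin h) := fun κ =>
    univ.filter (fun u : K → Fin h =>
      ∀ j j', xor (κ.2 j) (decide (u (κ.1 j) = 0)) = xor (κ.2 j') (decide (u (κ.1 j') = 0)))
    with hBad2
  set N : ℝ := (h : ℝ) ^ (Fintype.card K) with hN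
  have hNpos : 0 < N := by positivity
  have hpow : (0 : ℝ) < (h : ℝ) ^ ((3 * k : ℝ) / 100) := Real.rpow_pos_of_pos hh0 _
  have h1 : ((Q₁.biUnion Bad1).card : ℝ) ≤ N / 4 := by
    have e1 : ((Q₁.biUnion Bad1).card : ℝ) ≤ ∑ κ ∈ Q₁, ((Bad1 κ).card : ℝ) := by
      exact_mod_cast Finset.card_biUnion_le
    have e2 : ∑ κ ∈ Q₁, ((Bad1 κ).card : ℝ) ≤
        ∑ κ ∈ Q₁, N * (2 ^ k / (h : ℝ) ^ ((3 * k : ℝ) / 100)) :=
      Finset.sum_le_sum fun κ hκ => bad1 k h hh κ (hQ1 κ hκ)
    rw [Finset.sum_const, nsmul_eq_mul] at e2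
    have e3 : (Q₁.card : ℝ) ≤ B₃ := by exact_mod_cast hB3
    have e4 : (Q₁.card : ℝ) * (N * (2 ^ k / (h : ℝ) ^ ((3 * k : ℝ) / 100))) ≤
        B₃ * (N * (2 ^ k / (h : ℝ) ^ ((3 * k : ℝ) / 100))) :=
      mul_le_mul_of_nonneg_right e3 (by positivity)
    have e5 : (B₃ : ℝ) * (N * (2 ^ k / (h : ℝ) ^ ((3 * k : ℝ) / 100))) ≤ N / 4 := by
      have : (B₃ : ℝ) * (N * (2 ^ k / (h : ℝ) ^ ((3 * k : ℝ) / 100))) =
          N / 4 * ((4 * (B₃ : ℝ) * 2 ^ k) / (h : ℝ) ^ ((3 * k : ℝ) / 100)) := by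
        field_simp
      rw [this]
      apply mul_le_of_le_one_right (by positivity)
      rw [div_le_one hpow]
      exact hn3
    linarith
  have h2 : ((Q₂.biUnion Bad2).card : ℝ) ≤ N / 4 := by
    have e1 : ((Q₂.biUnion Bad2).card : ℝ) ≤ ∑ κ ∈ Q₂, ((Bad2 κ).card : ℝ) := by
      exact_mod_cast Finset.card_biUnion_le
    have e2 : ∑ κ ∈ Q₂, ((Bad2 κ).card : ℝ) ≤
        ∑ κ ∈ Q₂, N * (2 * Real.exp (-(49 * k : ℝ) / (50 * h))) :=
      Finset.sum_le_sum fun κ hκ => bad2 k h hh κ.1 κ.2 (hQ2 κ hκ)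
    rw [Finset.sum_const, nsmul_eq_mul] at e2
    have e3 : (Q₂.card : ℝ) ≤ B₄ := by exact_mod_cast hB4
    have e4 : (Q₂.card : ℝ) * (N * (2 * Real.exp (-(49 * k : ℝ) / (50 * h)))) ≤
        B₄ * (N * (2 * Real.exp (-(49 * k : ℝ) / (50 * h)))) :=
      mul_le_mul_of_nonneg_right e3 (by positivity)
    have e5 : (B₄ : ℝ) * (N * (2 * Real.exp (-(49 * k : ℝ) / (50 * h)))) ≤ N / 4 := by
      have : (B₄ : ℝ) * (N * (2 * Real.exp (-(49 * k : ℝ) / (50 * h)))) =
          N / 4 * (8 * (B₄ : ℝ) * Real.exp (-(49 * k : ℝ) / (50 * h))) := by ring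
      rw [this]
      exact mul_le_of_le_one_right (by positivity) hn4
    linarith
  have h3 : ∃ u : K → Fin h, u ∉ Q₁.biUnion Bad1 ∪ Q₂.biUnion Bad2 := by
    by_contra hcon
    push Not at hcon
    have e1 : (univ : Finset (K → Fin h)) ⊆ Q₁.biUnion Bad1 ∪ Q₂.biUnion Bad2 :=
      fun u _ => hcon u
    have e2 := (Finset.card_le_card e1).trans (Finset.card_union_le _ _)
    rw [Finset.card_univ, Fintype.card_fun, Fintype.card_fin] at e2
    have e3 : N ≤ ((Q₁.biUnion Bad1).card : ℝ) + ((Q₂.biUnion Bad2).card : ℝ) := by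
      rw [hN]
      exact_mod_cast e2
    linarith
  obtain ⟨u, hu⟩ := h3
  rw [mem_union, not_or, mem_biUnion, mem_biUnion] at hu
  push Not at hu
  refine ⟨fun c => decide (u c = 0), ?_, ?_⟩
  · intro κ hκ
    have h4 := hu.1 κ hκ
    rw [hBad1] at h4
    simp only [mem_filter, mem_univ, true_and, not_lt] at h4
    simpa using h4
  · intro κ hκ
    have h4 := hu.2 κ hκ
    rw [hBad2] at h4
    simp only [mem_filter, mem_univ, true_and] at h4
    push Not at h4
    exact h4

end fin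

end Exc

theorem exceptions {K : Type} [DecidableEq K] (k h B₃ B₄ : ℕ) (hk : 1 ≤ k) (hh : 2 ≤ h)
    (Q₁ : Finset (Fin k → K)) (Q₂ : Finset ((Fin k → K) × (Fin k → Bool)))
    (hQ1 : ∀ κ ∈ Q₁, 50 * (univ.filter (fun j => ∃ j', j' ≠ j ∧ κ j' = κ j)).card ≤ k)
    (hQ2 : ∀ κ ∈ Q₂, 50 * (univ.filter (fun j => ∃ j', j' ≠ j ∧ κ.1 j' = κ.1 j)).card ≤ k)
    (hB3 : Q₁.card ≤ B₃) (hB4 : Q₂.card ≤ B₄)
    (hn3 : 4 * (B₃ : ℝ) * 2 ^ k ≤ (h : ℝ) ^ ((3 * k : ℝ) / 100))
    (hn4 : 8 * (B₄ : ℝ) * Real.exp (-(49 * k : ℝ) / (50 * h)) ≤ 1) :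
    ∃ X : K → Bool,
      (∀ κ ∈ Q₁, 20 * (univ.filter (fun j => X (κ j) = true)).card ≤ k) ∧
      ∀ κ ∈ Q₂, ∃ j j', xor (κ.2 j) (X (κ.1 j)) ≠ xor (κ.2 j') (X (κ.1 j')) := by
  classical
  -- the finite set of values
  set F : Finset K := Q₁.biUnion (fun κ => univ.image κ) ∪ Q₂.biUnion (fun κ => univ.image κ.1)
    with hF
  have hF1 : ∀ κ ∈ Q₁, ∀ j, κ j ∈ F := by
    intro κ hκ j
    rw [hF, mem_union]
    left
    rw [mem_biUnion]
    exact ⟨κ, hκ, mem_image_of_mem κ (mem_univ j)⟩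
  have hF2 : ∀ κ ∈ Q₂, ∀ j, κ.1 j ∈ F := by
    intro κ hκ j
    rw [hF, mem_union]
    right
    rw [mem_biUnion]
    exact ⟨κ, hκ, mem_image_of_mem κ.1 (mem_univ j)⟩
  by_cases hne : F.Nonempty
  · obtain ⟨c0, hc0⟩ := hne
    let e : K → F := fun c => if hc : c ∈ F then ⟨c, hc⟩ else ⟨c0, hc0⟩
    have he : ∀ c ∈ F, ∀ c' ∈ F, (e c = e c' ↔ c = c') := by
      intro c hc c' hc'
      simp only [e, dif_pos hc, dif_pos hc', Subtype.mk.injEq]
    obtain ⟨X, hX1, hX2⟩ := Exc.exceptions_fin (K := F) k h B₃ B₄ hh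
      (Q₁.image (fun κ j => e (κ j))) (Q₂.image (fun κ => (fun j => e (κ.1 j), κ.2)))
      (by
        intro κ' hκ'
        rw [mem_image] at hκ'
        obtain ⟨κ, hκ, rfl⟩ := hκ'
        have h1 := hQ1 κ hκ
        have h2 : (univ.filter (fun j => ∃ j', j' ≠ j ∧ e (κ j') = e (κ j))) =
            (univ.filter (fun j => ∃ j', j' ≠ j ∧ κ j' = κ j)) := by
          apply filter_congr
          intro j _
          refine exists_congr fun j' => ?_
          rw [he _ (hF1 κ hκ j') _ (hF1 κ hκ j)]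
        rw [h2]
        exact h1)
      (by
        intro κ' hκ'
        rw [mem_image] at hκ'
        obtain ⟨κ, hκ, rfl⟩ := hκ'
        have h1 := hQ2 κ hκ
        have h2 : (univ.filter (fun j => ∃ j', j' ≠ j ∧ e (κ.1 j') = e (κ.1 j))) =
            (univ.filter (fun j => ∃ j', j' ≠ j ∧ κ.1 j' = κ.1 j)) := by
          apply filter_congr
          intro j _
          refine exists_congr fun j' => ?_
          rw [he _ (hF2 κ hκ j') _ (hF2 κ hκ j)]
        change 50 * (univ.filter (fun j => ∃ j', j' ≠ j ∧ e (κ.1 j') = e (κ.1 j))).card ≤ k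
        rw [h2]
        exact h1)
      (card_image_le.trans hB3) (card_image_le.trans hB4) hn3 hn4
    refine ⟨fun c => X (e c), ?_, ?_⟩
    · intro κ hκ
      exact hX1 _ (mem_image_of_mem _ hκ)
    · intro κ hκ
      exact hX2 _ (mem_image_of_mem (fun κ : (Fin k → K) × (Fin k → Bool) =>
        ((fun j => e (κ.1 j), κ.2) : (Fin k → F) × (Fin k → Bool))) hκ)
  · rw [not_nonempty_iff_eq_empty] at hne
    refine ⟨fun _ => false, ?_, ?_⟩
    · intro κ hκ
      have := hF1 κ hκ ⟨0, hk⟩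
      rw [hne] at this
      simp at this
    · intro κ hκ
      have := hF2 κ hκ ⟨0, hk⟩
      rw [hne] at this
      simp at this

end VDW
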