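import Crest.Agent.Vdw.Defs

/-! S0086, module Hash. -/

set_option autoImplicit false

open Polynomial Finset

namespace VDW

theorem small_of_theta_eq (q m : ℕ) [Fact q.Prime] (hm : 2 ≤ m) (u v : ZMod q)
    (h : theta q m u = theta q m v) : small q m (u - v) := by
  have hq : 0 < q := (Fact.out : q.Prime).pos
  have hle : (u - v).valMinAbs.natAbs ≤ ((u.val : ℤ) - (v.val : ℤ)).natAbs := by
    refine ZMod.natAbs_min_of_le_div_two q _ _ ?_ (ZMod.natAbs_valMinAbs_le _)
    push_cast
    simp
  unfold small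
  unfold theta at h
  have h1 := Nat.div_add_mod (m * u.val) q
  have h2 := Nat.div_add_mod (m * v.val) q
  have h3 := Nat.mod_lt (m * u.val) hq
  have h4 := Nat.mod_lt (m * v.val) hq
  rw [h] at h1
  have h5 : m * ((u.val : ℤ) - (v.val : ℤ)).natAbs < q := by
    have e1 : m * ((u.val : ℤ) - (v.val : ℤ)).natAbs =
        (((m * u.val : ℕ) : ℤ) - ((m * v.val : ℕ) : ℤ)).natAbs := by
      push_cast
      rw [← mul_sub, Int.natAbs_mul]; simp
    rw [e1]
    generalize m * u.val = a at *
    generalize m * v.val = b at *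
    generalize q * (b / q) = c at *
    omega
  calc m * (u - v).valMinAbs.natAbs ≤ m * ((u.val : ℤ) - (v.val : ℤ)).natAbs :=
        Nat.mul_le_mul_left _ hle
    _ < q := h5

open Classical in
theorem card_small (q m : ℕ) [Fact q.Prime] (hm : 1 ≤ m) (hmq : m ≤ q) :
    m * (univ.filter (fun u : ZMod q => small q m u)).card ≤ 3 * q := by
  have hq : 0 < q := (Fact.out : q.Prime).pos
  have h1 : (univ.filter (fun u : ZMod q => small q m u)).card ≤
      (Finset.Icc (-(((q - 1) / m : ℕ) : ℤ)) (((q - 1) / m : ℕ) : ℤ)).card := by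
    refine Finset.card_le_card_of_injOn (fun u => u.valMinAbs) ?_ ?_
    · intro u hu
      have hu' : small q m u := by simpa using hu
      have h2 : u.valMinAbs.natAbs ≤ (q - 1) / m := by
        rw [Nat.le_div_iff_mul_le (by omega)]
        have : m * u.valMinAbs.natAbs < q := hu'
        rw [mul_comm]; omega
      rw [Finset.coe_Icc, Set.mem_Icc]
      beta_reduce
      omega
    · intro u _ v _ huv
      exact ZMod.injective_valMinAbs huv
  rw [Int.card_Icc] at h1
  have h3 : (m * ((q - 1) / m)) ≤ q - 1 := Nat.mul_div_le _ _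
  have h4 : (univ.filter (fun u : ZMod q => small q m u)).card ≤ 2 * ((q - 1) / m) + 1 := by
    omega
  calc m * (univ.filter (fun u : ZMod q => small q m u)).card ≤ m * (2 * ((q - 1) / m) + 1) :=
        Nat.mul_le_mul_left _ h4
    _ = 2 * (m * ((q - 1) / m)) + m := by ring
    _ ≤ 3 * q := by omega

open Classical in
theorem card_fib (q D : ℕ) [Fact q.Prime] (φ : (Fin D → ZMod q) →+ ZMod q)
    (hφ : Function.Surjective φ) (S : Finset (ZMod q)) :
    q * (univ.filter (fun v : Fin D → ZMod q => φ v ∈ S)).card =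
      S.card * Fintype.card (Fin D → ZMod q) := by
  have hfib : ∀ s : ZMod q, (univ.filter (fun v : Fin D → ZMod q => φ v = s)).card =
      (univ.filter (fun v : Fin D → ZMod q => φ v = 0)).card := by
    intro s
    exact AddMonoidHom.card_fiber_eq_of_mem_range φ (hφ s) (hφ 0)
  have h1 : (univ.filter (fun v : Fin D → ZMod q => φ v ∈ S)).card =
      S.card * (univ.filter (fun v : Fin D → ZMod q => φ v = 0)).card := by
    rw [Finset.card_eq_sum_card_fiberwise (f := φ) (t := S)]
    · rw [Finset.sum_congr rfl (g := fun _ => (univ.filter (fun v : Fin D → ZMod q => φ v = 0)).card)]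
      · simp
      · intro s hs
        rw [← hfib s]
        congr 1
        ext v
        simp only [Finset.mem_filter, Finset.mem_univ, true_and]
        constructor
        · exact fun h => h.2
        · intro h; exact ⟨h ▸ hs, h⟩
    · intro v hv
      simpa using hv
  have h2 : Fintype.card (Fin D → ZMod q) =
      q * (univ.filter (fun v : Fin D → ZMod q => φ v = 0)).card := by
    have := Finset.card_eq_sum_card_fiberwise (f := φ) (s := univ) (t := univ) (by intro v _; simp)
    rw [← Finset.card_univ, this, Finset.sum_congr rfl (fun s _ => hfib s)]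
    simp [ZMod.card]
  rw [h1, h2]; ring

open Classical in
theorem card_badv (q D m w : ℕ) [Fact q.Prime] (hm : 1 ≤ m) (hmq : m ≤ q) (hwq : w < q)
    (E : Fin D → ZMod q) (hE : E ≠ 0) :
    m * (univ.filter (fun v : Fin D → ZMod q => ∃ i : ℕ, 1 ≤ i ∧ i ≤ w ∧
      small q m ((i : ZMod q) * (v ⬝ᵥ E)))).card ≤ 3 * w * Fintype.card (Fin D → ZMod q) := by
  have hq : 0 < q := (Fact.out : q.Prime).pos
  obtain ⟨d₀, hd₀⟩ : ∃ d, E d ≠ 0 := by
    by_contra hcon
    push Not at hcon
    exact hE (funext hcon)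
  -- each `i`
  have hone : ∀ i ∈ Finset.Icc 1 w, m * (univ.filter (fun v : Fin D → ZMod q =>
      small q m ((i : ZMod q) * (v ⬝ᵥ E)))).card ≤ 3 * Fintype.card (Fin D → ZMod q) := by
    intro i hi
    rw [Finset.mem_Icc] at hi
    have hi0 : (i : ZMod q) ≠ 0 := by
      intro h0
      rw [ZMod.natCast_eq_zero_iff] at h0
      have := Nat.le_of_dvd (by omega) h0
      omega
    let φ : (Fin D → ZMod q) →+ ZMod q :=
      { toFun := fun v => (i : ZMod q) * (v ⬝ᵥ E)
        map_zero' := by simp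
        map_add' := by intro a b; rw [add_dotProduct, mul_add] }
    have hφ : Function.Surjective φ := by
      intro s
      refine ⟨Pi.single d₀ (s * ((i : ZMod q))⁻¹ * (E d₀)⁻¹), ?_⟩
      change (i : ZMod q) * (_ ⬝ᵥ E) = s
      rw [single_dotProduct]
      field_simp
    have h1 := card_fib q D φ hφ (univ.filter (fun u => small q m u))
    have h2 := card_small q m hm hmq
    have h3 : (univ.filter (fun v : Fin D → ZMod q =>
        small q m ((i : ZMod q) * (v ⬝ᵥ E)))) =
        (univ.filter (fun v : Fin D → ZMod q => φ v ∈ univ.filter (fun u => small q m u))) := by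
      ext v
      simp [φ]
    rw [h3]
    have h4 : q * (m * (univ.filter (fun v : Fin D → ZMod q =>
        φ v ∈ univ.filter (fun u => small q m u))).card) ≤
        q * (3 * Fintype.card (Fin D → ZMod q)) := by
      calc q * (m * (univ.filter (fun v : Fin D → ZMod q =>
            φ v ∈ univ.filter (fun u => small q m u))).card) =
            m * (q * (univ.filter (fun v : Fin D → ZMod q =>
            φ v ∈ univ.filter (fun u => small q m u))).card) := by ring
        _ = m * ((univ.filter (fun u => small q m u)).card * Fintype.card (Fin D → ZMod q)) := by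
            rw [h1]
        _ = (m * (univ.filter (fun u => small q m u)).card) * Fintype.card (Fin D → ZMod q) := by
            ring
        _ ≤ (3 * q) * Fintype.card (Fin D → ZMod q) := Nat.mul_le_mul_right _ h2
        _ = q * (3 * Fintype.card (Fin D → ZMod q)) := by ring
    exact Nat.le_of_mul_le_mul_left h4 hq
  have hsub : (univ.filter (fun v : Fin D → ZMod q => ∃ i : ℕ, 1 ≤ i ∧ i ≤ w ∧
      small q m ((i : ZMod q) * (v ⬝ᵥ E)))) ⊆
      (Finset.Icc 1 w).biUnion (fun i => univ.filter (fun v : Fin D → ZMod q =>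
        small q m ((i : ZMod q) * (v ⬝ᵥ E)))) := by
    intro v hv
    simp only [Finset.mem_filter, Finset.mem_univ, true_and] at hv
    obtain ⟨i, h1, h2, h3⟩ := hv
    rw [Finset.mem_biUnion]
    exact ⟨i, Finset.mem_Icc.mpr ⟨h1, h2⟩, by simpa using h3⟩
  calc m * (univ.filter (fun v : Fin D → ZMod q => ∃ i : ℕ, 1 ≤ i ∧ i ≤ w ∧
      small q m ((i : ZMod q) * (v ⬝ᵥ E)))).card
      ≤ m * ∑ i ∈ Finset.Icc 1 w, (univ.filter (fun v : Fin D → ZMod q =>
        small q m ((i : ZMod q) * (v ⬝ᵥ E)))).card :=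
        Nat.mul_le_mul_left _ ((Finset.card_le_card hsub).trans Finset.card_biUnion_le)
    _ = ∑ i ∈ Finset.Icc 1 w, m * (univ.filter (fun v : Fin D → ZMod q =>
        small q m ((i : ZMod q) * (v ⬝ᵥ E)))).card := by rw [Finset.mul_sum]
    _ ≤ ∑ i ∈ Finset.Icc 1 w, 3 * Fintype.card (Fin D → ZMod q) := Finset.sum_le_sum hone
    _ = 3 * w * Fintype.card (Fin D → ZMod q) := by
        rw [Finset.sum_const, Nat.card_Icc, smul_eq_mul]
        simp only [Nat.add_sub_cancel]
        ring

open Classical in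
/-- number of functions whose values on `J` lie in `B` -/
theorem card_onJ {X V : Type} [Fintype X] [DecidableEq X] [Fintype V] [DecidableEq V]
    (J : Finset X) (B : Finset V) (ρ : ℝ) (hB : (B.card : ℝ) ≤ ρ * Fintype.card V) :
    ((univ.filter (fun f : X → V => ∀ x ∈ J, f x ∈ B)).card : ℝ) ≤
      ρ ^ J.card * Fintype.card (X → V) := by
  have h1 : (univ.filter (fun f : X → V => ∀ x ∈ J, f x ∈ B)) =
      Fintype.piFinset (fun x => if x ∈ J then B else univ) := by
    ext f
    simp only [Finset.mem_filter, Finset.mem_univ, true_and, Fintype.mem_piFinset]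
    constructor
    · intro h x
      by_cases hx : x ∈ J
      · simp [hx, h x hx]
      · simp [hx]
    · intro h x hx
      have := h x
      simpa [hx] using this
  rw [h1, Fintype.card_piFinset, Fintype.card_pi]
  push_cast
  have h2 : ρ ^ J.card * ∏ _x : X, (Fintype.card V : ℝ) =
      ∏ x : X, ((if x ∈ J then ρ else 1) * (Fintype.card V : ℝ)) := by
    rw [Finset.prod_mul_distrib, Finset.prod_ite_mem, Finset.univ_inter, Finset.prod_const,
      Finset.prod_const]
  rw [h2]
  refine Finset.prod_le_prod (fun x _ => by positivity) fun x _ => ?_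
  by_cases hx : x ∈ J
  · simp only [hx, if_true]; exact hB
  · simp [hx, Finset.card_univ]

open Classical in
theorem hash {H : Type} [DecidableEq H] (k D q m w B₅ : ℕ) [Fact q.Prime] (hk : 1 ≤ k)
    (hwq : w < q) (hmq : m ≤ q) (hw : 1 ≤ w) (h3 : 3 * w ≤ m)
    (T : Finset ((Fin k → H) × (Fin D → ZMod q)))
    (hE : ∀ τ ∈ T, τ.2 ≠ 0)
    (hfib : ∀ τ ∈ T, ∀ c, (univ.filter (fun j => τ.1 j = c)).card ≤ w) (hB : T.card ≤ B₅)
    (hn : (B₅ : ℝ) * 2 ^ k * ((3 * w : ℝ) / m) ^ ((k : ℝ) / (50 * w)) < 1) :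
    ∃ lam : H → Fin D → ZMod q, ∀ τ ∈ T,
      50 * (univ.filter (fun j : Fin k => ∃ i : ℕ, 1 ≤ i ∧ i ≤ w ∧
        small q m ((i : ZMod q) * (lam (τ.1 j) ⬝ᵥ τ.2)))).card ≤ k := by
  have hq : 0 < q := (Fact.out : q.Prime).pos
  by_contra hcon
  push Not at hcon
  -- bad vectors
  let Bd : (Fin D → ZMod q) → Finset (Fin D → ZMod q) := fun E =>
    univ.filter (fun v : Fin D → ZMod q => ∃ i : ℕ, 1 ≤ i ∧ i ≤ w ∧
      small q m ((i : ZMod q) * (v ⬝ᵥ E)))
  let Hs : Finset H := T.biUnion (fun τ => univ.image τ.1)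
  let Ω := (↥Hs → (Fin D → ZMod q))
  let ρ : ℝ := (3 * w : ℝ) / m
  have hm0 : (0 : ℝ) < m := by exact_mod_cast (by omega : 0 < m)
  have hw0 : (0 : ℝ) < w := by exact_mod_cast (by omega : 0 < w)
  have hρ0 : 0 < ρ := by positivity
  have hρ1 : ρ ≤ 1 := by
    rw [div_le_one hm0]; exact_mod_cast h3
  have hBd : ∀ τ ∈ T, ((Bd τ.2).card : ℝ) ≤ ρ * Fintype.card (Fin D → ZMod q) := by
    intro τ hτ
    have h1 := card_badv q D m w (by omega) hmq hwq τ.2 (hE τ hτ)
    have h2 : (m : ℝ) * (Bd τ.2).card ≤ 3 * w * Fintype.card (Fin D → ZMod q) := by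
      exact_mod_cast h1
    rw [div_mul_eq_mul_div, le_div_iff₀ hm0, mul_comm]
    exact h2
  -- the covering
  let A : ((Fin k → H) × (Fin D → ZMod q)) → Finset H → Finset Ω := fun τ J =>
    univ.filter (fun f : Ω => ∀ x ∈ (univ.filter (fun y : ↥Hs => y.1 ∈ J)), f x ∈ Bd τ.2)
  let JJ : ((Fin k → H) × (Fin D → ZMod q)) → Finset (Finset H) := fun τ =>
    (univ.image τ.1).powerset.filter (fun J => k < 50 * w * J.card)
  have hcover : (univ : Finset Ω) ⊆ T.biUnion (fun τ => (JJ τ).biUnion (fun J => A τ J)) := by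
    intro ω _
    obtain ⟨τ, hτ, hbad⟩ := hcon (fun c => if h : c ∈ Hs then ω ⟨c, h⟩ else 0)
    rw [Finset.mem_biUnion]
    refine ⟨τ, hτ, ?_⟩
    rw [Finset.mem_biUnion]
    set lam : H → Fin D → ZMod q := fun c => if h : c ∈ Hs then ω ⟨c, h⟩ else 0 with hlam
    let J : Finset H := (univ.image τ.1).filter (fun c => lam c ∈ Bd τ.2)
    refine ⟨J, ?_, ?_⟩
    · simp only [JJ, Finset.mem_filter, Finset.mem_powerset]
      refine ⟨Finset.filter_subset _ _, ?_⟩
      have h1 : (univ.filter (fun j : Fin k => ∃ i : ℕ, 1 ≤ i ∧ i ≤ w ∧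
          small q m ((i : ZMod q) * (lam (τ.1 j) ⬝ᵥ τ.2)))).card ≤ J.card * w := by
        rw [mul_comm]
        refine Finset.card_le_mul_card_image_of_maps_to (f := τ.1) ?_ w ?_
        · intro j hj
          simp only [Finset.mem_filter, Finset.mem_univ, true_and] at hj
          simp only [J, Finset.mem_filter, Finset.mem_image, Finset.mem_univ, true_and, Bd]
          exact ⟨⟨j, rfl⟩, hj⟩
        · intro c _
          refine (Finset.card_le_card ?_).trans (hfib τ hτ c)
          intro j hj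
          simp only [Finset.mem_filter, Finset.mem_univ, true_and] at hj ⊢
          exact hj.2
      calc k < 50 * _ := hbad
        _ ≤ 50 * (J.card * w) := Nat.mul_le_mul_left _ h1
        _ = 50 * w * J.card := by ring
    · simp only [A, Finset.mem_filter, Finset.mem_univ, true_and]
      intro x hx
      simp only [J, Finset.mem_filter] at hx
      have h2 := hx.2
      simp only [hlam, x.2, dif_pos] at h2
      exact h2
  have hA : ∀ τ ∈ T, ∀ J ∈ JJ τ, ((A τ J).card : ℝ) ≤
      ρ ^ ((k : ℝ) / (50 * w)) * Fintype.card Ω := by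
    intro τ hτ J hJ
    simp only [JJ, Finset.mem_filter, Finset.mem_powerset] at hJ
    have h1 := card_onJ (X := ↥Hs) (univ.filter (fun y : ↥Hs => y.1 ∈ J)) (Bd τ.2) ρ (hBd τ hτ)
    have hsub : J ⊆ Hs := by
      intro c hc
      exact Finset.mem_biUnion.mpr ⟨τ, hτ, hJ.1 hc⟩
    have hcard : (univ.filter (fun y : ↥Hs => y.1 ∈ J)).card = J.card := by
      rw [← Finset.card_map (Function.Embedding.subtype _)]
      congr 1
      ext c
      simp only [Finset.mem_map, Finset.mem_filter, Finset.mem_univ, true_and,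
        Function.Embedding.subtype_apply]
      constructor
      · rintro ⟨y, hy, rfl⟩; exact hy
      · intro hc; exact ⟨⟨c, hsub hc⟩, hc, rfl⟩
    rw [hcard] at h1
    refine h1.trans ?_
    refine mul_le_mul_of_nonneg_right ?_ (by positivity)
    rw [← Real.rpow_natCast]
    refine Real.rpow_le_rpow_of_exponent_ge hρ0 hρ1 ?_
    rw [div_le_iff₀ (by positivity)]
    have h5 : (k : ℝ) < 50 * w * J.card := by exact_mod_cast hJ.2
    linarith
  have hJJ : ∀ τ ∈ T, ((JJ τ).card : ℝ) ≤ 2 ^ k := by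
    intro τ _
    have h1 : (JJ τ).card ≤ 2 ^ k := by
      refine (Finset.card_filter_le _ _).trans ?_
      rw [Finset.card_powerset]
      refine Nat.pow_le_pow_right (by norm_num) ?_
      refine Finset.card_image_le.trans ?_
      simp
    exact_mod_cast h1
  have hΩ : (0 : ℝ) < Fintype.card Ω := by
    exact_mod_cast Fintype.card_pos
  have h7 : (Fintype.card Ω : ℝ) ≤ (B₅ : ℝ) * 2 ^ k * ρ ^ ((k : ℝ) / (50 * w)) *
      Fintype.card Ω := by
    have h8 : (Fintype.card Ω) ≤ ∑ τ ∈ T, ∑ J ∈ JJ τ, (A τ J).card := by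
      rw [← Finset.card_univ]
      refine (Finset.card_le_card hcover).trans ?_
      refine Finset.card_biUnion_le.trans ?_
      exact Finset.sum_le_sum fun τ _ => Finset.card_biUnion_le
    have h9 : (Fintype.card Ω : ℝ) ≤ ∑ τ ∈ T, ∑ J ∈ JJ τ, ((A τ J).card : ℝ) := by
      exact_mod_cast h8
    refine h9.trans ?_
    calc ∑ τ ∈ T, ∑ J ∈ JJ τ, ((A τ J).card : ℝ)
        ≤ ∑ τ ∈ T, ∑ J ∈ JJ τ, ρ ^ ((k : ℝ) / (50 * w)) * Fintype.card Ω :=
          Finset.sum_le_sum fun τ hτ => Finset.sum_le_sum fun J hJ => hA τ hτ J hJ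
      _ = ∑ τ ∈ T, ((JJ τ).card : ℝ) * (ρ ^ ((k : ℝ) / (50 * w)) * Fintype.card Ω) := by
          refine Finset.sum_congr rfl fun τ _ => ?_
          rw [Finset.sum_const, nsmul_eq_mul]
      _ ≤ ∑ τ ∈ T, (2 ^ k : ℝ) * (ρ ^ ((k : ℝ) / (50 * w)) * Fintype.card Ω) := by
          refine Finset.sum_le_sum fun τ hτ => ?_
          exact mul_le_mul_of_nonneg_right (hJJ τ hτ) (by positivity)
      _ = (T.card : ℝ) * (2 ^ k * (ρ ^ ((k : ℝ) / (50 * w)) * Fintype.card Ω)) := by
          rw [Finset.sum_const, nsmul_eq_mul]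
      _ ≤ (B₅ : ℝ) * (2 ^ k * (ρ ^ ((k : ℝ) / (50 * w)) * Fintype.card Ω)) := by
          refine mul_le_mul_of_nonneg_right ?_ (by positivity)
          exact_mod_cast hB
      _ = (B₅ : ℝ) * 2 ^ k * ρ ^ ((k : ℝ) / (50 * w)) * Fintype.card Ω := by ring
  have h10 : (B₅ : ℝ) * 2 ^ k * ρ ^ ((k : ℝ) / (50 * w)) * Fintype.card Ω <
      1 * Fintype.card Ω := mul_lt_mul_of_pos_right hn hΩ
  linarith

end VDW
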