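import Crest.Agent.Vdw.Defs

/-! # Norm forms: a function on `F_q^D`, `D = s²`, whose restriction to every line is a polynomial
of odd degree `≤ 2s - 1` -/

set_option autoImplicit false

namespace VDW

open Polynomial

/-- index type with blocks of sizes `1, 3, 5, …, 2s - 1` -/
abbrev Idx (s : ℕ) : Type := Σ i : Fin s, Fin (2 * (i : ℕ) + 1)

theorem card_Idx (s : ℕ) : Fintype.card (Idx s) = s ^ 2 := by
  rw [Fintype.card_sigma]
  simp only [Fintype.card_fin]
  rw [Fin.sum_univ_eq_sum_range (fun i => 2 * i + 1) s]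
  induction s with
  | zero => simp
  | succ n ih => rw [Finset.sum_range_succ, ih]; ring

section form

variable (q : ℕ) [hq : Fact q.Prime]

/-- a basis of `F_{q^b}` over `F_q`, `b = 2i+1` -/
noncomputable def gfBasis (i : ℕ) :
    Module.Basis (Fin (2 * i + 1)) (ZMod q) (GaloisField q (2 * i + 1)) :=
  Module.finBasisOfFinrankEq _ _ (GaloisField.finrank q (by omega))

/-- multiplication matrix of the element with coordinates `v` -/
noncomputable def mulMat (i : ℕ) (v : Fin (2 * i + 1) → ZMod q) :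
    Matrix (Fin (2 * i + 1)) (Fin (2 * i + 1)) (ZMod q) :=
  Algebra.leftMulMatrix (gfBasis q i) ((gfBasis q i).equivFun.symm v)

theorem mulMat_add (i : ℕ) (v w : Fin (2 * i + 1) → ZMod q) :
    mulMat q i (v + w) = mulMat q i v + mulMat q i w := by
  simp only [mulMat, map_add]

theorem mulMat_smul (i : ℕ) (c : ZMod q) (v : Fin (2 * i + 1) → ZMod q) :
    mulMat q i (c • v) = c • mulMat q i v := by
  simp only [mulMat, map_smul]

theorem mulMat_zero (i : ℕ) : mulMat q i 0 = 0 := by
  simp only [mulMat, map_zero]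

/-- the norm form of degree `2i+1` -/
noncomputable def normForm (i : ℕ) (v : Fin (2 * i + 1) → ZMod q) : ZMod q := (mulMat q i v).det

theorem normForm_ne_zero (i : ℕ) {v : Fin (2 * i + 1) → ZMod q} (hv : v ≠ 0) :
    normForm q i v ≠ 0 := by
  unfold normForm mulMat
  rw [← Algebra.norm_eq_matrix_det (gfBasis q i)]
  rw [Ne, Algebra.norm_eq_zero_iff]
  intro h
  apply hv
  have := (gfBasis q i).equivFun.symm.map_eq_zero_iff.1 h
  exact this

/-- the restriction of the norm form to a line -/
noncomputable def linePoly (i : ℕ) (y e : Fin (2 * i + 1) → ZMod q) : (ZMod q)[X] :=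
  ((X : (ZMod q)[X]) • (mulMat q i e).map C + (mulMat q i y).map C).det

theorem linePoly_eval (i : ℕ) (y e : Fin (2 * i + 1) → ZMod q) (x : ZMod q) :
    (linePoly q i y e).eval x = normForm q i (y + x • e) := by
  unfold linePoly normForm
  rw [← coe_evalRingHom, RingHom.map_det]
  congr 1
  rw [mulMat_add, mulMat_smul]
  ext a b
  rw [RingHom.mapMatrix_apply, Matrix.map_apply, Matrix.add_apply, Matrix.add_apply,
    Matrix.smul_apply, Matrix.smul_apply, Matrix.map_apply, Matrix.map_apply]
  rw [coe_evalRingHom, eval_add, smul_eq_mul, eval_mul, eval_X, eval_C, eval_C, smul_eq_mul,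
    add_comm]

theorem linePoly_natDegree_le (i : ℕ) (y e : Fin (2 * i + 1) → ZMod q) :
    (linePoly q i y e).natDegree ≤ 2 * i + 1 := by
  have := natDegree_det_X_add_C_le (mulMat q i e) (mulMat q i y)
  simpa [linePoly] using this

theorem linePoly_coeff (i : ℕ) (y e : Fin (2 * i + 1) → ZMod q) :
    (linePoly q i y e).coeff (2 * i + 1) = normForm q i e := by
  have := coeff_det_X_add_C_card (mulMat q i e) (mulMat q i y)
  simpa [linePoly, normForm] using this

theorem linePoly_natDegree_zero (i : ℕ) (y : Fin (2 * i + 1) → ZMod q) :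
    (linePoly q i y 0).natDegree = 0 := by
  have h : linePoly q i y 0 = C (normForm q i y) := by
    unfold linePoly normForm
    rw [mulMat_zero, RingHom.map_det]
    congr 1
    ext a b
    simp
  rw [h, natDegree_C]

/-- The function `P : F_q^D → F_q`, `D = s²`. -/
noncomputable def PForm (s : ℕ) (Y : Idx s → ZMod q) : ZMod q :=
  ∑ i : Fin s, normForm q i (fun j => Y ⟨i, j⟩)

/-- The restriction of `P` to the line `Y + x E`. -/
noncomputable def PLine (s : ℕ) (Y E : Idx s → ZMod q) : (ZMod q)[X] :=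
  ∑ i : Fin s, linePoly q i (fun j => Y ⟨i, j⟩) (fun j => E ⟨i, j⟩)

theorem PLine_eval (s : ℕ) (Y E : Idx s → ZMod q) (x : ZMod q) :
    (PLine q s Y E).eval x = PForm q s (Y + x • E) := by
  unfold PLine PForm
  rw [eval_finsetSum]
  refine Finset.sum_congr rfl fun i _ => ?_
  rw [linePoly_eval]
  rfl

theorem PLine_natDegree_le (s : ℕ) (Y E : Idx s → ZMod q) :
    (PLine q s Y E).natDegree ≤ 2 * s - 1 := by
  refine natDegree_sum_le_of_forall_le _ _ fun i _ => ?_
  have := linePoly_natDegree_le q i (fun j => Y ⟨i, j⟩) (fun j => E ⟨i, j⟩)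
  have := i.2
  omega

/-- the restriction of `P` to a nonconstant line is a polynomial of odd degree -/
theorem PLine_odd (s : ℕ) (Y E : Idx s → ZMod q) (hE : E ≠ 0) :
    Odd (PLine q s Y E).natDegree := by
  classical
  -- the largest block in which `E` is not zero
  have hne : (Finset.univ.filter fun i : Fin s => (fun j => E ⟨i, j⟩) ≠ (0 : Fin (2 * (i : ℕ) + 1) → ZMod q)).Nonempty := by
    by_contra h
    rw [Finset.not_nonempty_iff_eq_empty, Finset.filter_eq_empty_iff] at h
    apply hE
    ext ⟨i, j⟩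
    have := h (Finset.mem_univ i)
    rw [not_not] at this
    exact congrFun this j
  set i₀ := (Finset.univ.filter fun i : Fin s => (fun j => E ⟨i, j⟩) ≠ (0 : Fin (2 * (i : ℕ) + 1) → ZMod q)).max' hne with hi₀
  have h₀ := Finset.max'_mem _ hne
  rw [← hi₀] at h₀
  have h₀' := (Finset.mem_filter.1 h₀).2
  have hmax : ∀ i : Fin s, i₀ < i → (fun j => E ⟨i, j⟩) = (0 : Fin (2 * (i : ℕ) + 1) → ZMod q) := by
    intro i hi
    by_contra h
    have hm : i ∈ (Finset.univ.filter fun i : Fin s =>
        (fun j => E ⟨i, j⟩) ≠ (0 : Fin (2 * (i : ℕ) + 1) → ZMod q)) :=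
      Finset.mem_filter.2 ⟨Finset.mem_univ i, h⟩
    have := Finset.le_max' _ i hm
    rw [← hi₀] at this
    exact absurd hi (not_lt.2 this)
  have hcoeff : (PLine q s Y E).coeff (2 * i₀ + 1) = normForm q i₀ (fun j => E ⟨i₀, j⟩) := by
    unfold PLine
    rw [finsetSum_coeff, Finset.sum_eq_single i₀]
    · exact linePoly_coeff q i₀ _ _
    · intro i _ hi
      rcases lt_or_gt_of_ne hi with h | h
      · apply coeff_eq_zero_of_natDegree_lt
        have h1 := linePoly_natDegree_le q i (fun j => Y ⟨i, j⟩) (fun j => E ⟨i, j⟩)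
        have h2 : (i : ℕ) < i₀ := h
        omega
      · rw [hmax i h]
        apply coeff_eq_zero_of_natDegree_lt
        rw [linePoly_natDegree_zero]
        omega
    · intro h; exact absurd (Finset.mem_univ _) h
  have hle : (PLine q s Y E).natDegree ≤ 2 * i₀ + 1 := by
    refine natDegree_sum_le_of_forall_le _ _ fun i _ => ?_
    rcases le_or_gt i i₀ with h | h
    · have h1 := linePoly_natDegree_le q i (fun j => Y ⟨i, j⟩) (fun j => E ⟨i, j⟩)
      have h2 : (i : ℕ) ≤ i₀ := h
      omega
    · rw [hmax i h, linePoly_natDegree_zero]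
      omega
  have hne0 : (PLine q s Y E).coeff (2 * i₀ + 1) ≠ 0 := by
    rw [hcoeff]
    exact normForm_ne_zero q i₀ h₀'
  have heq : (PLine q s Y E).natDegree = 2 * i₀ + 1 :=
    le_antisymm hle (le_natDegree_of_ne_zero hne0)
  rw [heq]
  exact ⟨i₀, rfl⟩

/-- summary: `P` restricted to any line with nonzero direction is an odd degree polynomial -/
theorem exists_PForm (s : ℕ) : ∃ P : (Idx s → ZMod q) → ZMod q, ∀ Y E : Idx s → ZMod q, E ≠ 0 →
    ∃ f : (ZMod q)[X], Odd f.natDegree ∧ f.natDegree ≤ 2 * s - 1 ∧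
      ∀ x, f.eval x = P (Y + x • E) :=
  ⟨PForm q s, fun Y E hE => ⟨PLine q s Y E, PLine_odd q s Y E hE, PLine_natDegree_le q s Y E,
    PLine_eval q s Y E⟩⟩

end form

theorem normform (q l : ℕ) [Fact q.Prime] (hl : 1 ≤ l) :
    ∃ P : (Fin (l ^ 2) → ZMod q) → ZMod q, PolyLine q (l ^ 2) (2 * l - 1) P := by
  have e : Idx l ≃ Fin (l ^ 2) := Fintype.equivFinOfCardEq (card_Idx l)
  refine ⟨fun Y => PForm q l (fun i => Y (e i)), fun Y E hE => ?_⟩
  have hE' : (fun i => E (e i)) ≠ 0 := by
    intro h
    apply hE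
    ext j
    have := congrFun h (e.symm j)
    simpa using this
  refine ⟨PLine q l (fun i => Y (e i)) (fun i => E (e i)), PLine_odd q l _ _ hE',
    PLine_natDegree_le q l _ _, fun t => ?_⟩
  rw [PLine_eval]
  rfl

end VDW
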