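import Crest.Agent.Vdw.Defs

/-! S0086, module Dich: the dichotomy "no wrap or distinct logarithmic cells". -/

set_option autoImplicit false

open Finset

namespace VDW

theorem floor_ne_of_add_one_le {a b : ℝ} (hb : 0 ≤ b) (h : b + 1 ≤ a) : ⌊a⌋₊ ≠ ⌊b⌋₊ := by
  have h1 : ⌊b + 1⌋₊ = ⌊b⌋₊ + 1 := Nat.floor_add_one hb
  have h2 : ⌊b + 1⌋₊ ≤ ⌊a⌋₊ := Nat.floor_le_floor h
  omega

/-- gap lemma for logarithms. -/
theorem log_gap {R : ℕ} {c x y : ℝ} (hc : 0 < c) (hx : 1 ≤ x) (h : x * (1 + c) ≤ y)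
    (hR : 1 + c ≤ R * c) : (R : ℝ) * Real.log x + 1 ≤ R * Real.log y := by
  have hx0 : 0 < x := by linarith
  have h1 : Real.log (x * (1 + c)) ≤ Real.log y := Real.log_le_log (by positivity) h
  rw [Real.log_mul hx0.ne' (by positivity)] at h1
  have h2 : 1 - (1 + c)⁻¹ ≤ Real.log (1 + c) := Real.one_sub_inv_le_log_of_pos (by positivity)
  have h3 : 1 - (1 + c)⁻¹ = c / (1 + c) := by field_simp; ring
  have hRpos : (0 : ℝ) ≤ R := Nat.cast_nonneg R
  have h4 : 1 ≤ (R : ℝ) * (c / (1 + c)) := by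
    rw [← mul_div_assoc, le_div_iff₀ (by positivity)]
    linarith
  have h5 : (R : ℝ) * (Real.log x + Real.log (1 + c)) ≤ R * Real.log y :=
    mul_le_mul_of_nonneg_left h1 hRpos
  have h6 : (R : ℝ) * (c / (1 + c)) ≤ R * Real.log (1 + c) :=
    mul_le_mul_of_nonneg_left (by rw [← h3]; exact h2) hRpos
  nlinarith

theorem log_floor_ne {R : ℕ} {c x y : ℝ} (hc : 0 < c) (hx : 1 ≤ x) (h : x * (1 + c) ≤ y)
    (hR : 1 + c ≤ R * c) : ⌊(R : ℝ) * Real.log y⌋₊ ≠ ⌊(R : ℝ) * Real.log x⌋₊ :=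
  floor_ne_of_add_one_le (mul_nonneg (Nat.cast_nonneg _) (Real.log_nonneg hx))
    (log_gap hc hx h hR)

/-- positive increments. -/
theorem dich_pos (k R m L : ℕ) (hk : 2 ≤ k) (hR : 8 * k ^ 12 ≤ R) (e : ℤ) (he0 : 0 < e)
    (he : k ^ 5 * e.natAbs < m) (hL : L ≤ k) (Y : ℕ → ℕ) (hY : ∀ s < L, Y s < m)
    (hmod : ∀ s < L, (Y s : ℤ) ≡ Y 0 + s * e [ZMOD m]) :
    (∀ s < L, (Y s : ℤ) = Y 0 + s * e) ∨
      (∀ s < L, ∀ s' < L, phi R m (Y s) = phi R m (Y s') → s = s') := by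
  rcases Nat.eq_zero_or_pos L with hL0 | hL0
  · left; intro s hs; omega
  have hY0 : Y 0 < m := hY 0 hL0
  have hY0' : (Y 0 : ℤ) < m := by exact_mod_cast hY0
  have he' : (k : ℤ) ^ 5 * e < m := by
    have h1 : ((k ^ 5 * e.natAbs : ℕ) : ℤ) < m := by exact_mod_cast he
    push_cast at h1
    rwa [abs_of_pos he0] at h1
  have hk' : (2 : ℤ) ≤ k := by exact_mod_cast hk
  have hk4 : (16 : ℤ) ≤ (k : ℤ) ^ 4 := by
    calc (16 : ℤ) = 2 ^ 4 := by norm_num
      _ ≤ (k : ℤ) ^ 4 := pow_le_pow_left₀ (by norm_num) hk' 4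
  have hke : 16 * ((k : ℤ) * e) < m := by
    have h1 : (k : ℤ) ^ 5 * e = (k : ℤ) ^ 4 * (k * e) := by ring
    rw [h1] at he'
    have h2 : 0 < (k : ℤ) * e := by positivity
    nlinarith
  have hse : ∀ s < L, (s : ℤ) * e ≤ k * e := by
    intro s hs
    apply mul_le_mul_of_nonneg_right _ he0.le
    exact_mod_cast (le_of_lt (lt_of_lt_of_le hs hL))
  have hse0 : ∀ s : ℕ, 0 ≤ (s : ℤ) * e := fun s => by positivity
  -- value of Y s
  have hval : ∀ s < L, (Y s : ℤ) = Y 0 + s * e ∨ (Y s : ℤ) = Y 0 + s * e - m := by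
    intro s hs
    obtain ⟨c, hc⟩ := (hmod s hs).dvd
    have h1 := hse s hs
    have h2 := hse0 s
    have h3 : (Y s : ℤ) < m := by exact_mod_cast hY s hs
    have h4 : (0 : ℤ) ≤ Y s := Int.natCast_nonneg _
    have h5 : (0 : ℤ) ≤ Y 0 := Int.natCast_nonneg _
    have hm : (0 : ℤ) < m := by linarith
    have hc1 : -1 < c := by
      by_contra hcon
      push Not at hcon
      have : (m : ℤ) * c ≤ m * (-1) := mul_le_mul_of_nonneg_left hcon hm.le
      linarith
    have hc2 : c < 2 := by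
      by_contra hcon
      push Not at hcon
      have : (m : ℤ) * 2 ≤ m * c := mul_le_mul_of_nonneg_left hcon hm.le
      linarith
    have hc3 : c = 0 ∨ c = 1 := by omega
    rcases hc3 with rfl | rfl
    · left; linarith
    · right; linarith
  by_cases hall : ∀ s < L, (Y s : ℤ) = Y 0 + s * e
  · exact Or.inl hall
  right
  push Not at hall
  obtain ⟨t, htL, ht⟩ := hall
  have htv : (Y t : ℤ) = Y 0 + t * e - m := (hval t htL).resolve_left ht
  have htge : (m : ℤ) ≤ Y 0 + t * e := by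
    have : (0 : ℤ) ≤ Y t := Int.natCast_nonneg _
    linarith
  have hkR : (0 : ℝ) < k := by exact_mod_cast (by omega : 0 < k)
  have heR : (0 : ℝ) < e := by exact_mod_cast he0
  have hRR : (k : ℝ) + 1 ≤ R := by
    have h1 : k + 1 ≤ R := by
      refine le_trans ?_ hR
      have h2 : k ≤ k ^ 12 := Nat.le_self_pow (by norm_num) k
      omega
    exact_mod_cast h1
  have hcR : 1 + 1 / (k : ℝ) ≤ R * (1 / (k : ℝ)) := by
    rw [← sub_nonneg]
    have : (R : ℝ) * (1 / (k : ℝ)) - (1 + 1 / (k : ℝ)) = ((R : ℝ) - (k + 1)) / k := by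
      field_simp
    rw [this]
    apply div_nonneg _ hkR.le
    linarith
  have hc0 : 0 < 1 / (k : ℝ) := by positivity
  -- main comparison for s < s'
  have key : ∀ s < L, ∀ s' < L, s < s' → phi R m (Y s) ≠ phi R m (Y s') := by
    intro s hs s' hs' hss heq
    have hes : (s : ℤ) * e + e ≤ s' * e := by
      have : (s : ℤ) + 1 ≤ s' := by exact_mod_cast hss
      nlinarith
    have h1 : ⌊(R : ℝ) * Real.log ((Y s : ℝ) + 1)⌋₊ = ⌊(R : ℝ) * Real.log ((Y s' : ℝ) + 1)⌋₊ :=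
      congrArg Prod.fst heq
    have h2 : ⌊(R : ℝ) * Real.log ((m : ℝ) - (Y s : ℝ))⌋₊ =
        ⌊(R : ℝ) * Real.log ((m : ℝ) - (Y s' : ℝ))⌋₊ := congrArg Prod.snd heq
    rcases hval s hs with hsv | hsv <;> rcases hval s' hs' with hsv' | hsv'
    · -- both before
      have hA : (1 : ℤ) ≤ m - Y s' := by
        have : (Y s' : ℤ) < m := by exact_mod_cast hY s' hs'
        linarith
      have hB : (m : ℤ) - Y s' ≤ k * e := by
        have := hse t htL
        have := hse0 s'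
        linarith
      have hC : (m : ℤ) - Y s' + e ≤ m - Y s := by linarith
      have hA' : (1 : ℝ) ≤ (m : ℝ) - Y s' := by exact_mod_cast hA
      have hB' : (m : ℝ) - Y s' ≤ k * e := by exact_mod_cast hB
      have hC' : (m : ℝ) - Y s' + e ≤ m - Y s := by exact_mod_cast hC
      refine log_floor_ne (R := R) hc0 hA' ?_ hcR h2
      have : ((m : ℝ) - Y s') * (1 / k) ≤ e := by
        rw [mul_one_div, div_le_iff₀ hkR]; linarith
      nlinarith
    · -- s before, s' after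
      have hA : (15 * m : ℤ) ≤ 16 * (Y s + 1) := by
        have := hse t htL
        have := hse0 s
        linarith
      have hB : (16 : ℤ) * (Y s' + 1) ≤ m := by
        have := hse s' hs'
        have h3 : (Y s' : ℤ) + 1 ≤ k * e := by linarith
        linarith
      have hA' : (15 * m : ℝ) ≤ 16 * (Y s + 1) := by exact_mod_cast hA
      have hB' : (16 : ℝ) * (Y s' + 1) ≤ m := by exact_mod_cast hB
      have hpos : (1 : ℝ) ≤ (Y s' : ℝ) + 1 := by
        have : (0 : ℝ) ≤ (Y s' : ℝ) := Nat.cast_nonneg _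
        linarith
      refine log_floor_ne (R := R) hc0 hpos ?_ hcR h1
      have h4 : 1 / (k : ℝ) ≤ 1 := by
        rw [div_le_one hkR]; linarith [show (2 : ℝ) ≤ k by exact_mod_cast hk]
      nlinarith
    · -- s after, s' before: impossible
      exfalso
      have h3 : (Y s' : ℤ) < m := by exact_mod_cast hY s' hs'
      have h4 : (0 : ℤ) ≤ Y s := Int.natCast_nonneg _
      linarith
    · -- both after
      have hB : (Y s : ℤ) + 1 ≤ k * e := by
        have := hse s hs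
        linarith
      have hC : (Y s : ℤ) + e ≤ Y s' := by linarith
      have hpos : (1 : ℝ) ≤ (Y s : ℝ) + 1 := by
        have : (0 : ℝ) ≤ (Y s : ℝ) := Nat.cast_nonneg _
        linarith
      have hB' : (Y s : ℝ) + 1 ≤ k * e := by exact_mod_cast hB
      have hC' : (Y s : ℝ) + e ≤ Y s' := by exact_mod_cast hC
      refine log_floor_ne (R := R) hc0 hpos ?_ hcR h1.symm
      have : ((Y s : ℝ) + 1) * (1 / k) ≤ e := by
        rw [mul_one_div, div_le_iff₀ hkR]; linarith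
      nlinarith
  intro s hs s' hs' heq
  rcases lt_trichotomy s s' with h | h | h
  · exact absurd heq (key s hs s' hs' h)
  · exact h
  · exact absurd heq.symm (key s' hs' s hs h)

theorem phi_reflect (R m y : ℕ) (hy : y < m) :
    phi R m (m - 1 - y) = ((phi R m y).2, (phi R m y).1) := by
  have h1 : ((m - 1 - y : ℕ) : ℝ) = (m : ℝ) - 1 - y := by
    rw [Nat.cast_sub (by omega), Nat.cast_sub (by omega)]
    push_cast; ring
  unfold phi
  rw [h1]
  have h2 : (m : ℝ) - 1 - y + 1 = m - y := by ring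
  have h3 : (m : ℝ) - ((m : ℝ) - 1 - y) = y + 1 := by ring
  rw [h2, h3]

theorem dich (k R m L : ℕ) (hk : 2 ≤ k) (hR : 8 * k ^ 12 ≤ R) (e : ℤ)
    (he : k ^ 5 * e.natAbs < m) (hL : L ≤ k) (Y : ℕ → ℕ) (hY : ∀ s < L, Y s < m)
    (hmod : ∀ s < L, (Y s : ℤ) ≡ Y 0 + s * e [ZMOD m]) :
    (∀ s < L, (Y s : ℤ) = Y 0 + s * e) ∨
      (∀ s < L, ∀ s' < L, phi R m (Y s) = phi R m (Y s') → s = s') := by
  rcases Nat.eq_zero_or_pos L with hL0 | hL0
  · left; intro s hs; omega
  rcases lt_trichotomy e 0 with he0 | he0 | he0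
  · -- reflect
    have hc : ∀ s < L, (((m - 1 - Y s : ℕ)) : ℤ) = (m : ℤ) - 1 - Y s := by
      intro s hs
      have := hY s hs
      omega
    have := dich_pos k R m L hk hR (-e) (by omega) (by rwa [Int.natAbs_neg]) hL
      (fun s => m - 1 - Y s) (by intro s hs; have := hY s hs; omega) (by
        intro s hs
        rw [hc s hs, hc 0 hL0]
        have h1 := hmod s hs
        have h2 : (m : ℤ) - 1 - Y s ≡ (m : ℤ) - 1 - (Y 0 + s * e) [ZMOD m] :=
          Int.ModEq.sub_left _ h1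
        have h3 : (m : ℤ) - 1 - (Y 0 + s * e) = (m : ℤ) - 1 - Y 0 + s * -e := by ring
        rwa [h3] at h2)
    rcases this with h | h
    · left
      intro s hs
      have h1 := h s hs
      rw [hc s hs, hc 0 hL0] at h1
      linarith
    · right
      intro s hs s' hs' heq
      apply h s hs s' hs'
      rw [phi_reflect R m (Y s) (hY s hs), phi_reflect R m (Y s') (hY s' hs'), heq]
  · left
    intro s hs
    subst he0
    have h1 := hmod s hs
    rw [mul_zero, add_zero] at h1 ⊢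
    have h2 : (Y s) ≡ Y 0 [MOD m] := (Int.natCast_modEq_iff).mp h1
    have h3 := Nat.ModEq.eq_of_lt_of_lt h2 (hY s hs) (hY 0 hL0)
    rw [h3]
  · exact dich_pos k R m L hk hR e he0 he hL Y hY hmod

theorem dich2 (k R m L : ℕ) (hk : 2 ≤ k) (hR : 8 * k ^ 12 ≤ R) (e : ℤ)
    (he : k ^ 5 * e.natAbs < m) (hL : L ≤ k) (Y : ℕ → ℕ) (hY : ∀ s < L, Y s < m)
    (hmod : ∀ s < L, (Y s : ℤ) ≡ Y 0 + s * e [ZMOD m]) (he2 : m ≤ k ^ 11 * e.natAbs) :
    ∀ s < L, ∀ s' < L, phi R m (Y s) = phi R m (Y s') → s = s' := by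
  rcases dich k R m L hk hR e he hL Y hY hmod with hlin | h
  swap
  · exact h
  have hkR : (0 : ℝ) < k := by exact_mod_cast (by omega : 0 < k)
  have hk1 : (2 : ℝ) ≤ k := by exact_mod_cast hk
  have hc0 : 0 < 1 / (k : ℝ) ^ 11 := by positivity
  have hcR : 1 + 1 / (k : ℝ) ^ 11 ≤ R * (1 / (k : ℝ) ^ 11) := by
    have h1 : 8 * (k : ℝ) ^ 12 ≤ R := by exact_mod_cast hR
    have h2 : 8 * (k : ℝ) ≤ R * (1 / (k : ℝ) ^ 11) := by
      rw [mul_one_div, le_div_iff₀ (by positivity)]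
      have h2 : 8 * (k : ℝ) * (k : ℝ) ^ 11 = 8 * (k : ℝ) ^ 12 := by ring
      rw [h2]
      exact h1
    have h3 : 1 / (k : ℝ) ^ 11 ≤ 1 := by
      rw [div_le_one (by positivity)]
      exact one_le_pow₀ (by linarith)
    linarith
  have hmR : (m : ℝ) * (1 / (k : ℝ) ^ 11) ≤ e.natAbs := by
    rw [mul_one_div, div_le_iff₀ (by positivity)]
    have h1 : (m : ℝ) ≤ (k : ℝ) ^ 11 * e.natAbs := by exact_mod_cast he2
    linarith
  -- if Y s + |e| ≤ Y s' then the cells differ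
  have key : ∀ s < L, ∀ s' < L, Y s + e.natAbs ≤ Y s' → phi R m (Y s) ≠ phi R m (Y s') := by
    intro s hs s' hs' hle heq
    have h1 : ⌊(R : ℝ) * Real.log ((Y s : ℝ) + 1)⌋₊ = ⌊(R : ℝ) * Real.log ((Y s' : ℝ) + 1)⌋₊ :=
      congrArg Prod.fst heq
    have hpos : (1 : ℝ) ≤ (Y s : ℝ) + 1 := by
      have : (0 : ℝ) ≤ (Y s : ℝ) := Nat.cast_nonneg _
      linarith
    refine log_floor_ne (R := R) hc0 hpos ?_ hcR h1.symm
    have h2 : (Y s : ℝ) + e.natAbs ≤ Y s' := by exact_mod_cast hle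
    have h3 : (Y s : ℝ) + 1 ≤ m := by exact_mod_cast hY s hs
    have h4 : ((Y s : ℝ) + 1) * (1 / (k : ℝ) ^ 11) ≤ m * (1 / (k : ℝ) ^ 11) :=
      mul_le_mul_of_nonneg_right h3 hc0.le
    nlinarith
  have key2 : ∀ s < L, ∀ s' < L, s < s' → phi R m (Y s) ≠ phi R m (Y s') := by
    intro s hs s' hs' hss
    have h1 := hlin s hs
    have h2 := hlin s' hs'
    have h3 : (s : ℤ) + 1 ≤ s' := by exact_mod_cast hss
    rcases le_total 0 e with he0 | he0
    · apply key s hs s' hs'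
      have h4 : ((e.natAbs : ℕ) : ℤ) = e := by rw [Int.natCast_natAbs, abs_of_nonneg he0]
      have h5 : (Y s : ℤ) + (e.natAbs : ℕ) ≤ Y s' := by
        rw [h4]
        nlinarith
      exact_mod_cast h5
    · intro heq
      refine key s' hs' s hs ?_ heq.symm
      have h4 : ((e.natAbs : ℕ) : ℤ) = -e := by rw [Int.natCast_natAbs, abs_of_nonpos he0]
      have h5 : (Y s' : ℤ) + (e.natAbs : ℕ) ≤ Y s := by
        rw [h4]
        nlinarith
      exact_mod_cast h5
  intro s hs s' hs' heq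
  rcases lt_trichotomy s s' with h | h | h
  · exact absurd heq (key2 s hs s' hs' h)
  · exact h
  · exact absurd heq.symm (key2 s' hs' s hs h)

end VDW
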