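import Crest.Agent.Vdw.Geom
import Crest.Agent.Vdw.Dich

/-! Module TypeII of S0086: lines of small period which are not of type III have
pairwise distinct cells. -/

set_option autoImplicit false

open Finset

namespace VDW

theorem typeII_inj (P : Par) (a d : ℕ) (hper : per P.k P.Lam P.M d ≤ P.rmax)
    (h3 : ¬ TypeIII P.k P.Lam P.rmax P.M a d) :
    Function.Injective (fun j : Fin P.k => cell P.k P.Lam P.R P.M (a + j * d)) := by
  intro j j' hjj
  by_contra hne
  apply h3
  refine ⟨hper, fun t => ?_⟩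
  have hk2 : 2 ≤ P.k := le_trans (by norm_num) P.hk
  have hrk : P.rmax ≤ P.k := by have := P.hrk; omega
  have hperk : per P.k P.Lam P.M d ≤ P.k := hper.trans hrk
  have hr1 : 1 ≤ per P.k P.Lam P.M d := per_pos P.k P.Lam P.M d
  have hnear := per_near P.k P.Lam P.M d hperk t
  have hdiv : per P.k P.Lam P.M d ∣ P.Lam := P.hdiv _ hr1 hper
  set r := per P.k P.Lam P.M d with hr
  have hrm : r < P.M t := lt_of_le_of_lt hperk (P.hMk t)
  set v : ℤ := ((P.Lam / r : ℕ) : ℤ) * ((r * d : ℕ) : ZMod (P.M t)).valMinAbs with hv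
  have hstep : ∀ s : ℕ, (yy P.Lam (P.M t) (a + s * d) : ℤ) ≡
      yy P.Lam (P.M t) a + s * v [ZMOD (P.M t)] := by
    intro s
    exact yy_step_div P.Lam (P.M t) r a d s (P.hMp t) hr1 hrm hdiv
  have hv5 : P.k ^ 5 * v.natAbs < P.M t := by
    have h1 : v.natAbs = (P.Lam / r) * (((r * d : ℕ) : ZMod (P.M t)).valMinAbs).natAbs := by
      rw [hv, Int.natAbs_mul, Int.natAbs_natCast]
    rw [h1]
    refine lt_of_le_of_lt ?_ hnear
    calc P.k ^ 5 * (P.Lam / r * (((r * d : ℕ) : ZMod (P.M t)).valMinAbs).natAbs)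
        = (P.Lam / r) * P.k ^ 5 * (((r * d : ℕ) : ZMod (P.M t)).valMinAbs).natAbs := by ring
      _ ≤ P.Lam * P.k ^ 5 * (((r * d : ℕ) : ZMod (P.M t)).valMinAbs).natAbs := by
          gcongr
          exact Nat.div_le_self _ _
  have hY : ∀ s < P.k, yy P.Lam (P.M t) (a + s * d) < P.M t := by
    intro s _
    exact Nat.mod_lt _ (P.hMp t).pos
  have hmod : ∀ s < P.k, (yy P.Lam (P.M t) (a + s * d) : ℤ) ≡
      yy P.Lam (P.M t) (a + 0 * d) + s * v [ZMOD (P.M t)] := by
    intro s _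
    have := hstep s
    simpa using this
  have hphi : phi P.R (P.M t) (yy P.Lam (P.M t) (a + (j : ℕ) * d)) =
      phi P.R (P.M t) (yy P.Lam (P.M t) (a + (j' : ℕ) * d)) := by
    have := congrFun hjj t
    exact congrArg Prod.snd this
  have hne' : (j : ℕ) ≠ (j' : ℕ) := fun h => hne (Fin.ext h)
  refine ⟨v, ?_, ?_⟩
  · by_contra hlt
    push Not at hlt
    have := dich2 P.k P.R (P.M t) P.k hk2 P.hR v hv5 le_rfl
      (fun s => yy P.Lam (P.M t) (a + s * d)) hY hmod hlt j j.2 j' j'.2 hphi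
    exact hne' this
  · rcases dich P.k P.R (P.M t) P.k hk2 P.hR v hv5 le_rfl
      (fun s => yy P.Lam (P.M t) (a + s * d)) hY hmod with h | h
    · intro s hs
      have := h s hs
      simpa using this
    · exact absurd (h j j.2 j' j'.2 hphi) hne'

end VDW
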