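import Crest.Agent.S86.LemmaV

/-! # S0086, module V3 (`chain`) -/

set_option autoImplicit false

open Polynomial Finset

namespace VDW

theorem chain (b w : ℕ) (hb : Odd b) (hw : 10 ^ 8 * b ^ 6 ≤ w) (F : ℤ[X])
    (hF : F.natDegree = b) :
    100 * ((Finset.range w).filter (fun x => ∃ y ∈ Finset.range w, y ≠ x ∧
      F.eval (x : ℤ) = F.eval (y : ℤ))).card ≤ w :=
  Crest.Agent.S86V.chain_aux b w hb hw F hF

end VDW
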