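import Crest.Agent.Vdw.V1
import Crest.Agent.Vdw.Chain

/-! # S0086, module LemmaV: combination of V1 (transfer) and V3 (chain) -/

set_option autoImplicit false

open Polynomial Finset

namespace VDW

theorem lemmaV (b w q : ℕ) [Fact q.Prime] (hb : Odd b) (hw : 10 ^ 8 * b ^ 6 ≤ w)
    (hq : (b * w ^ b + 1) ^ b < q) (f : (ZMod q)[X]) (hf : f.natDegree = b) :
    100 * ((Finset.range w).filter (fun x => ∃ y ∈ Finset.range w, y ≠ x ∧
      f.eval (x : ZMod q) = f.eval (y : ZMod q))).card ≤ w := by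
  classical
  obtain ⟨F, hF, hxy⟩ := transfer b w q hb.pos hq f hf
  refine le_trans (Nat.mul_le_mul_left _ ?_) (chain b w hb hw F hF)
  apply Finset.card_le_card
  intro x hx
  simp only [Finset.mem_filter, Finset.mem_range] at hx ⊢
  obtain ⟨hxw, y, hyw, hne, he⟩ := hx
  exact ⟨hxw, y, hyw, hne, hxy x hxw y hyw he⟩

end VDW
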