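import Crest.Agent.Vdw.Defs
import Crest.Agent.Vdw.LemmaV

/-! S0086, module TypeIIIa: lines of type III are honest lines for `Yv`; uniqueness of keys. -/

set_option autoImplicit false

open Finset

namespace VDW

theorem typeIII_line (P : Par) (a d : ℕ) (hd : ¬ P.N ∣ d)
    (h3 : TypeIII P.k P.Lam P.rmax P.M a d) :
    ∃ E : Fin (P.l ^ 2) → ZMod P.q, E ≠ 0 ∧ ∀ j < P.k,
      Yv P.Lam P.q P.M (a + j * d) = Yv P.Lam P.q P.M a + ((j : ℕ) : ZMod P.q) • E := by
  obtain ⟨_, hv⟩ := h3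
  choose v hv1 hv2 using hv
  refine ⟨fun t => ((v t : ℤ) : ZMod P.q), ?_, ?_⟩
  · intro hE
    apply hd
    have hkpos : 0 < P.k := lt_of_lt_of_le (by norm_num) P.hk
    have hv0 : ∀ t, v t = 0 := by
      intro t
      have h1 : ((v t : ℤ) : ZMod P.q) = 0 := congrFun hE t
      rw [ZMod.intCast_zmod_eq_zero_iff_dvd] at h1
      have h2 : (v t).natAbs < P.q := by
        have h3 := hv1 t
        have h4 : 1 ≤ P.k ^ 11 := Nat.one_le_pow _ _ hkpos
        calc (v t).natAbs = 1 * (v t).natAbs := (one_mul _).symm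
          _ ≤ P.k ^ 11 * (v t).natAbs := Nat.mul_le_mul_right _ h4
          _ < P.M t := h3
          _ < P.q := P.hMq t
      have h3 : P.q ∣ (v t).natAbs := by
        have := Int.natAbs_dvd_natAbs.mpr h1
        simpa using this
      have h4 : (v t).natAbs = 0 := Nat.eq_zero_of_dvd_of_lt h3 h2
      exact Int.natAbs_eq_zero.mp h4
    have hdvd : ∀ t, P.M t ∣ d := by
      intro t
      have h1 := hv2 t 1 (lt_of_lt_of_le (by norm_num) P.hk)
      rw [hv0 t] at h1
      simp only [mul_zero, add_zero, one_mul] at h1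
      have h2 : yy P.Lam (P.M t) (a + d) = yy P.Lam (P.M t) a := by exact_mod_cast h1
      unfold yy at h2
      have h3 : (P.Lam * a + P.Lam * d) ≡ (P.Lam * a + 0) [MOD P.M t] := by
        unfold Nat.ModEq
        rw [← mul_add, add_zero]
        exact h2
      have h4 : P.Lam * d ≡ 0 [MOD P.M t] := Nat.ModEq.add_left_cancel' _ h3
      have h5 : P.M t ∣ P.Lam * d := (Nat.modEq_zero_iff_dvd).mp h4
      rcases (Nat.Prime.dvd_mul (P.hMp t)).mp h5 with h6 | h6
      · exfalso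
        exact absurd (Nat.le_of_dvd (lt_of_lt_of_le Nat.zero_lt_one P.hLam) h6)
          (not_le.mpr (P.hMLam t))
      · exact h6
    unfold Par.N
    apply Fintype.prod_dvd_of_isRelPrime
    · intro s t hst
      exact Nat.coprime_iff_isRelPrime.mp ((Nat.coprime_primes (P.hMp s) (P.hMp t)).mpr
        (fun h => hst (P.hMinj h)))
    · exact hdvd
  · intro j hj
    funext t
    have h1 := hv2 t j hj
    have h2 : (((yy P.Lam (P.M t) (a + j * d) : ℕ) : ℤ) : ZMod P.q) =
        (((yy P.Lam (P.M t) a : ℕ) + j * v t : ℤ) : ZMod P.q) := by rw [h1]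
    push_cast at h2
    simp only [Yv, Pi.add_apply, Pi.smul_apply, smul_eq_mul]
    exact h2

theorem typeIII_unique (P : Par) [Fact P.q.Prime] (a d : ℕ) (hd : ¬ P.N ∣ d)
    (h3 : TypeIII P.k P.Lam P.rmax P.M a d)
    (lam : (Fin (P.l ^ 2) → ℕ × ℕ) → Fin (P.l ^ 2) → ZMod P.q)
    (Pn : (Fin (P.l ^ 2) → ZMod P.q) → ZMod P.q)
    (hP : PolyLine P.q (P.l ^ 2) (2 * P.l - 1) Pn) :
    50 * (univ.filter (fun j : Fin P.k => ∃ j' : Fin P.k, j' ≠ j ∧
      kap P.k P.Lam P.R P.q P.m P.M lam Pn (a + j' * d) =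
        kap P.k P.Lam P.R P.q P.m P.M lam Pn (a + j * d))).card ≤ P.k := by
  classical
  obtain ⟨E, hE, hline⟩ := typeIII_line P a d hd h3
  obtain ⟨f, hodd, hdeg, hf⟩ := hP (Yv P.Lam P.q P.M a) E hE
  have hkpos : 1 ≤ P.k := le_trans (by norm_num) P.hk
  have hb2 : f.natDegree ≤ 2 * P.l := le_trans hdeg (Nat.sub_le _ _)
  have hw : 10 ^ 8 * f.natDegree ^ 6 ≤ P.k := by
    calc 10 ^ 8 * f.natDegree ^ 6 ≤ 10 ^ 8 * (2 * P.l) ^ 6 :=
          Nat.mul_le_mul_left _ (Nat.pow_le_pow_left hb2 6)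
      _ ≤ P.w := P.hw
      _ ≤ P.k := P.hwk
  have hq : (f.natDegree * P.k ^ f.natDegree + 1) ^ f.natDegree < P.q := by
    refine lt_of_le_of_lt ?_ P.hqV
    calc (f.natDegree * P.k ^ f.natDegree + 1) ^ f.natDegree
        ≤ (f.natDegree * P.k ^ f.natDegree + 1) ^ (2 * P.l) :=
          Nat.pow_le_pow_right (Nat.succ_pos _) hb2
      _ ≤ ((2 * P.l) * P.k ^ (2 * P.l) + 1) ^ (2 * P.l) := by
          apply Nat.pow_le_pow_left
          apply Nat.add_le_add_right
          exact Nat.mul_le_mul hb2 (Nat.pow_le_pow_right hkpos hb2)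
  have hV := lemmaV f.natDegree P.k P.q hodd hw hq f rfl
  have hcard : (univ.filter (fun j : Fin P.k => ∃ j' : Fin P.k, j' ≠ j ∧
      kap P.k P.Lam P.R P.q P.m P.M lam Pn (a + j' * d) =
        kap P.k P.Lam P.R P.q P.m P.M lam Pn (a + j * d))).card ≤
      ((Finset.range P.k).filter (fun x => ∃ y ∈ Finset.range P.k, y ≠ x ∧
        f.eval (x : ZMod P.q) = f.eval (y : ZMod P.q))).card := by
    apply Finset.card_le_card_of_injOn (fun j : Fin P.k => (j : ℕ))
    · intro j hj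
      simp only [Finset.coe_filter, Finset.mem_univ, true_and, Set.mem_ofPred_eq] at hj
      obtain ⟨j', hne, he⟩ := hj
      simp only [Finset.coe_filter, Finset.mem_range, Set.mem_ofPred_eq]
      refine ⟨j.2, (j' : ℕ), j'.2, fun h => hne (Fin.ext h), ?_⟩
      have h1 : Pn (Yv P.Lam P.q P.M (a + j' * d)) = Pn (Yv P.Lam P.q P.M (a + j * d)) := by
        have := congrArg (fun z => z.2.2) he
        simpa [kap] using this
      rw [hline j j.2, hline j' j'.2, hf, hf] at h1
      exact h1.symm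
    · intro x _ y _ hxy
      exact Fin.ext hxy
  have h100 := Nat.mul_le_mul_left 100 hcard
  omega

end VDW
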