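import Crest.Agent.Vdw.Geom

/-! S0086, module TypeIIIb: a line of type III visits few coarse cells. -/

set_option autoImplicit false

open Finset

namespace VDW

theorem tIIIb_card_image_le {α β γ : Type*} [DecidableEq β] [DecidableEq γ] (s : Finset α)
    (f : α → β) (g : α → γ) (h : ∀ x ∈ s, ∀ y ∈ s, g x = g y → f x = f y) :
    (s.image f).card ≤ (s.image g).card := by
  classical
  rcases s.eq_empty_or_nonempty with rfl | ⟨x₀, hx₀⟩
  · simp
  let e : γ → β := fun c => if hc : ∃ x ∈ s, g x = c then f hc.choose else f x₀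
  have he : ∀ x ∈ s, e (g x) = f x := by
    intro x hx
    have hc : ∃ y ∈ s, g y = g x := ⟨x, hx, rfl⟩
    simp only [e]
    rw [dif_pos hc]
    exact h _ hc.choose_spec.1 _ hx hc.choose_spec.2
  have : s.image f = (s.image g).image e := by
    rw [Finset.image_image]
    exact Finset.image_congr (fun x hx => (he x hx).symm)
  rw [this]
  exact Finset.card_image_le

theorem tIIIb_aa_iter (k Lam m r a d : ℕ) (hk : 2 ≤ k) (hLam : 1 ≤ Lam) (hm : 0 < m)
    (hr : 1 ≤ r) (hrk : r ≤ k) (hnear : near1 k Lam m (r * d)) (v : ℤ)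
    (hv : k ^ 11 * v.natAbs < m)
    (hY : ∀ j < k, (yy Lam m (a + j * d) : ℤ) = yy Lam m a + j * v) (j s : ℕ)
    (hj : j + s * r < k) :
    aa Lam m (a + (j + s * r) * d) = aa Lam m (a + j * d) := by
  induction s with
  | zero => simp
  | succ s ih =>
    have h1 : j + (s + 1) * r = (j + s * r) + r := by ring
    rw [h1] at hj ⊢
    rw [aa_periodic k Lam m r a d hk hLam hm hr hrk hnear v hv hY (j + s * r) hj]
    exact ih (by omega)

open Classical in
theorem typeIII_hcells (P : Par) (a d : ℕ)
    (h3 : TypeIII P.k P.Lam P.rmax P.M a d) :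
    (univ.image (fun j : Fin P.k => hcell P.k P.Lam P.M (a + j * d))).card ≤
      P.rmax * (P.l ^ 2 + 1) := by
  obtain ⟨hper, hline⟩ := h3
  have hk2 : 2 ≤ P.k := le_trans (by norm_num) P.hk
  have hk0 : 0 < P.k := by omega
  have hrk : per P.k P.Lam P.M d ≤ P.k := by
    have := P.hrk
    omega
  have hr := per_pos P.k P.Lam P.M d
  have hM : ∀ t, 0 < P.M t := fun t => (P.hMp t).pos
  have hnear := per_near P.k P.Lam P.M d hrk
  set r := per P.k P.Lam P.M d with hrdef
  -- the set of moduli whose floor has moved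
  let fl : Fin (P.l ^ 2) → ℕ → ℕ := fun t j => P.k ^ 5 * yy P.Lam (P.M t) (a + j * d) / P.M t
  let S : ℕ → Finset (Fin (P.l ^ 2)) := fun j => univ.filter (fun t => fl t j ≠ fl t 0)
  have hfl0 : ∀ t, fl t 0 = P.k ^ 5 * yy P.Lam (P.M t) a / P.M t := by
    intro t
    simp [fl]
  have hfl : ∀ t (j j' : ℕ), j ≤ j' → j' < P.k → fl t j ≠ fl t 0 → fl t j' = fl t j := by
    intro t j j' hjj hj' hne
    obtain ⟨v, hv, hY⟩ := hline t
    exact hfloor_two P.k (P.M t) (yy P.Lam (P.M t) a) hk2 v hv
      (fun j => yy P.Lam (P.M t) (a + j * d)) hY j j' hjj hj' (by rw [← hfl0]; exact hne)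
  have hmono : ∀ j j' : ℕ, j ≤ j' → j' < P.k → S j ⊆ S j' := by
    intro j j' hjj hj' t ht
    simp only [S, mem_filter, mem_univ, true_and] at ht ⊢
    rw [hfl t j j' hjj hj' ht]
    exact ht
  have key : ∀ j j' : ℕ, j ≤ j' → j' < P.k → j % r = j' % r → (S j).card = (S j').card →
      hcell P.k P.Lam P.M (a + j * d) = hcell P.k P.Lam P.M (a + j' * d) := by
    intro j j' hjj hj' hmod hcard
    have hS : S j = S j' := Finset.eq_of_subset_of_card_le (hmono j j' hjj hj') hcard.ge
    funext t
    obtain ⟨v, hv, hY⟩ := hline t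
    obtain ⟨s, hs⟩ : ∃ s, j' = j + s * r := by
      have h1 : r ∣ j' - j := (Nat.modEq_iff_dvd' hjj).mp hmod
      obtain ⟨s, hs⟩ := h1
      exact ⟨s, by rw [mul_comm s r, ← hs]; omega⟩
    have hA : aa P.Lam (P.M t) (a + j' * d) = aa P.Lam (P.M t) (a + j * d) := by
      rw [hs]
      exact tIIIb_aa_iter P.k P.Lam (P.M t) r a d hk2 P.hLam (hM t) hr hrk (hnear t) v hv hY j s
        (by rw [← hs]; exact hj')
    have hF : fl t j = fl t j' := by
      by_cases ht : fl t j = fl t 0
      · have h1 : t ∉ S j := by simp [S, ht]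
        rw [hS] at h1
        have h2 : fl t j' = fl t 0 := by
          by_contra hcon
          exact h1 (by simp [S, hcon])
        rw [ht, h2]
      · exact (hfl t j j' hjj hj' ht).symm
    simp only [hcell, hcell1]
    rw [hA]
    exact Prod.ext rfl hF
  calc (univ.image (fun j : Fin P.k => hcell P.k P.Lam P.M (a + j * d))).card
      ≤ (univ.image (fun j : Fin P.k => ((j : ℕ) % r, (S j).card))).card := by
        apply tIIIb_card_image_le
        intro j _ j' _ h
        rw [Prod.mk.injEq] at h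
        rcases le_total (j : ℕ) (j' : ℕ) with hjj | hjj
        · exact key j j' hjj j'.2 h.1 h.2
        · exact (key j' j hjj j.2 h.1.symm h.2.symm).symm
    _ ≤ (range r ×ˢ range (P.l ^ 2 + 1)).card := by
        apply Finset.card_le_card
        intro x hx
        rw [mem_image] at hx
        obtain ⟨j, _, rfl⟩ := hx
        rw [mem_product, mem_range, mem_range]
        refine ⟨Nat.mod_lt _ hr, Nat.lt_succ_of_le ?_⟩
        calc (S j).card ≤ (univ : Finset (Fin (P.l ^ 2))).card := Finset.card_le_univ _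
          _ = P.l ^ 2 := by simp
    _ = r * (P.l ^ 2 + 1) := by rw [card_product, card_range, card_range]
    _ ≤ P.rmax * (P.l ^ 2 + 1) := Nat.mul_le_mul_right _ hper

end VDW
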