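import Crest.Agent.Vdw.Defs
import Crest.Agent.Vdw.PatCount

/-! S0086, module ThetaCount. -/

set_option autoImplicit false

open Finset

namespace VDW

theorem theta_aux (q m x : ℕ) (hq : 0 < q) (hm : 1 ≤ m) : (m * (x % q)) / q = (m * x / q) % m := by
  have h1 : m * x = m * (x % q) + q * (m * (x / q)) := by
    have := Nat.div_add_mod x q
    calc m * x = m * (q * (x / q) + x % q) := by rw [this]
      _ = _ := by ring
  rw [h1, Nat.add_mul_div_left _ _ hq, Nat.add_mul_mod_self_left]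
  refine (Nat.mod_eq_of_lt ?_).symm
  rw [Nat.div_lt_iff_lt_mul hq]
  exact Nat.mul_lt_mul_of_pos_left (Nat.mod_lt _ hq) (by omega)

theorem theta_nat (q m : ℕ) [Fact q.Prime] (hm : 1 ≤ m) (A B j : ℕ) :
    theta q m ((A : ZMod q) + ((j : ℕ) : ZMod q) * (B : ZMod q)) = (m * (A + j * B) / q) % m := by
  have hq : 0 < q := (Fact.out : q.Prime).pos
  have h1 : ((A : ZMod q) + ((j : ℕ) : ZMod q) * (B : ZMod q)) = ((A + j * B : ℕ) : ZMod q) := by
    push_cast; ring
  rw [h1]
  unfold theta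
  rw [ZMod.val_natCast, theta_aux q m _ hq hm]

theorem theta_patterns (k q m : ℕ) [Fact q.Prime] (hk : 1 ≤ k) (hm : 1 ≤ m) :
    ∃ F : Finset (Fin k → ℕ), F.card ≤ (k * (k * m) + 1) ^ 3 ∧
      ∀ α β : ZMod q, (fun j : Fin k => theta q m (α + ((j : ℕ) : ZMod q) * β)) ∈ F := by
  have hq : 0 < q := (Fact.out : q.Prime).pos
  let Z : Finset (ℤ × ℤ) := (Finset.Ico (0 : ℤ) q) ×ˢ (Finset.Ico (0 : ℤ) q)
  let T : Fin k → Finset ℤ := fun _ =>
    (Finset.range (k * m)).image (fun τ => ((((τ + 1) * q + (m - 1)) / m : ℕ) : ℤ))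
  let Φ : ℤ × ℤ → Fin k → ℕ := fun z j => (m * (z.1.toNat + (j : ℕ) * z.2.toNat) / q) % m
  have key := pattern_count Z T (fun _ => 0) (fun _ => 1) (fun j => ((j : ℕ) : ℤ)) Φ ?_ (k * m) ?_
  · refine ⟨Z.image Φ, key, ?_⟩
    intro α β
    rw [Finset.mem_image]
    refine ⟨((α.val : ℤ), (β.val : ℤ)), ?_, ?_⟩
    · have h1 := ZMod.val_lt α
      have h2 := ZMod.val_lt β
      simp only [Z, Finset.mem_product, Finset.mem_Ico]
      omega
    · funext j
      simp only [Φ, Int.toNat_natCast]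
      rw [← theta_nat q m hm α.val β.val j]
      simp
  · rintro ⟨a, b⟩ hz ⟨a', b'⟩ hz' j hT
    simp only [Z, Finset.mem_product, Finset.mem_Ico] at hz hz'
    obtain ⟨A, rfl⟩ := Int.eq_ofNat_of_zero_le hz.1.1
    obtain ⟨B, rfl⟩ := Int.eq_ofNat_of_zero_le hz.2.1
    obtain ⟨A', rfl⟩ := Int.eq_ofNat_of_zero_le hz'.1.1
    obtain ⟨B', rfl⟩ := Int.eq_ofNat_of_zero_le hz'.2.1
    have hA : A < q := by have := hz.1.2; omega
    have hB : B < q := by have := hz.2.2; omega
    have hA' : A' < q := by have := hz'.1.2; omega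
    have hB' : B' < q := by have := hz'.2.2; omega
    simp only [Φ, Int.toNat_natCast]
    -- thresholds
    have hthr : ∀ τ < k * m, ((τ + 1) * q ≤ m * (A + (j : ℕ) * B) ↔
        (τ + 1) * q ≤ m * (A' + (j : ℕ) * B')) := by
      intro τ hτ
      have h1 := hT ((((τ + 1) * q + (m - 1)) / m : ℕ) : ℤ)
        (Finset.mem_image.mpr ⟨τ, Finset.mem_range.mpr hτ, rfl⟩)
      have e : ∀ X Y : ℕ, (((((τ + 1) * q + (m - 1)) / m : ℕ) : ℤ) ≤
          0 + 1 * ((X : ℕ) : ℤ) + ((j : ℕ) : ℤ) * ((Y : ℕ) : ℤ)) ↔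
          (τ + 1) * q ≤ m * (X + (j : ℕ) * Y) := by
        intro X Y
        have e1 : (0 + 1 * ((X : ℕ) : ℤ) + ((j : ℕ) : ℤ) * ((Y : ℕ) : ℤ)) =
            ((X + (j : ℕ) * Y : ℕ) : ℤ) := by push_cast; ring
        rw [e1, Nat.cast_le, Nat.div_le_iff_le_mul_add_pred (by omega)]
        omega
      rw [← e A B, ← e A' B']
      exact h1
    have hj : (j : ℕ) + 1 ≤ k := j.2
    have hbd : ∀ X Y : ℕ, X < q → Y < q → m * (X + (j : ℕ) * Y) / q < k * m := by
      intro X Y hX hY
      rw [Nat.div_lt_iff_lt_mul hq]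
      have h1 : X + (j : ℕ) * Y < k * q := by
        calc X + (j : ℕ) * Y < q + (j : ℕ) * q := by
              have : (j : ℕ) * Y ≤ (j : ℕ) * q := Nat.mul_le_mul_left _ hY.le
              omega
          _ = ((j : ℕ) + 1) * q := by ring
          _ ≤ k * q := Nat.mul_le_mul_right _ hj
      calc m * (X + (j : ℕ) * Y) < m * (k * q) := Nat.mul_lt_mul_of_pos_left h1 (by omega)
        _ = k * m * q := by ring
    have hfl : m * (A + (j : ℕ) * B) / q = m * (A' + (j : ℕ) * B') / q := by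
      refine le_antisymm ?_ ?_
      · by_contra hcon
        push Not at hcon
        have h2 := hthr (m * (A' + (j : ℕ) * B') / q) (hbd A' B' hA' hB')
        have h3 : (m * (A' + (j : ℕ) * B') / q + 1) * q ≤ m * (A + (j : ℕ) * B) := by
          calc (m * (A' + (j : ℕ) * B') / q + 1) * q ≤ (m * (A + (j : ℕ) * B) / q) * q :=
                Nat.mul_le_mul_right _ hcon
            _ ≤ _ := Nat.div_mul_le_self _ _
        have h4 := h2.mp h3
        have h5 : m * (A' + (j : ℕ) * B') / q + 1 ≤ m * (A' + (j : ℕ) * B') / q :=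
          (Nat.le_div_iff_mul_le hq).mpr h4
        omega
      · by_contra hcon
        push Not at hcon
        have h2 := hthr (m * (A + (j : ℕ) * B) / q) (hbd A B hA hB)
        have h3 : (m * (A + (j : ℕ) * B) / q + 1) * q ≤ m * (A' + (j : ℕ) * B') := by
          calc (m * (A + (j : ℕ) * B) / q + 1) * q ≤ (m * (A' + (j : ℕ) * B') / q) * q :=
                Nat.mul_le_mul_right _ hcon
            _ ≤ _ := Nat.div_mul_le_self _ _
        have h4 := h2.mpr h3
        have h5 : m * (A + (j : ℕ) * B) / q + 1 ≤ m * (A + (j : ℕ) * B) / q :=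
          (Nat.le_div_iff_mul_le hq).mpr h4
        omega
    rw [hfl]
  · intro j
    exact Finset.card_image_le.trans (by simp)

end VDW
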