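import Crest.Agent.Vdw.Defs
import Crest.Agent.Vdw.ThetaCount
import Crest.Agent.Vdw.CountAll
import Crest.Agent.Vdw.TypeIIIa
import Crest.Agent.Vdw.TypeIIIb

/-! S0086, module TypeIIIc (helper18): counting the key patterns of lines of type III. -/

set_option autoImplicit false

open Finset

namespace VDW

namespace T3c

/-- a finset with at most `B` elements is encoded injectively in `Fin B` -/
lemma exists_enc {α : Type*} (V : Finset α) (B : ℕ) (hB : 0 < B) (hV : V.card ≤ B) :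
    ∃ e : α → Fin B, Set.InjOn e (V : Set α) := by
  classical
  refine ⟨fun x => if h : x ∈ V then ⟨(V.equivFin ⟨x, h⟩ : ℕ), lt_of_lt_of_le (Fin.is_lt _) hV⟩
    else ⟨0, hB⟩, ?_⟩
  intro x hx y hy hxy
  have hx' : x ∈ V := hx
  have hy' : y ∈ V := hy
  simp only [hx', hy', dif_pos, Fin.mk.injEq] at hxy
  have := V.equivFin.injective (Fin.ext hxy)
  exact congrArg Subtype.val this

end T3c

open T3c in
theorem typeIII_count (P : Par) [Fact P.q.Prime]
    (lam : (Fin (P.l ^ 2) → ℕ × ℕ) → Fin (P.l ^ 2) → ZMod P.q)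
    (Pn : (Fin (P.l ^ 2) → ZMod P.q) → ZMod P.q)
    (hP : PolyLine P.q (P.l ^ 2) (2 * P.l - 1) Pn) :
    ∃ F : Finset (Fin P.k → (Fin (P.l ^ 2) → (ℕ × ℕ) × (ℕ × ℕ)) × ℕ × ZMod P.q),
      F.card ≤ Bcell P.k P.l P.Lam P.b * Bth P.k P.l P.rmax P.m * P.q ^ (2 * P.l) ∧
      ∀ a d : ℕ, ¬ P.N ∣ d → TypeIII P.k P.Lam P.rmax P.M a d →
        (fun j : Fin P.k => kap P.k P.Lam P.R P.q P.m P.M lam Pn (a + j * d)) ∈ F := by
  classical
  have hk1 : 1 ≤ P.k := le_trans (by norm_num) P.hk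
  have hw1 : 1 ≤ P.w := by
    have h1 : 1 ≤ (2 * P.l) ^ 6 := Nat.one_le_pow _ _ (by have := P.hl; omega)
    have h2 := P.hw
    have h3 : 1 * 1 ≤ 10 ^ 8 * (2 * P.l) ^ 6 := Nat.mul_le_mul (by norm_num) h1
    omega
  have hm1 : 1 ≤ P.m := by
    have := P.hwm
    omega
  obtain ⟨Fc, hFc, hFc'⟩ := cell_patterns P
  obtain ⟨Ft, hFt, hFt'⟩ := theta_patterns P.k P.q P.m hk1 hm1
  set B : ℕ := P.rmax * (P.l ^ 2 + 1) with hB
  have hBpos : 0 < B := Nat.mul_pos P.hr1 (Nat.succ_pos _)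
  -- the encoding of the visited cells
  let V : (Fin P.k → Fin (P.l ^ 2) → (ℕ × ℕ) × (ℕ × ℕ)) → Finset (Fin (P.l ^ 2) → ℕ × ℕ) :=
    fun p => univ.image (fun j : Fin P.k => fun t => (p j t).1)
  have henc : ∀ p, ∃ e : (Fin (P.l ^ 2) → ℕ × ℕ) → Fin B,
      (V p).card ≤ B → Set.InjOn e (V p : Set (Fin (P.l ^ 2) → ℕ × ℕ)) := by
    intro p
    by_cases h : (V p).card ≤ B
    · obtain ⟨e, he⟩ := exists_enc (V p) B hBpos h
      exact ⟨e, fun _ => he⟩
    · exact ⟨fun _ => ⟨0, hBpos⟩, fun h' => absurd h' h⟩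
  choose enc henc using henc
  let G : (Fin P.k → Fin (P.l ^ 2) → (ℕ × ℕ) × (ℕ × ℕ)) × (Fin B → Fin P.k → ℕ) ×
      (Fin (2 * P.l) → ZMod P.q) →
      (Fin P.k → (Fin (P.l ^ 2) → (ℕ × ℕ) × (ℕ × ℕ)) × ℕ × ZMod P.q) :=
    fun x j => (x.1 j, x.2.1 (enc x.1 fun t => (x.1 j t).1) j,
      ∑ i : Fin (2 * P.l), x.2.2 i * ((j : ℕ) : ZMod P.q) ^ (i : ℕ))
  refine ⟨(Fc ×ˢ (Fintype.piFinset fun _ : Fin B => Ft) ×ˢ
    (univ : Finset (Fin (2 * P.l) → ZMod P.q))).image G, ?_, ?_⟩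
  · refine Finset.card_image_le.trans ?_
    rw [Finset.card_product, Finset.card_product, Fintype.card_piFinset, Finset.card_univ,
      Fintype.card_fun, ZMod.card, Fintype.card_fin, Finset.prod_const, Finset.card_univ,
      Fintype.card_fin, ← mul_assoc]
    refine Nat.mul_le_mul_right _ (Nat.mul_le_mul hFc ?_)
    unfold Bth
    exact Nat.pow_le_pow_left hFt _
  · intro a d hd h3
    obtain ⟨E, hE0, hE⟩ := typeIII_line P a d hd h3
    have hcells := typeIII_hcells P a d h3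
    obtain ⟨f, -, hfdeg, hf⟩ := hP (Yv P.Lam P.q P.M a) E hE0
    set p : Fin P.k → Fin (P.l ^ 2) → (ℕ × ℕ) × (ℕ × ℕ) :=
      fun j => cell P.k P.Lam P.R P.M (a + j * d) with hp
    have hpF : p ∈ Fc := hFc' a d
    have hVp : V p = univ.image (fun j : Fin P.k => hcell P.k P.Lam P.M (a + j * d)) := rfl
    have hVcard : (V p).card ≤ B := by
      rw [hVp]; exact hcells
    have hinj := henc p hVcard
    -- the theta pattern
    let η : Fin B → (Fin (P.l ^ 2) → ℕ × ℕ) := Function.invFunOn (enc p) (V p : Set _)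
    let s : Fin B → Fin P.k → ℕ := fun i j =>
      theta P.q P.m (lam (η i) ⬝ᵥ Yv P.Lam P.q P.M a + ((j : ℕ) : ZMod P.q) * (lam (η i) ⬝ᵥ E))
    have hs : s ∈ Fintype.piFinset fun _ : Fin B => Ft := by
      rw [Fintype.mem_piFinset]
      intro i
      exact hFt' _ _
    refine Finset.mem_image.2 ⟨(p, s, fun i => f.coeff i), ?_, ?_⟩
    · rw [Finset.mem_product, Finset.mem_product]
      exact ⟨hpF, hs, Finset.mem_univ _⟩
    · funext j
      have hYj := hE j j.2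
      have hηj : η (enc p (hcell P.k P.Lam P.M (a + j * d))) = hcell P.k P.Lam P.M (a + j * d) := by
        refine Set.InjOn.leftInvOn_invFunOn hinj ?_
        rw [hVp]
        exact Finset.mem_coe.2 (Finset.mem_image.2 ⟨j, Finset.mem_univ _, rfl⟩)
      have h1 : s (enc p fun t => (p j t).1) j = theta P.q P.m
          (lam (hcell P.k P.Lam P.M (a + j * d)) ⬝ᵥ Yv P.Lam P.q P.M (a + j * d)) := by
        change theta P.q P.m (lam (η (enc p (hcell P.k P.Lam P.M (a + j * d)))) ⬝ᵥ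
          Yv P.Lam P.q P.M a + ((j : ℕ) : ZMod P.q) *
            (lam (η (enc p (hcell P.k P.Lam P.M (a + j * d)))) ⬝ᵥ E)) = _
        rw [hηj, hYj, dotProduct_add, dotProduct_smul, smul_eq_mul]
      have h2 : ∑ i : Fin (2 * P.l), f.coeff i * ((j : ℕ) : ZMod P.q) ^ (i : ℕ) =
          Pn (Yv P.Lam P.q P.M (a + j * d)) := by
        rw [hYj, hf, Polynomial.eval_eq_sum_range' (n := 2 * P.l) (by have := P.hl; omega),
          Finset.sum_range]
      change (p j, s (enc p fun t => (p j t).1) j,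
        ∑ i : Fin (2 * P.l), f.coeff i * ((j : ℕ) : ZMod P.q) ^ (i : ℕ)) = _
      rw [h1, h2]
      rfl

end VDW
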