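import Crest.Agent.Vdw.Geom
import Crest.Agent.Vdw.Hash

/-! # S0086, module TypeIb: lines of period `> k / w` -/

set_option autoImplicit false

open Finset

namespace VDW

theorem Ev_ne_zero (P : Par) (d : ℕ) (hd : ¬ P.N ∣ d)
    (hper : per P.k P.Lam P.M d ≤ P.k) : Ev P.k P.Lam P.q P.M d ≠ 0 := by
  intro h0
  apply hd
  have hnear := per_near P.k P.Lam P.M d hper
  have hpos := per_pos P.k P.Lam P.M d
  have hdvd : ∀ t, P.M t ∣ d := by
    intro t
    have h1 : (((P.Lam : ℤ) * ((per P.k P.Lam P.M d * d : ℕ) : ZMod (P.M t)).valMinAbs : ℤ)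
        : ZMod P.q) = 0 := congrFun h0 t
    rw [ZMod.intCast_zmod_eq_zero_iff_dvd] at h1
    have h2 := hnear t
    unfold near1 at h2
    set x := ((per P.k P.Lam P.M d * d : ℕ) : ZMod (P.M t)).valMinAbs with hx
    have h3 : |(P.Lam : ℤ) * x| < P.q := by
      rw [abs_mul, Nat.abs_cast, Int.abs_eq_natAbs]
      have hk5 : 1 ≤ P.k ^ 5 := Nat.one_le_pow _ _ (by have := P.hk; omega)
      have h4 : P.Lam * x.natAbs ≤ P.Lam * P.k ^ 5 * x.natAbs := by
        calc P.Lam * x.natAbs = P.Lam * 1 * x.natAbs := by ring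
          _ ≤ P.Lam * P.k ^ 5 * x.natAbs := by gcongr
      have h5 := P.hMq t
      have h6 : P.Lam * x.natAbs < P.q := by omega
      exact_mod_cast h6
    have h4 : (P.Lam : ℤ) * x = 0 := Int.eq_zero_of_abs_lt_dvd h1 h3
    have hLam : (P.Lam : ℤ) ≠ 0 := by
      have := P.hLam
      omega
    have h5 : x = 0 := by
      rcases mul_eq_zero.mp h4 with h | h
      · exact absurd h hLam
      · exact h
    have : NeZero (P.M t) := ⟨(P.hMp t).ne_zero⟩
    have h6 : ((per P.k P.Lam P.M d * d : ℕ) : ZMod (P.M t)) = 0 :=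
      (ZMod.valMinAbs_eq_zero _).mp (hx ▸ h5)
    have h7 : P.M t ∣ per P.k P.Lam P.M d * d := (ZMod.natCast_eq_zero_iff _ _).mp h6
    rcases (P.hMp t).dvd_mul.mp h7 with h | h
    · have := Nat.le_of_dvd hpos h
      have := P.hMk t
      omega
    · exact h
  have h8 : (∏ p ∈ (univ : Finset (Fin (P.l ^ 2))).image P.M, p) ∣ d := by
    apply Finset.prod_primes_dvd
    · intro p hp
      obtain ⟨t, -, rfl⟩ := Finset.mem_image.mp hp
      exact (P.hMp t).prime
    · intro p hp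
      obtain ⟨t, -, rfl⟩ := Finset.mem_image.mp hp
      exact hdvd t
  rw [Finset.prod_image (fun x _ y _ h => P.hMinj h)] at h8
  exact h8

theorem hcell_of_kap {D : ℕ} {k Lam R q m : ℕ} {M : Fin D → ℕ}
    {lam : (Fin D → ℕ × ℕ) → Fin D → ZMod q} {Pn : (Fin D → ZMod q) → ZMod q} {n n' : ℕ}
    (h : kap k Lam R q m M lam Pn n = kap k Lam R q m M lam Pn n') :
    hcell k Lam M n = hcell k Lam M n' := by
  have h1 : cell k Lam R M n = cell k Lam R M n' := congrArg Prod.fst h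
  funext t
  exact congrArg Prod.fst (congrFun h1 t)

theorem typeI_big (P : Par) (a d : ℕ)
    (lam : (Fin (P.l ^ 2) → ℕ × ℕ) → Fin (P.l ^ 2) → ZMod P.q)
    (Pn : (Fin (P.l ^ 2) → ZMod P.q) → ZMod P.q)
    (hper : P.k < per P.k P.Lam P.M d) :
    50 * (univ.filter (fun j : Fin P.k => ∃ j' : Fin P.k, j' ≠ j ∧
      kap P.k P.Lam P.R P.q P.m P.M lam Pn (a + j' * d) =
        kap P.k P.Lam P.R P.q P.m P.M lam Pn (a + j * d))).card ≤ P.k := by
  have hk := P.hk
  have hM : ∀ t, 0 < P.M t := fun t => (P.hMp t).pos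
  have hempty : (univ.filter (fun j : Fin P.k => ∃ j' : Fin P.k, j' ≠ j ∧
      kap P.k P.Lam P.R P.q P.m P.M lam Pn (a + j' * d) =
        kap P.k P.Lam P.R P.q P.m P.M lam Pn (a + j * d))) = ∅ := by
    apply Finset.filter_eq_empty_iff.mpr
    rintro j - ⟨j', hne, he⟩
    have hc := hcell_of_kap he
    have hne' : (j' : ℕ) ≠ j := fun h => hne (Fin.ext h)
    rcases lt_or_gt_of_ne hne' with hlt | hlt
    · have := (per_of_hcell P.k P.Lam P.M a d j' j (by omega) P.hLam hM hlt j.2 hc).1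
      omega
    · have := (per_of_hcell P.k P.Lam P.M a d j j' (by omega) P.hLam hM hlt j'.2 hc.symm).1
      omega
  rw [hempty]
  simp

theorem typeI_mid_aux (P : Par) [Fact P.q.Prime] (a d : ℕ)
    (lam : (Fin (P.l ^ 2) → ℕ × ℕ) → Fin (P.l ^ 2) → ZMod P.q)
    (Pn : (Fin (P.l ^ 2) → ZMod P.q) → ZMod P.q)
    (hper : P.k / P.w < per P.k P.Lam P.M d) (j j' : ℕ) (hjj : j < j') (hj' : j' < P.k)
    (he : kap P.k P.Lam P.R P.q P.m P.M lam Pn (a + j * d) =
        kap P.k P.Lam P.R P.q P.m P.M lam Pn (a + j' * d)) :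
    ∃ i : ℕ, 1 ≤ i ∧ i ≤ P.w ∧
      small P.q P.m ((i : ZMod P.q) * (lam (hcell P.k P.Lam P.M (a + j * d)) ⬝ᵥ
        Ev P.k P.Lam P.q P.M d)) := by
  have hk := P.hk
  have hM : ∀ t, 0 < P.M t := fun t => (P.hMp t).pos
  have hc := hcell_of_kap he
  obtain ⟨hple, hdvd⟩ := per_of_hcell P.k P.Lam P.M a d j j' (by omega) P.hLam hM hjj hj' hc
  obtain ⟨i, hi⟩ := hdvd
  have hpos := per_pos P.k P.Lam P.M d
  have hi1 : 1 ≤ i := by
    rcases Nat.eq_zero_or_pos i with h | h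
    · rw [h] at hi
      omega
    · exact h
  have hw1 : 1 ≤ P.w := by
    have h1 := P.hw
    have h2 : 1 ≤ (2 * P.l) ^ 6 := Nat.one_le_pow _ _ (by have := P.hl; omega)
    omega
  have hiw : i ≤ P.w := by
    by_contra hcon
    push Not at hcon
    have h1 : P.k < P.w * (P.k / P.w + 1) := Nat.lt_mul_div_succ _ hw1
    have h2 : P.w * (P.k / P.w + 1) ≤ per P.k P.Lam P.M d * i := by
      rw [mul_comm]
      exact Nat.mul_le_mul hper hcon.le
    omega
  refine ⟨i, hi1, hiw, ?_⟩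
  have hj2 : j' = j + i * per P.k P.Lam P.M d := by
    rw [mul_comm]
    omega
  have hik : i ≤ P.k := le_trans hiw P.hwk
  have hnear := per_near P.k P.Lam P.M d hple
  have hY : Yv P.Lam P.q P.M (a + j' * d) = Yv P.Lam P.q P.M (a + j * d) +
      (i : ZMod P.q) • Ev P.k P.Lam P.q P.M d := by
    funext t
    have h1 := yy_exact P.k P.Lam (P.M t) (per P.k P.Lam P.M d) a d j i (by omega) P.hLam (hM t)
      hik (hnear t) (by rw [← hj2]; exact congrFun hc t)
    rw [← hj2] at h1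
    have h2 := congrArg (fun z : ℤ => (z : ZMod P.q)) h1
    simp only [Int.cast_natCast, Int.cast_add, Int.cast_mul] at h2
    simp only [Yv, Ev, Pi.add_apply, Pi.smul_apply, smul_eq_mul, Int.cast_mul, Int.cast_natCast]
    exact h2
  have hth : theta P.q P.m (lam (hcell P.k P.Lam P.M (a + j * d)) ⬝ᵥ
        Yv P.Lam P.q P.M (a + j' * d)) =
      theta P.q P.m (lam (hcell P.k P.Lam P.M (a + j * d)) ⬝ᵥ Yv P.Lam P.q P.M (a + j * d)) := by
    have h1 := congrArg (fun z => z.2.1) he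
    simp only [kap] at h1
    rw [← hc] at h1
    exact h1.symm
  have hm : 2 ≤ P.m := by
    have := P.hwm
    omega
  have hs := small_of_theta_eq P.q P.m hm _ _ hth
  rw [hY, dotProduct_add, dotProduct_smul, add_sub_cancel_left, smul_eq_mul] at hs
  exact hs

open Classical in
theorem typeI_mid (P : Par) [Fact P.q.Prime] (a d : ℕ)
    (lam : (Fin (P.l ^ 2) → ℕ × ℕ) → Fin (P.l ^ 2) → ZMod P.q)
    (Pn : (Fin (P.l ^ 2) → ZMod P.q) → ZMod P.q)
    (hper : P.k / P.w < per P.k P.Lam P.M d) (hper2 : per P.k P.Lam P.M d ≤ P.k)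
    (hlam : 50 * (univ.filter (fun j : Fin P.k => ∃ i : ℕ, 1 ≤ i ∧ i ≤ P.w ∧
      small P.q P.m ((i : ZMod P.q) * (lam (hcell P.k P.Lam P.M (a + j * d)) ⬝ᵥ
        Ev P.k P.Lam P.q P.M d)))).card ≤ P.k) :
    50 * (univ.filter (fun j : Fin P.k => ∃ j' : Fin P.k, j' ≠ j ∧
      kap P.k P.Lam P.R P.q P.m P.M lam Pn (a + j' * d) =
        kap P.k P.Lam P.R P.q P.m P.M lam Pn (a + j * d))).card ≤ P.k := by
  refine le_trans (Nat.mul_le_mul_left _ (Finset.card_le_card ?_)) hlam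
  intro j hj
  simp only [Finset.mem_filter, Finset.mem_univ, true_and] at hj ⊢
  obtain ⟨j', hne, he⟩ := hj
  have hne' : (j' : ℕ) ≠ j := fun h => hne (Fin.ext h)
  rcases lt_or_gt_of_ne hne' with hlt | hlt
  · have h1 := typeI_mid_aux P a d lam Pn hper j' j hlt j.2 he
    rw [hcell_of_kap he] at h1
    exact h1
  · exact typeI_mid_aux P a d lam Pn hper j j' hlt j'.2 he.symm

end VDW
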