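import Crest.Agent.Vdw.Defs
import Crest.Agent.Vdw.Geom
import Crest.Agent.Vdw.Dich
import Crest.Agent.Vdw.LemmaV
import Crest.Agent.Vdw.TypeIb

/-! # S0086, module TypeIa: `typeI_small` -/

set_option autoImplicit false

open Finset

namespace VDW

theorem typeI_small (P : Par) [Fact P.q.Prime] (a d : ℕ) (hd : ¬ P.N ∣ d)
    (lam : (Fin (P.l ^ 2) → ℕ × ℕ) → Fin (P.l ^ 2) → ZMod P.q)
    (Pn : (Fin (P.l ^ 2) → ZMod P.q) → ZMod P.q)
    (hP : PolyLine P.q (P.l ^ 2) (2 * P.l - 1) Pn)
    (hper : per P.k P.Lam P.M d ≤ P.k / P.w) :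
    50 * (univ.filter (fun j : Fin P.k => ∃ j' : Fin P.k, j' ≠ j ∧
      kap P.k P.Lam P.R P.q P.m P.M lam Pn (a + j' * d) =
        kap P.k P.Lam P.R P.q P.m P.M lam Pn (a + j * d))).card ≤ P.k := by
  classical
  have hk := P.hk
  have hl := P.hl
  have hw := P.hw
  have hwk := P.hwk
  have hk2 : 2 ≤ P.k := by omega
  have hMpos : ∀ t, 0 < P.M t := fun t => (P.hMp t).pos
  have hE := Ev_ne_zero P d hd (hper.trans (Nat.div_le_self _ _))
  have hnear := per_near P.k P.Lam P.M d (hper.trans (Nat.div_le_self _ _))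
  have hr1 := per_pos P.k P.Lam P.M d
  set r := per P.k P.Lam P.M d with hr
  have hrk : r ≤ P.k := hper.trans (Nat.div_le_self _ _)
  have hrw : r * P.w ≤ P.k := by
    have h1 := Nat.mul_le_mul_right P.w hper
    exact h1.trans (Nat.div_mul_le_self _ _)
  set K := kap P.k P.Lam P.R P.q P.m P.M lam Pn with hK
  set Bd := univ.filter (fun j : Fin P.k => ∃ j' : Fin P.k, j' ≠ j ∧
      K (a + j' * d) = K (a + j * d)) with hBd
  -- equal keys
  have hcellK : ∀ n n', K n = K n' → cell P.k P.Lam P.R P.M n = cell P.k P.Lam P.R P.M n' := by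
    intro n n' h
    exact congrArg Prod.fst h
  have hPK : ∀ n n', K n = K n' → Pn (Yv P.Lam P.q P.M n) = Pn (Yv P.Lam P.q P.M n') := by
    intro n n' h
    exact congrArg (fun x => x.2.2) h
  have hcongr : ∀ j j' : Fin P.k, j ≠ j' → K (a + j * d) = K (a + j' * d) →
      (j : ℕ) % r = (j' : ℕ) % r := by
    have aux : ∀ j j' : Fin P.k, (j : ℕ) < j' → K (a + j * d) = K (a + j' * d) →
        (j : ℕ) % r = (j' : ℕ) % r := by
      intro j j' hlt h
      have h1 : hcell P.k P.Lam P.M (a + j * d) = hcell P.k P.Lam P.M (a + j' * d) := by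
        funext t
        exact congrArg Prod.fst (congrFun (hcellK _ _ h) t)
      have h2 := (per_of_hcell P.k P.Lam P.M a d j j' hk2 P.hLam hMpos hlt j'.2 h1).2
      exact (Nat.modEq_iff_dvd' hlt.le).mpr h2
    intro j j' hne h
    rcases lt_or_gt_of_ne (fun e => hne (Fin.ext e) : (j : ℕ) ≠ j') with h1 | h1
    · exact aux j j' h1 h
    · exact (aux j' j h1 h.symm).symm
  -- one residue class
  have hclass : ∀ i ∈ range r, 100 * (Bd.filter (fun j : Fin P.k => (j : ℕ) % r = i)).card ≤
      (univ.filter (fun j : Fin P.k => (j : ℕ) % r = i)).card := by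
    intro i hi
    rw [mem_range] at hi
    set L := (P.k - 1 - i) / r + 1 with hL
    have hLmem : ∀ s, s < L ↔ i + s * r < P.k := by
      intro s
      rw [hL, Nat.lt_succ_iff, Nat.le_div_iff_mul_le (by omega)]
      omega
    have hLk : L ≤ P.k := by
      by_contra hh
      have h1 := (hLmem P.k).mp (by omega)
      have h2 : P.k * 1 ≤ P.k * r := Nat.mul_le_mul_left _ hr1
      omega
    have hwL : P.w ≤ L := by
      have hw1 : 1 ≤ P.w := by
        have : 0 < 10 ^ 8 * (2 * P.l) ^ 6 := by positivity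
        omega
      have h1 := (hLmem (P.w - 1)).mpr (by
        obtain ⟨w', hw'⟩ : ∃ w', P.w = w' + 1 := ⟨P.w - 1, by omega⟩
        rw [hw'] at hrw ⊢
        rw [Nat.add_sub_cancel]
        have : i + w' * r < r * (w' + 1) := by nlinarith
        omega)
      omega
    have hcard : L ≤ (univ.filter (fun j : Fin P.k => (j : ℕ) % r = i)).card := by
      have : (range L).card ≤ (univ.filter (fun j : Fin P.k => (j : ℕ) % r = i)).card := by
        refine card_le_card_of_injOn (fun s => if h : i + s * r < P.k then ⟨i + s * r, h⟩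
          else ⟨0, by omega⟩) ?_ ?_
        · intro s hs
          rw [mem_coe, mem_range] at hs
          have h1 := (hLmem s).mp hs
          rw [mem_coe, mem_filter]
          refine ⟨mem_univ _, ?_⟩
          simp only [dif_pos h1]
          rw [Nat.add_mul_mod_self_right, Nat.mod_eq_of_lt hi]
        · intro s hs s' hs' h
          rw [mem_coe, mem_range] at hs hs'
          have h1 := (hLmem s).mp hs
          have h2 := (hLmem s').mp hs'
          simp only at h
          rw [dif_pos h1, dif_pos h2, Fin.mk.injEq] at h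
          have h3 : s * r = s' * r := by omega
          exact Nat.eq_of_mul_eq_mul_right (by omega) h3
      rwa [card_range] at this
    refine le_trans ?_ hcard
    -- data for the dichotomy
    let n : ℕ → ℕ := fun s => a + (i + s * r) * d
    let Y : Fin (P.l ^ 2) → ℕ → ℕ := fun t s => yy P.Lam (P.M t) (n s)
    let e : Fin (P.l ^ 2) → ℤ := fun t =>
      (P.Lam : ℤ) * ((r * d : ℕ) : ZMod (P.M t)).valMinAbs
    have he : ∀ t, P.k ^ 5 * (e t).natAbs < P.M t := by
      intro t
      have h1 := hnear t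
      unfold near1 at h1
      show P.k ^ 5 * ((P.Lam : ℤ) * ((r * d : ℕ) : ZMod (P.M t)).valMinAbs).natAbs < P.M t
      rw [Int.natAbs_mul, Int.natAbs_natCast]
      calc _ = P.Lam * P.k ^ 5 * (((r * d : ℕ) : ZMod (P.M t)).valMinAbs).natAbs := by ring
        _ < P.M t := h1
    have hYlt : ∀ t, ∀ s < L, Y t s < P.M t := fun t s _ => Nat.mod_lt _ (hMpos t)
    have hmod : ∀ t, ∀ s < L, (Y t s : ℤ) ≡ Y t 0 + s * e t [ZMOD P.M t] := by
      intro t s _
      have h1 := yy_step P.Lam (P.M t) r a d i s (hMpos t)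
      have h2 : Y t 0 = yy P.Lam (P.M t) (a + i * d) := by
        show yy P.Lam (P.M t) (a + (i + 0 * r) * d) = _
        rw [zero_mul, add_zero]
      rw [h2]
      exact h1
    have hdich := fun t => dich P.k P.R (P.M t) L hk2 P.hR (e t) (he t) hLk (Y t) (hYlt t) (hmod t)
    -- decomposition of an index of the class
    have hdec : ∀ j : Fin P.k, (j : ℕ) % r = i → (j : ℕ) / r < L ∧
        a + (j : ℕ) * d = n ((j : ℕ) / r) := by
      intro j hj
      have h1 := Nat.mod_add_div (j : ℕ) r
      rw [hj] at h1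
      have h2 : i + (j : ℕ) / r * r = j := by rw [mul_comm]; exact h1
      refine ⟨(hLmem _).mpr (by rw [h2]; exact j.2), ?_⟩
      show _ = a + (i + (j : ℕ) / r * r) * d
      rw [h2]
    by_cases hall : ∀ t, ∀ s < L, (Y t s : ℤ) = Y t 0 + s * e t
    · -- polynomial case
      have hYv : ∀ s < L, Yv P.Lam P.q P.M (n s)
          = Yv P.Lam P.q P.M (n 0) + ((s : ℕ) : ZMod P.q) • Ev P.k P.Lam P.q P.M d := by
        intro s hs
        funext t
        have h1 := congrArg (fun z : ℤ => (z : ZMod P.q)) (hall t s hs)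
        simp only [Int.cast_add, Int.cast_mul, Int.cast_natCast] at h1
        show ((yy P.Lam (P.M t) (n s) : ℕ) : ZMod P.q) = ((yy P.Lam (P.M t) (n 0) : ℕ) : ZMod P.q)
          + (s : ZMod P.q) * Ev P.k P.Lam P.q P.M d t
        exact h1
      obtain ⟨f, hfodd, hfdeg, hf⟩ := hP (Yv P.Lam P.q P.M (n 0)) (Ev P.k P.Lam P.q P.M d) hE
      have hb : f.natDegree ≤ 2 * P.l := hfdeg.trans (Nat.sub_le _ _)
      have hb1 : 1 ≤ f.natDegree := hfodd.pos
      have hV := lemmaV f.natDegree L P.q hfodd
        ((Nat.mul_le_mul_left _ (Nat.pow_le_pow_left hb 6)).trans (hw.trans hwL))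
        (by
          refine lt_of_le_of_lt ?_ P.hqV
          have h1 : L ^ f.natDegree ≤ P.k ^ (2 * P.l) :=
            (Nat.pow_le_pow_left hLk _).trans (Nat.pow_le_pow_right (by omega) hb)
          have h2 : f.natDegree * L ^ f.natDegree + 1 ≤ 2 * P.l * P.k ^ (2 * P.l) + 1 :=
            Nat.succ_le_succ (Nat.mul_le_mul hb h1)
          exact (Nat.pow_le_pow_left h2 _).trans (Nat.pow_le_pow_right (by omega) hb)) f rfl
      refine le_trans (Nat.mul_le_mul_left _ ?_) hV
      refine card_le_card_of_injOn (fun j : Fin P.k => (j : ℕ) / r) ?_ ?_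
      · intro j hj
        rw [mem_coe, mem_filter, hBd, mem_filter] at hj
        obtain ⟨⟨-, j', hne, hKeq⟩, hji⟩ := hj
        have hj'i : (j' : ℕ) % r = i := by rw [hcongr j' j hne hKeq]; exact hji
        obtain ⟨h1, h2⟩ := hdec j hji
        obtain ⟨h1', h2'⟩ := hdec j' hj'i
        rw [mem_coe, mem_filter, mem_range]
        refine ⟨h1, (j' : ℕ) / r, mem_range.mpr h1', ?_, ?_⟩
        · intro hq
          apply hne
          apply Fin.ext
          rw [← Nat.mod_add_div (j' : ℕ) r, ← Nat.mod_add_div (j : ℕ) r, hji, hj'i, hq]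
        · have h3 := hPK _ _ hKeq
          rw [h2, h2', hYv _ h1, hYv _ h1', hf, hf] at h3
          exact h3.symm
      · intro j hj j' hj' h
        rw [mem_coe, mem_filter] at hj hj'
        apply Fin.ext
        rw [← Nat.mod_add_div (j : ℕ) r, ← Nat.mod_add_div (j' : ℕ) r, hj.2, hj'.2]
        simp only at h
        rw [h]
    · -- some component separates everything
      push Not at hall
      obtain ⟨t, s₀, hs₀, hne₀⟩ := hall
      have hsep := (hdich t).resolve_left (fun h => hne₀ (h s₀ hs₀))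
      have hempty : Bd.filter (fun j : Fin P.k => (j : ℕ) % r = i) = ∅ := by
        rw [eq_empty_iff_forall_notMem]
        intro j hj
        rw [mem_filter, hBd, mem_filter] at hj
        obtain ⟨⟨-, j', hne, hKeq⟩, hji⟩ := hj
        have hj'i : (j' : ℕ) % r = i := by rw [hcongr j' j hne hKeq]; exact hji
        obtain ⟨h1, h2⟩ := hdec j hji
        obtain ⟨h1', h2'⟩ := hdec j' hj'i
        have h3 := congrFun (hcellK _ _ hKeq) t
        have h4 : phi P.R (P.M t) (yy P.Lam (P.M t) (a + j' * d))
            = phi P.R (P.M t) (yy P.Lam (P.M t) (a + j * d)) := congrArg Prod.snd h3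
        rw [h2, h2'] at h4
        have h5 := hsep _ h1' _ h1 h4
        apply hne
        apply Fin.ext
        rw [← Nat.mod_add_div (j' : ℕ) r, ← Nat.mod_add_div (j : ℕ) r, hji, hj'i, h5]
      rw [hempty]
      simp
  have h1 : Bd.card = ∑ i ∈ range r, (Bd.filter (fun j : Fin P.k => (j : ℕ) % r = i)).card :=
    card_eq_sum_card_fiberwise (fun j _ => by
      rw [mem_coe, mem_range]; exact Nat.mod_lt _ (by omega))
  have h2 : (univ : Finset (Fin P.k)).card
      = ∑ i ∈ range r, (univ.filter (fun j : Fin P.k => (j : ℕ) % r = i)).card :=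
    card_eq_sum_card_fiberwise (fun j _ => by
      rw [mem_coe, mem_range]; exact Nat.mod_lt _ (by omega))
  have h3 : 100 * Bd.card ≤ P.k := by
    rw [card_univ, Fintype.card_fin] at h2
    calc 100 * Bd.card
        = ∑ i ∈ range r, 100 * (Bd.filter (fun j : Fin P.k => (j : ℕ) % r = i)).card := by
          rw [h1, mul_sum]
      _ ≤ ∑ i ∈ range r, (univ.filter (fun j : Fin P.k => (j : ℕ) % r = i)).card :=
          sum_le_sum hclass
      _ = P.k := h2.symm
  omega

end VDW
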