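import Crest.Agent.Vdw.Geom
import Crest.Agent.Vdw.CountAll
import Crest.Agent.Vdw.TypeIa
import Crest.Agent.Vdw.TypeIb
import Crest.Agent.Vdw.TypeII
import Crest.Agent.Vdw.TypeIIIa
import Crest.Agent.Vdw.TypeIIIb
import Crest.Agent.Vdw.TypeIIIc
import Crest.Agent.Vdw.Balance
import Crest.Agent.Vdw.Exc
import Crest.Agent.Vdw.Hash
import Crest.Agent.Vdw.NormForm

/-! S0086: assembly of the colouring. -/

set_option autoImplicit false

open Finset

namespace VDW

theorem hcell1_congr (k Lam m n n' : ℕ) (h : n % m = n' % m) :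
    hcell1 k Lam m n = hcell1 k Lam m n' := by
  have hy : yy Lam m n = yy Lam m n' := by
    unfold yy; rw [Nat.mul_mod, h, ← Nat.mul_mod]
  have ha : aa Lam m n = aa Lam m n' := by unfold aa; rw [h]
  unfold hcell1; rw [hy, ha]

theorem yy_congr1 (Lam m n n' : ℕ) (h : n % m = n' % m) : yy Lam m n = yy Lam m n' := by
  unfold yy; rw [Nat.mul_mod, h, ← Nat.mul_mod]

theorem hcell_congr {D : ℕ} (k Lam : ℕ) (M : Fin D → ℕ) (n n' : ℕ)
    (h : n % (∏ t, M t) = n' % (∏ t, M t)) : hcell k Lam M n = hcell k Lam M n' := by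
  funext t
  exact hcell1_congr _ _ _ _ _ (yy_congr M n n' h t)

theorem cell_congr {D : ℕ} (k Lam R : ℕ) (M : Fin D → ℕ) (n n' : ℕ)
    (h : n % (∏ t, M t) = n' % (∏ t, M t)) : cell k Lam R M n = cell k Lam R M n' := by
  funext t
  have := yy_congr M n n' h t
  unfold cell cell1
  rw [hcell1_congr _ _ _ _ _ this, yy_congr1 _ _ _ _ this]

theorem Yv_congr {D : ℕ} (Lam q : ℕ) (M : Fin D → ℕ) (n n' : ℕ)
    (h : n % (∏ t, M t) = n' % (∏ t, M t)) : Yv Lam q M n = Yv Lam q M n' := by
  funext t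
  unfold Yv
  rw [yy_congr1 _ _ _ _ (yy_congr M n n' h t)]

theorem kap_congr {D : ℕ} (k Lam R q m : ℕ) (M : Fin D → ℕ)
    (lam : (Fin D → ℕ × ℕ) → Fin D → ZMod q) (P : (Fin D → ZMod q) → ZMod q) (n n' : ℕ)
    (h : n % (∏ t, M t) = n' % (∏ t, M t)) :
    kap k Lam R q m M lam P n = kap k Lam R q m M lam P n' := by
  unfold kap
  rw [cell_congr k Lam R M n n' h, hcell_congr k Lam M n n' h, Yv_congr Lam q M n n' h]

theorem kap_cell {D : ℕ} (k Lam R q m : ℕ) (M : Fin D → ℕ)
    (lam : (Fin D → ℕ × ℕ) → Fin D → ZMod q) (P : (Fin D → ZMod q) → ZMod q) (n : ℕ) :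
    (kap k Lam R q m M lam P n).1 = cell k Lam R M n := rfl

theorem cell_hcell {D : ℕ} (k Lam R : ℕ) (M : Fin D → ℕ) (n : ℕ)
    (c : Fin D → (ℕ × ℕ) × (ℕ × ℕ)) (h : cell k Lam R M n = c) :
    hcell k Lam M n = fun t => (c t).1 := by
  subst h; rfl

/-- multiplicity of cells along a line -/
theorem cell_fiber (P : Par) (a d : ℕ) (c : Fin (P.l ^ 2) → (ℕ × ℕ) × (ℕ × ℕ)) :
    (univ.filter (fun j : Fin P.k => cell P.k P.Lam P.R P.M (a + j * d) = c)).card ≤
      (P.k - 1) / per P.k P.Lam P.M d + 1 := by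
  have hk := P.hk
  refine le_trans (card_le_card ?_) (fiber_card P.k P.Lam P.M a d (by omega) P.hLam
    (fun t => (P.hMp t).pos) (fun t => (c t).1))
  intro j hj
  simp only [mem_filter, mem_univ, true_and] at hj ⊢
  exact cell_hcell _ _ _ _ _ _ hj

theorem assembly (P : Par) (hN : P.Num) :
    ∃ χ : ℕ → Bool, (∀ n n' : ℕ, n % P.N = n' % P.N → χ n = χ n') ∧
      ∀ a d : ℕ, ¬ P.N ∣ d → ∃ i < P.k, ∃ j < P.k, χ (a + i * d) ≠ χ (a + j * d) := by
  classical
  have : Fact P.q.Prime := ⟨P.hq⟩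
  have hk := P.hk
  have hMpos : ∀ t, 0 < P.M t := fun t => (P.hMp t).pos
  have hNpos : 0 < P.N := Finset.prod_pos (fun t _ => hMpos t)
  have hw1 : 1 ≤ P.w := by
    have h1 := P.hw
    have h2 := P.hl
    have h3 : 1 ≤ (2 * P.l) ^ 6 := Nat.one_le_pow _ _ (by omega)
    omega
  have t0 : Fin (P.l ^ 2) := ⟨0, by have := P.hl; positivity⟩
  have hkq : P.k < P.q := lt_trans (P.hMk t0) (P.hMq t0)
  have hwq : P.w < P.q := lt_of_le_of_lt P.hwk hkq
  obtain ⟨Pn, hPn⟩ := normform P.q P.l P.hl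
  -- lines
  let Ln : Finset (ℕ × ℕ) := (range P.N) ×ˢ (range P.N)
  have hLn : Ln.card = P.N ^ 2 := by
    simp only [Ln, card_product, card_range]; ring
  -- hash family
  let T : Finset ((Fin P.k → (Fin (P.l ^ 2) → ℕ × ℕ)) × (Fin (P.l ^ 2) → ZMod P.q)) :=
    (Ln.filter (fun ad => ¬ P.N ∣ ad.2 ∧ P.k / P.w < per P.k P.Lam P.M ad.2 ∧
      per P.k P.Lam P.M ad.2 ≤ P.k)).image
      (fun ad => (fun j => hcell P.k P.Lam P.M (ad.1 + j * ad.2), Ev P.k P.Lam P.q P.M ad.2))
  have hTcard : T.card ≤ P.N ^ 2 := by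
    rw [← hLn]
    exact card_image_le.trans (card_filter_le _ _)
  obtain ⟨lam, hlam⟩ := hash P.k (P.l ^ 2) P.q P.m P.w (P.N ^ 2) (by omega) hwq P.hmq hw1 P.hwm T
    (by
      intro τ hτ
      obtain ⟨ad, had, rfl⟩ := mem_image.mp hτ
      simp only [mem_filter] at had
      exact Ev_ne_zero P ad.2 had.2.1 had.2.2.2)
    (by
      intro τ hτ c
      obtain ⟨ad, had, rfl⟩ := mem_image.mp hτ
      simp only [mem_filter] at had
      refine le_trans (fiber_card P.k P.Lam P.M ad.1 ad.2 (by omega) P.hLam hMpos c) ?_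
      have h1 := had.2.2.1
      have hp := per_pos P.k P.Lam P.M ad.2
      have h2 : P.k - 1 < P.w * per P.k P.Lam P.M ad.2 := by
        have h3 : P.k < P.w * (P.k / P.w + 1) := by
          exact Nat.lt_mul_div_succ _ (by omega)
        have h4 : P.w * (P.k / P.w + 1) ≤ P.w * per P.k P.Lam P.M ad.2 :=
          Nat.mul_le_mul_left _ h1
        omega
      have h5 : (P.k - 1) / per P.k P.Lam P.M ad.2 < P.w :=
        (Nat.div_lt_iff_lt_mul hp).mpr h2
      omega)
    hTcard hN.n4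
  -- cell patterns
  obtain ⟨FC, hFC, hFC'⟩ := cell_patterns P
  set cp : ℕ × ℕ → Fin P.k → (Fin (P.l ^ 2) → (ℕ × ℕ) × (ℕ × ℕ)) :=
    fun ad j => cell P.k P.Lam P.R P.M (ad.1 + j * ad.2) with hcp
  let P₁ := (Ln.filter (fun ad => P.rmax < per P.k P.Lam P.M ad.2 ∧
      per P.k P.Lam P.M ad.2 ≤ P.k / 20)).image cp
  let P₂ := (Ln.filter (fun ad => P.k / 20 < per P.k P.Lam P.M ad.2 ∨
      (per P.k P.Lam P.M ad.2 ≤ P.rmax ∧ ¬ TypeIII P.k P.Lam P.rmax P.M ad.1 ad.2))).image cp
  obtain ⟨g, hg⟩ := balance P.k (P.k / P.rmax + 1) (B1 P.k P.l P.b)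
    (Bcell P.k P.l P.Lam P.b) P₁ P₂ (by omega) (Nat.le_add_left 1 _)
    (by
      intro p hp c
      obtain ⟨ad, had, rfl⟩ := mem_image.mp hp
      simp only [mem_filter] at had
      refine le_trans (cell_fiber P ad.1 ad.2 c) ?_
      have h1 : (P.k - 1) / per P.k P.Lam P.M ad.2 ≤ P.k / P.rmax :=
        Nat.div_le_div (by omega) had.2.1.le (by have := P.hr1; omega)
      omega)
    (by
      intro p hp c
      obtain ⟨ad, had, rfl⟩ := mem_image.mp hp
      simp only [mem_filter] at had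
      rcases had.2 with h | h
      · refine le_trans (cell_fiber P ad.1 ad.2 c) ?_
        have hp := per_pos P.k P.Lam P.M ad.2
        have : (P.k - 1) / per P.k P.Lam P.M ad.2 < 20 := by
          refine (Nat.div_lt_iff_lt_mul hp).mpr ?_
          omega
        omega
      · have hinj := typeII_inj P ad.1 ad.2 h.1 h.2
        have : (univ.filter (fun j => cp ad j = c)).card ≤ 1 := by
          rw [card_le_one]
          intro x hx y hy
          simp only [mem_filter, mem_univ, true_and] at hx hy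
          exact hinj (hx.trans hy.symm)
        omega)
    (by
      intro c
      obtain ⟨F, hF, hF'⟩ := cell_patterns_through P c
      refine le_trans (card_le_card ?_) hF
      intro p hp
      simp only [mem_filter] at hp
      obtain ⟨hp1, j, hj⟩ := hp
      obtain ⟨ad, had, rfl⟩ := mem_image.mp hp1
      simp only [mem_filter] at had
      refine hF' ad.1 ad.2 ⟨j, hj⟩ ?_
      have : P.k / 20 ≤ P.k := Nat.div_le_self _ _
      omega)
    (by
      refine le_trans (card_le_card ?_) hFC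
      intro p hp
      obtain ⟨ad, had, rfl⟩ := mem_image.mp hp
      exact hFC' ad.1 ad.2)
    hN.n1 hN.n2
  -- keys
  set kp : ℕ × ℕ → Fin P.k → ((Fin (P.l ^ 2) → (ℕ × ℕ) × (ℕ × ℕ)) × ℕ × ZMod P.q) :=
    fun ad j => kap P.k P.Lam P.R P.q P.m P.M lam Pn (ad.1 + j * ad.2) with hkp
  let Q₁ := (Ln.filter (fun ad => ¬ P.N ∣ ad.2 ∧
    ¬ TypeIII P.k P.Lam P.rmax P.M ad.1 ad.2)).image kp
  let Q₂ := (Ln.filter (fun ad => ¬ P.N ∣ ad.2 ∧
    TypeIII P.k P.Lam P.rmax P.M ad.1 ad.2)).image (fun ad => (kp ad, fun j => g (cp ad j)))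
  obtain ⟨FK, hFK, hFK'⟩ := typeIII_count P lam Pn hPn
  obtain ⟨X, hX1, hX2⟩ := exceptions P.k P.h (P.N ^ 2)
    (Bcell P.k P.l P.Lam P.b * Bth P.k P.l P.rmax P.m * P.q ^ (2 * P.l)) (by omega) P.hh Q₁ Q₂
    (by
      intro κ hκ
      obtain ⟨ad, had, rfl⟩ := mem_image.mp hκ
      simp only [mem_filter] at had
      obtain ⟨hadL, hd, h3⟩ := had
      by_cases hp : per P.k P.Lam P.M ad.2 ≤ P.rmax
      · have hinj := typeII_inj P ad.1 ad.2 hp h3
        have : (univ.filter (fun j => ∃ j', j' ≠ j ∧ kp ad j' = kp ad j)) = ∅ := by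
          rw [filter_eq_empty_iff]
          rintro j - ⟨j', hne, he⟩
          exact hne (hinj (congrArg Prod.fst he))
        rw [this]; simp
      · push Not at hp
        by_cases h1 : per P.k P.Lam P.M ad.2 ≤ P.k / P.w
        · convert typeI_small P ad.1 ad.2 hd lam Pn hPn h1
        · push Not at h1
          by_cases h2 : per P.k P.Lam P.M ad.2 ≤ P.k
          · have := hlam (fun j => hcell P.k P.Lam P.M (ad.1 + j * ad.2),
              Ev P.k P.Lam P.q P.M ad.2) (mem_image.mpr ⟨ad, mem_filter.mpr ⟨hadL, hd, h1, h2⟩, rfl⟩)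
            convert typeI_mid P ad.1 ad.2 lam Pn h1 h2 this
          · push Not at h2
            convert typeI_big P ad.1 ad.2 lam Pn h2)
    (by
      intro κ hκ
      obtain ⟨ad, had, rfl⟩ := mem_image.mp hκ
      simp only [mem_filter] at had
      convert typeIII_unique P ad.1 ad.2 had.2.1 had.2.2 lam Pn hPn)
    (by
      rw [← hLn]
      exact card_image_le.trans (card_filter_le _ _))
    (by
      refine le_trans ?_ hFK
      refine le_trans (card_le_card (t := FK.image (fun κ => (κ, fun j => g (κ j).1))) ?_)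
        card_image_le
      intro κ hκ
      obtain ⟨ad, had, rfl⟩ := mem_image.mp hκ
      simp only [mem_filter] at had
      exact mem_image.mpr ⟨kp ad, hFK' ad.1 ad.2 had.2.1 had.2.2, rfl⟩)
    hN.n3 hN.n5
  -- the colouring
  refine ⟨fun n => xor (g (cell P.k P.Lam P.R P.M n))
    (X (kap P.k P.Lam P.R P.q P.m P.M lam Pn n)), ?_, ?_⟩
  · intro n n' h
    simp only
    rw [cell_congr P.k P.Lam P.R P.M n n' h, kap_congr P.k P.Lam P.R P.q P.m P.M lam Pn n n' h]
  · intro a d hd
    -- reduce to residues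
    have key : ∀ a d : ℕ, a < P.N → d < P.N → ¬ P.N ∣ d → ∃ i : Fin P.k, ∃ j : Fin P.k,
        xor (g (cp (a, d) i)) (X (kp (a, d) i)) ≠ xor (g (cp (a, d) j)) (X (kp (a, d) j)) := by
      intro a d ha hdN hd
      have hmem : (a, d) ∈ Ln := mem_product.mpr ⟨mem_range.mpr ha, mem_range.mpr hdN⟩
      by_cases h3 : TypeIII P.k P.Lam P.rmax P.M a d
      · exact hX2 _ (mem_image.mpr ⟨(a, d), mem_filter.mpr ⟨hmem, hd, h3⟩, rfl⟩)
      · have hX := hX1 (kp (a, d)) (mem_image.mpr ⟨(a, d), mem_filter.mpr ⟨hmem, hd, h3⟩, rfl⟩)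
        have hp : cp (a, d) ∈ P₁ ∪ P₂ := by
          rw [mem_union]
          by_cases h1 : per P.k P.Lam P.M d ≤ P.rmax
          · right
            exact mem_image.mpr ⟨(a, d), mem_filter.mpr ⟨hmem, Or.inr ⟨h1, h3⟩⟩, rfl⟩
          · by_cases h2 : per P.k P.Lam P.M d ≤ P.k / 20
            · left
              exact mem_image.mpr ⟨(a, d), mem_filter.mpr ⟨hmem, by push Not at h1; exact h1, h2⟩, rfl⟩
            · right
              exact mem_image.mpr ⟨(a, d), mem_filter.mpr ⟨hmem, Or.inl (by push Not at h2; exact h2)⟩, rfl⟩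
        obtain ⟨hgt, hgf⟩ := hg _ hp
        have h1 : ∃ i : Fin P.k, g (cp (a, d) i) = true ∧ X (kp (a, d) i) = false := by
          by_contra hcon
          push Not at hcon
          have : (univ.filter (fun j => g (cp (a, d) j) = true)).card ≤
              (univ.filter (fun j => X (kp (a, d) j) = true)).card := by
            refine card_le_card ?_
            intro j hj
            simp only [mem_filter, mem_univ, true_and] at hj ⊢
            have := hcon j hj
            simpa using this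
          omega
        have h2 : ∃ i : Fin P.k, g (cp (a, d) i) = false ∧ X (kp (a, d) i) = false := by
          by_contra hcon
          push Not at hcon
          have : (univ.filter (fun j => g (cp (a, d) j) = false)).card ≤
              (univ.filter (fun j => X (kp (a, d) j) = true)).card := by
            refine card_le_card ?_
            intro j hj
            simp only [mem_filter, mem_univ, true_and] at hj ⊢
            have := hcon j hj
            simpa using this
          omega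
        obtain ⟨i, hi1, hi2⟩ := h1
        obtain ⟨j, hj1, hj2⟩ := h2
        refine ⟨i, j, ?_⟩
        rw [hi1, hi2, hj1, hj2]
        simp
    obtain ⟨i, j, hij⟩ := key (a % P.N) (d % P.N) (Nat.mod_lt _ hNpos) (Nat.mod_lt _ hNpos)
      (fun h => hd ((Nat.dvd_mod_iff (dvd_refl _)).mp h))
    refine ⟨i, i.2, j, j.2, ?_⟩
    have hmod : ∀ s : ℕ, (a + s * d) % P.N = (a % P.N + s * (d % P.N)) % P.N := by
      intro s
      simp [Nat.add_mod, Nat.mul_mod]
    have hc : ∀ s : ℕ, cell P.k P.Lam P.R P.M (a + s * d) =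
        cell P.k P.Lam P.R P.M (a % P.N + s * (d % P.N)) := fun s =>
      cell_congr _ _ _ _ _ _ (hmod s)
    have hκ : ∀ s : ℕ, kap P.k P.Lam P.R P.q P.m P.M lam Pn (a + s * d) =
        kap P.k P.Lam P.R P.q P.m P.M lam Pn (a % P.N + s * (d % P.N)) := fun s =>
      kap_congr _ _ _ _ _ _ _ _ _ _ (hmod s)
    simp only
    rw [hc i, hc j, hκ i, hκ j]
    exact hij

end VDW
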