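import Mathlib

/-! Definitions for S0086 (geometry part). -/

set_option autoImplicit false

open Finset

namespace VDW

/-- `u` is within `q/m` of `0` in `ZMod q`. -/
def small (q m : ℕ) (u : ZMod q) : Prop := m * u.valMinAbs.natAbs < q

/-- low-resolution value of `u`. -/
def theta (q m : ℕ) (u : ZMod q) : ℕ := (m * u.val) / q

/-- the property of the polynomial map `P` used later. -/
def PolyLine (q D L : ℕ) (P : (Fin D → ZMod q) → ZMod q) : Prop :=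
  ∀ Y E : Fin D → ZMod q, E ≠ 0 → ∃ f : Polynomial (ZMod q), Odd f.natDegree ∧
    f.natDegree ≤ L ∧ ∀ t : ZMod q, P (Y + t • E) = f.eval t

/-! ### one modulus `m` -/

def yy (Lam m n : ℕ) : ℕ := (Lam * n) % m

def aa (Lam m n : ℕ) : ℕ := (Lam * (n % m)) / m

/-- logarithmic position near both ends of `[0,m)` -/
noncomputable def phi (R m y : ℕ) : ℕ × ℕ :=
  (⌊(R : ℝ) * Real.log ((y : ℝ) + 1)⌋₊, ⌊(R : ℝ) * Real.log ((m : ℝ) - (y : ℝ))⌋₊)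

def hcell1 (k Lam m n : ℕ) : ℕ × ℕ := (aa Lam m n, (k ^ 5 * yy Lam m n) / m)

noncomputable def cell1 (k Lam R m n : ℕ) : (ℕ × ℕ) × (ℕ × ℕ) :=
  (hcell1 k Lam m n, phi R m (yy Lam m n))

/-- `x mod m` is very close to `0` -/
def near1 (k Lam m x : ℕ) : Prop := Lam * k ^ 5 * ((x : ℕ) : ZMod m).valMinAbs.natAbs < m

open Classical in
/-- positions where the data of `y` change -/
noncomputable def Thr (k R m : ℕ) : Finset ℕ :=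
  (Finset.range m).filter (fun y => y = 0 ∨
    ((k ^ 5 * y) / m, phi R m y) ≠ ((k ^ 5 * (y - 1)) / m, phi R m (y - 1)))

/-! ### the vector of moduli `M` -/

variable {D : ℕ}

def hcell (k Lam : ℕ) (M : Fin D → ℕ) (n : ℕ) : Fin D → ℕ × ℕ := fun t => hcell1 k Lam (M t) n

noncomputable def cell (k Lam R : ℕ) (M : Fin D → ℕ) (n : ℕ) : Fin D → (ℕ × ℕ) × (ℕ × ℕ) :=
  fun t => cell1 k Lam R (M t) n

def Yv (Lam q : ℕ) (M : Fin D → ℕ) (n : ℕ) : Fin D → ZMod q :=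
  fun t => ((yy Lam (M t) n : ℕ) : ZMod q)

def near (k Lam : ℕ) (M : Fin D → ℕ) (x : ℕ) : Prop := ∀ t, near1 k Lam (M t) x

open Classical in
/-- the period: least `r ∈ [1,k]` with `r d` near `0`, else `k+1`. -/
noncomputable def per (k Lam : ℕ) (M : Fin D → ℕ) (d : ℕ) : ℕ :=
  if h : ∃ r, 1 ≤ r ∧ r ≤ k ∧ near k Lam M (r * d) then Nat.find h else k + 1

/-- increment of `Yv` over one period -/
noncomputable def Ev (k Lam q : ℕ) (M : Fin D → ℕ) (d : ℕ) : Fin D → ZMod q :=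
  fun t => (((Lam : ℤ) * ((per k Lam M d * d : ℕ) : ZMod (M t)).valMinAbs : ℤ) : ZMod q)

/-- lines of type III: small period, and every `yy` is an integer arithmetic progression -/
def TypeIII (k Lam rmax : ℕ) (M : Fin D → ℕ) (a d : ℕ) : Prop :=
  per k Lam M d ≤ rmax ∧ ∀ t, ∃ v : ℤ, k ^ 11 * v.natAbs < M t ∧
    ∀ j < k, (yy Lam (M t) (a + j * d) : ℤ) = yy Lam (M t) a + j * v

/-- the fine key of `n` -/
noncomputable def kap (k Lam R q m : ℕ) (M : Fin D → ℕ)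
    (lam : (Fin D → ℕ × ℕ) → Fin D → ZMod q) (P : (Fin D → ZMod q) → ZMod q) (n : ℕ) :
    (Fin D → (ℕ × ℕ) × (ℕ × ℕ)) × ℕ × ZMod q :=
  (cell k Lam R M n, theta q m (lam (hcell k Lam M n) ⬝ᵥ Yv Lam q M n), P (Yv Lam q M n))

/-! ### parameters -/

structure Par where
  k : ℕ
  l : ℕ
  rmax : ℕ
  w : ℕ
  R : ℕ
  Lam : ℕ
  m : ℕ
  q : ℕ
  h : ℕ
  b : ℕ
  M : Fin (l ^ 2) → ℕ
  hk : 100 ≤ k
  hl : 1 ≤ l
  hr1 : 1 ≤ rmax
  hrk : 20 * rmax ≤ k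
  hLam : 1 ≤ Lam
  hdiv : ∀ r, 1 ≤ r → r ≤ rmax → r ∣ Lam
  hR : 8 * k ^ 12 ≤ R
  hMp : ∀ t, (M t).Prime
  hMinj : Function.Injective M
  hMk : ∀ t, k < M t
  hMLam : ∀ t, Lam < M t
  hMq : ∀ t, M t < q
  hq : q.Prime
  hqV : ((2 * l) * k ^ (2 * l) + 1) ^ (2 * l) < q
  hw : 10 ^ 8 * (2 * l) ^ 6 ≤ w
  hwk : w ≤ k
  hb : ∀ t, (k : ℝ) ^ 5 + 2 * ((R : ℝ) * Real.log (M t) + 2) ≤ b
  hh : 2 ≤ h
  hmq : m ≤ q
  hwm : 3 * w ≤ m

/-- number of cell patterns of lines of period `≤ k` through a given cell -/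
def B1 (k l b : ℕ) : ℕ := k * (k + 1) * ((k + 1) * (k * (5 * (b + 1)) + 1) ^ 3) ^ (l ^ 2)

/-- number of all cell patterns -/
def Bcell (k l Lam b : ℕ) : ℕ := ((k * (k * Lam * (b + 1)) + 1) ^ 3) ^ (l ^ 2)

/-- number of `theta` patterns of a type III line with given cell pattern -/
def Bth (k l rmax m : ℕ) : ℕ := ((k * (k * m) + 1) ^ 3) ^ (rmax * (l ^ 2 + 1))

/-- the modulus `N` -/
def Par.N (P : Par) : ℕ := ∏ t, P.M t

structure Par.Num (P : Par) : Prop where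
  n1 : 16 * (P.k : ℝ) * (B1 P.k P.l P.b : ℕ) *
    Real.exp (-(2 * P.k : ℝ) / (5 * ((P.k / P.rmax + 1 : ℕ) : ℝ))) ≤ 1
  n2 : 16 * ((Bcell P.k P.l P.Lam P.b : ℕ) : ℝ) * Real.exp (-(2 * P.k : ℝ) / (5 * 21)) ≤ 1
  n3 : 4 * ((P.N ^ 2 : ℕ) : ℝ) * 2 ^ P.k ≤ (P.h : ℝ) ^ ((3 * P.k : ℝ) / 100)
  n4 : ((P.N ^ 2 : ℕ) : ℝ) * 2 ^ P.k * ((3 * P.w : ℝ) / P.m) ^ ((P.k : ℝ) / (50 * P.w)) < 1
  n5 : 8 * ((Bcell P.k P.l P.Lam P.b * Bth P.k P.l P.rmax P.m * P.q ^ (2 * P.l) : ℕ) : ℝ) *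
    Real.exp (-(49 * P.k : ℝ) / (50 * P.h)) ≤ 1

/-- the cyclic statement -/
def Cyclic : Prop :=
  ∃ K₀ : ℕ, ∀ k : ℕ, K₀ ≤ k → ∃ N : ℕ, 0 < N ∧ (k : ℝ) ^ ((k : ℝ) / 100000) < N ∧
    ∃ χ : ℕ → Bool, (∀ n n' : ℕ, n % N = n' % N → χ n = χ n') ∧
      ∀ a d : ℕ, ¬ N ∣ d → ∃ i < k, ∃ j < k, χ (a + i * d) ≠ χ (a + j * d)

end VDW
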