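import Crest.Agent.Vdw.Defs

/-! S0086, module Geom1: one modulus. -/

set_option autoImplicit false

open Finset

namespace VDW

theorem geo_decomp (Lam m n : ℕ) : Lam * (n % m) = m * aa Lam m n + yy Lam m n := by
  have h : (Lam * (n % m)) % m = (Lam * n) % m := by
    rw [Nat.mul_mod, Nat.mod_mod, ← Nat.mul_mod]
  have := Nat.div_add_mod (Lam * (n % m)) m
  unfold aa yy
  rw [← h]
  exact this.symm

theorem geo_decomp_int (Lam m n : ℕ) :
    (Lam : ℤ) * ((n % m : ℕ) : ℤ) = m * (aa Lam m n : ℤ) + yy Lam m n := by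
  exact_mod_cast geo_decomp Lam m n

theorem geo_sub_lt {m x y : ℕ} (hm : 0 < m) (h : x / m = y / m) :
    ((y : ℤ) - x).natAbs < m := by
  have h1 := Nat.div_add_mod x m
  have h2 := Nat.div_add_mod y m
  have h3 := Nat.mod_lt x hm
  have h4 := Nat.mod_lt y hm
  rw [h] at h1
  omega

theorem hcell1_diff (k Lam m n n' : ℕ) (hm : 0 < m)
    (h : hcell1 k Lam m n = hcell1 k Lam m n') :
    k ^ 5 * ((yy Lam m n' : ℤ) - yy Lam m n).natAbs < m ∧
      (Lam : ℤ) * (((n' % m : ℕ) : ℤ) - (n % m : ℕ)) = (yy Lam m n' : ℤ) - yy Lam m n := by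
  unfold hcell1 at h
  rw [Prod.mk.injEq] at h
  obtain ⟨h1, h2⟩ := h
  constructor
  · have := geo_sub_lt hm h2
    have e : ((k ^ 5 * yy Lam m n' : ℕ) : ℤ) - ((k ^ 5 * yy Lam m n : ℕ) : ℤ)
        = (k ^ 5 : ℕ) * ((yy Lam m n' : ℤ) - yy Lam m n) := by push_cast; ring
    rw [e, Int.natAbs_mul, Int.natAbs_natCast] at this
    exact this
  · rw [mul_sub, geo_decomp_int, geo_decomp_int, h1]
    ring

theorem geo_valMinAbs_le (m : ℕ) (x : ZMod m) (e : ℤ) (he : (e : ZMod m) = x) (hm : 0 < m) :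
    x.valMinAbs.natAbs ≤ e.natAbs := by
  have : NeZero m := ⟨hm.ne'⟩
  apply ZMod.natAbs_min_of_le_div_two m
  · rw [ZMod.coe_valMinAbs, he]
  · exact ZMod.natAbs_valMinAbs_le x

theorem near1_of_hcell1 (k Lam m n x : ℕ) (hm : 0 < m)
    (h : hcell1 k Lam m n = hcell1 k Lam m (n + x)) : near1 k Lam m x := by
  obtain ⟨h1, h2⟩ := hcell1_diff k Lam m n (n + x) hm h
  unfold near1
  have h3 := geo_valMinAbs_le m (x : ZMod m) ((((n + x) % m : ℕ) : ℤ) - (n % m : ℕ)) (by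
    push_cast
    ring) hm
  have h4 : Lam * ((((n + x) % m : ℕ) : ℤ) - (n % m : ℕ)).natAbs
      = ((yy Lam m (n + x) : ℤ) - yy Lam m n).natAbs := by
    rw [← h2, Int.natAbs_mul, Int.natAbs_natCast]
  calc Lam * k ^ 5 * ((x : ℕ) : ZMod m).valMinAbs.natAbs
      ≤ Lam * k ^ 5 * ((((n + x) % m : ℕ) : ℤ) - (n % m : ℕ)).natAbs :=
        Nat.mul_le_mul_left _ h3
    _ = k ^ 5 * (Lam * ((((n + x) % m : ℕ) : ℤ) - (n % m : ℕ)).natAbs) := by ring
    _ = k ^ 5 * ((yy Lam m (n + x) : ℤ) - yy Lam m n).natAbs := by rw [h4]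
    _ < m := h1

/-- an integer divisible by `m` and smaller than `m` in absolute value is zero -/
theorem geo_eq_zero {m : ℕ} {z : ℤ} (h : ((z : ℤ) : ZMod m) = 0) (hz : z.natAbs < m) : z = 0 := by
  rw [ZMod.intCast_zmod_eq_zero_iff_dvd] at h
  exact Int.eq_zero_of_abs_lt_dvd h (by rw [Int.abs_eq_natAbs]; exact_mod_cast hz)

theorem near1_gcd (k Lam m r h d : ℕ) (hk : 2 ≤ k) (hLam : 1 ≤ Lam) (hm : 0 < m)
    (hr : 1 ≤ r) (hrk : r ≤ k) (hh : 1 ≤ h) (hhk : h ≤ k)
    (h1 : near1 k Lam m (r * d)) (h2 : near1 k Lam m (h * d)) :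
    near1 k Lam m (Nat.gcd r h * d) := by
  unfold near1 at *
  set xr : ℤ := ((r * d : ℕ) : ZMod m).valMinAbs with hxr
  set xh : ℤ := ((h * d : ℕ) : ZMod m).valMinAbs with hxh
  have cr : ((xr : ℤ) : ZMod m) = (r * d : ℕ) := by rw [hxr, ZMod.coe_valMinAbs]
  have ch : ((xh : ℤ) : ZMod m) = (h * d : ℕ) := by rw [hxh, ZMod.coe_valMinAbs]
  have hk5 : 2 * k ≤ Lam * k ^ 5 := by
    have h3 : 2 ≤ k ^ 4 := le_trans (by norm_num) (Nat.pow_le_pow_left hk 4)
    calc 2 * k ≤ k ^ 4 * k := Nat.mul_le_mul_right _ h3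
      _ = 1 * k ^ 5 := by ring
      _ ≤ Lam * k ^ 5 := Nat.mul_le_mul_right _ hLam
  have br : 2 * (k * xr.natAbs) < m := by
    calc 2 * (k * xr.natAbs) = 2 * k * xr.natAbs := by ring
      _ ≤ Lam * k ^ 5 * xr.natAbs := Nat.mul_le_mul_right _ hk5
      _ < m := h1
  have bh : 2 * (k * xh.natAbs) < m := by
    calc 2 * (k * xh.natAbs) = 2 * k * xh.natAbs := by ring
      _ ≤ Lam * k ^ 5 * xh.natAbs := Nat.mul_le_mul_right _ hk5
      _ < m := h2
  have key : (h : ℤ) * xr - r * xh = 0 := by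
    apply geo_eq_zero (m := m)
    · push_cast
      rw [cr, ch]
      push_cast
      ring
    · have e1 : ((h : ℤ) * xr - r * xh).natAbs ≤ h * xr.natAbs + r * xh.natAbs := by
        refine le_trans (Int.natAbs_sub_le _ _) ?_
        rw [Int.natAbs_mul, Int.natAbs_mul, Int.natAbs_natCast, Int.natAbs_natCast]
      have e2 : h * xr.natAbs ≤ k * xr.natAbs := Nat.mul_le_mul_right _ hhk
      have e3 : r * xh.natAbs ≤ k * xh.natAbs := Nat.mul_le_mul_right _ hrk
      omega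
  have bez := Nat.gcd_eq_gcd_ab r h
  set u : ℤ := Nat.gcdA r h
  set v : ℤ := Nat.gcdB r h
  set g : ℕ := Nat.gcd r h with hg
  set x : ℤ := u * xr + v * xh with hx
  have hrx : (r : ℤ) * x = g * xr := by
    rw [hx, bez]
    linear_combination (-v) * key
  have hgr : g ≤ r := Nat.gcd_le_left h hr
  have hxle : x.natAbs ≤ xr.natAbs := by
    have e1 : r * x.natAbs = g * xr.natAbs := by
      have := congrArg Int.natAbs hrx
      rwa [Int.natAbs_mul, Int.natAbs_mul, Int.natAbs_natCast, Int.natAbs_natCast] at this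
    have e2 : r * x.natAbs ≤ r * xr.natAbs := by
      rw [e1]; exact Nat.mul_le_mul_right _ hgr
    exact Nat.le_of_mul_le_mul_left e2 hr
  have h5 : ((g * d : ℕ) : ZMod m).valMinAbs.natAbs ≤ x.natAbs := by
    apply geo_valMinAbs_le m _ x _ hm
    rw [hx]
    push_cast
    rw [cr, ch]
    have : ((g : ℤ) : ZMod m) = ((r : ℤ) * u + h * v : ℤ) := by rw [bez]
    push_cast at this ⊢
    rw [this]
    ring
  exact lt_of_le_of_lt (Nat.mul_le_mul_left _ (h5.trans hxle)) h1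

theorem geo_yy_cast (Lam m n : ℕ) : ((yy Lam m n : ℕ) : ZMod m) = (Lam : ZMod m) * n := by
  unfold yy
  rw [ZMod.natCast_mod]
  push_cast
  ring

theorem yy_step (Lam m r a d i s : ℕ) (hm : 0 < m) :
    (yy Lam m (a + (i + s * r) * d) : ℤ) ≡
      yy Lam m (a + i * d) + s * ((Lam : ℤ) * ((r * d : ℕ) : ZMod m).valMinAbs) [ZMOD m] := by
  rw [← ZMod.intCast_eq_intCast_iff]
  push_cast
  rw [geo_yy_cast, geo_yy_cast]
  push_cast
  ring

theorem yy_step_div (Lam m r a d j : ℕ) (hm : m.Prime) (hr : 1 ≤ r) (hrm : r < m)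
    (hdiv : r ∣ Lam) :
    (yy Lam m (a + j * d) : ℤ) ≡
      yy Lam m a + j * (((Lam / r : ℕ) : ℤ) * ((r * d : ℕ) : ZMod m).valMinAbs) [ZMOD m] := by
  obtain ⟨c, rfl⟩ := hdiv
  rw [Nat.mul_div_cancel_left c (by omega)]
  rw [← ZMod.intCast_eq_intCast_iff]
  push_cast
  rw [geo_yy_cast, geo_yy_cast]
  push_cast
  ring

/-- same hcell, `r d` near `0`: the difference is exactly `s` increments. -/
theorem yy_exact (k Lam m r a d i s : ℕ) (hk : 2 ≤ k) (hLam : 1 ≤ Lam) (hm : 0 < m)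
    (hs : s ≤ k) (hnear : near1 k Lam m (r * d))
    (h : hcell1 k Lam m (a + i * d) = hcell1 k Lam m (a + (i + s * r) * d)) :
    (yy Lam m (a + (i + s * r) * d) : ℤ) =
      yy Lam m (a + i * d) + s * ((Lam : ℤ) * ((r * d : ℕ) : ZMod m).valMinAbs) := by
  obtain ⟨h1, -⟩ := hcell1_diff k Lam m _ _ hm h
  have h2 := yy_step Lam m r a d i s hm
  unfold near1 at hnear
  set x : ℤ := ((r * d : ℕ) : ZMod m).valMinAbs
  set y' : ℤ := ((yy Lam m (a + (i + s * r) * d) : ℕ) : ℤ)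
  set y : ℤ := ((yy Lam m (a + i * d) : ℕ) : ℤ)
  have h3 : (y' - (y + s * ((Lam : ℤ) * x))) = 0 := by
    apply geo_eq_zero (m := m)
    · rw [← ZMod.intCast_eq_intCast_iff] at h2
      push_cast at h2 ⊢
      rw [h2]
      ring
    · have e1 : (y' - (y + s * ((Lam : ℤ) * x))).natAbs ≤ (y' - y).natAbs
          + (s * ((Lam : ℤ) * x)).natAbs := by
        have : y' - (y + s * ((Lam : ℤ) * x)) = (y' - y) - s * ((Lam : ℤ) * x) := by ring
        rw [this]
        exact Int.natAbs_sub_le _ _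
      have e2 : (s * ((Lam : ℤ) * x)).natAbs = s * (Lam * x.natAbs) := by
        rw [Int.natAbs_mul, Int.natAbs_mul, Int.natAbs_natCast, Int.natAbs_natCast]
      have hk4 : 2 ≤ k ^ 4 := le_trans (by norm_num) (Nat.pow_le_pow_left hk 4)
      have hk5 : 2 ≤ k ^ 5 := le_trans (by norm_num) (Nat.pow_le_pow_left hk 5)
      have e3 : 2 * (y' - y).natAbs < m :=
        lt_of_le_of_lt (Nat.mul_le_mul_right _ hk5) h1
      have e4 : 2 * (s * (Lam * x.natAbs)) < m := by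
        calc 2 * (s * (Lam * x.natAbs)) ≤ k ^ 4 * (k * (Lam * x.natAbs)) :=
              Nat.mul_le_mul hk4 (Nat.mul_le_mul_right _ hs)
          _ = Lam * k ^ 5 * x.natAbs := by ring
          _ < m := hnear
      omega
  linarith

theorem geo_aa_lt (Lam m n : ℕ) (hLam : 1 ≤ Lam) (hm : 0 < m) : aa Lam m n < Lam := by
  unfold aa
  rw [Nat.div_lt_iff_lt_mul hm]
  exact Nat.mul_lt_mul_of_pos_left (Nat.mod_lt n hm) hLam

theorem aa_periodic (k Lam m r a d : ℕ) (hk : 2 ≤ k) (hLam : 1 ≤ Lam) (hm : 0 < m)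
    (hr : 1 ≤ r) (hrk : r ≤ k) (hnear : near1 k Lam m (r * d)) (v : ℤ)
    (hv : k ^ 11 * v.natAbs < m)
    (hY : ∀ j < k, (yy Lam m (a + j * d) : ℤ) = yy Lam m a + j * v) (j : ℕ) (hj : j + r < k) :
    aa Lam m (a + (j + r) * d) = aa Lam m (a + j * d) := by
  unfold near1 at hnear
  set ρ : ℤ := ((r * d : ℕ) : ZMod m).valMinAbs with hρ
  have cρ : ((ρ : ℤ) : ZMod m) = (r * d : ℕ) := by rw [hρ, ZMod.coe_valMinAbs]
  have y1 := hY (j + r) hj
  have y2 := hY j (by omega)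
  have d1 := geo_decomp_int Lam m (a + (j + r) * d)
  have d2 := geo_decomp_int Lam m (a + j * d)
  -- the difference of residues
  obtain ⟨c, hc⟩ : ∃ c : ℤ, (((a + (j + r) * d) % m : ℕ) : ℤ)
      = (((a + j * d) % m : ℕ) : ℤ) + ρ + c * m := by
    have h0 : (((((a + (j + r) * d) % m : ℕ) : ℤ) - (((a + j * d) % m : ℕ) : ℤ) - ρ : ℤ) : ZMod m)
        = 0 := by
      push_cast
      rw [cρ]
      push_cast
      ring
    rw [ZMod.intCast_zmod_eq_zero_iff_dvd] at h0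
    obtain ⟨c, hc⟩ := h0
    exact ⟨c, by linarith [hc, mul_comm c (m : ℤ)]⟩
  have e1 : (Lam : ℤ) * ρ - r * v = m * ((aa Lam m (a + (j + r) * d) : ℤ)
      - aa Lam m (a + j * d) - Lam * c) := by
    have y3 : (yy Lam m (a + (j + r) * d) : ℤ) - yy Lam m (a + j * d) = r * v := by
      rw [y1, y2]; push_cast; ring
    rw [hc] at d1
    linear_combination d1 - d2 + y3
  have e2 : (Lam : ℤ) * ρ - r * v = 0 := by
    apply geo_eq_zero (m := m)
    · rw [e1]; push_cast; simp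
    · have f1 : ((Lam : ℤ) * ρ - r * v).natAbs ≤ Lam * ρ.natAbs + r * v.natAbs := by
        refine le_trans (Int.natAbs_sub_le _ _) ?_
        rw [Int.natAbs_mul, Int.natAbs_mul, Int.natAbs_natCast, Int.natAbs_natCast]
      have hk5 : 2 ≤ k ^ 5 := le_trans (by norm_num) (Nat.pow_le_pow_left hk 5)
      have hk10 : 2 ≤ k ^ 10 := le_trans (by norm_num) (Nat.pow_le_pow_left hk 10)
      have f2 : 2 * (Lam * ρ.natAbs) < m := by
        calc 2 * (Lam * ρ.natAbs) ≤ k ^ 5 * (Lam * ρ.natAbs) := Nat.mul_le_mul_right _ hk5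
          _ = Lam * k ^ 5 * ρ.natAbs := by ring
          _ < m := hnear
      have f3 : 2 * (r * v.natAbs) < m := by
        calc 2 * (r * v.natAbs) ≤ k ^ 10 * (k * v.natAbs) :=
              Nat.mul_le_mul hk10 (Nat.mul_le_mul_right _ hrk)
          _ = k ^ 11 * v.natAbs := by ring
          _ < m := hv
      omega
  have e3 : (aa Lam m (a + (j + r) * d) : ℤ) - aa Lam m (a + j * d) - Lam * c = 0 := by
    rw [e2] at e1
    have hm' : (m : ℤ) ≠ 0 := by exact_mod_cast hm.ne'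
    rcases mul_eq_zero.1 e1.symm with h | h
    · exact absurd h hm'
    · exact h
  have a1 := geo_aa_lt Lam m (a + (j + r) * d) hLam hm
  have a2 := geo_aa_lt Lam m (a + j * d) hLam hm
  have hc0 : c = 0 := by
    have f1 : |(Lam : ℤ) * c| < Lam := by
      have : (Lam : ℤ) * c = (aa Lam m (a + (j + r) * d) : ℤ) - aa Lam m (a + j * d) := by
        linarith
      rw [this, abs_lt]
      constructor <;> [skip; skip] <;> omega
    rw [abs_mul] at f1
    have hL : (0 : ℤ) < Lam := by exact_mod_cast hLam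
    rw [abs_of_pos hL] at f1
    have f2 : |c| < 1 := by
      by_contra hcon
      push Not at hcon
      have := mul_le_mul_of_nonneg_left hcon hL.le
      linarith
    exact Int.abs_lt_one_iff.1 f2
  rw [hc0] at e3
  have : (aa Lam m (a + (j + r) * d) : ℤ) = aa Lam m (a + j * d) := by linarith
  exact_mod_cast this

theorem hfloor_two (k m Y0 : ℕ) (hk : 2 ≤ k) (v : ℤ) (hv : k ^ 11 * v.natAbs < m) (Y : ℕ → ℕ)
    (hY : ∀ j < k, (Y j : ℤ) = Y0 + j * v) (j j' : ℕ) (hjj : j ≤ j') (hj' : j' < k)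
    (hne : k ^ 5 * Y j / m ≠ k ^ 5 * Y0 / m) : k ^ 5 * Y j' / m = k ^ 5 * Y j / m := by
  have hm : 0 < m := by omega
  have y1 := hY j (by omega)
  have y2 := hY j' hj'
  have hbound : k ^ 5 * (j' * v.natAbs) < m := by
    have h1 : k ^ 6 ≤ k ^ 11 := Nat.pow_le_pow_right (by omega) (by norm_num)
    calc k ^ 5 * (j' * v.natAbs) ≤ k ^ 5 * (k * v.natAbs) :=
          Nat.mul_le_mul_left _ (Nat.mul_le_mul_right _ hj'.le)
      _ = k ^ 6 * v.natAbs := by ring
      _ ≤ k ^ 11 * v.natAbs := Nat.mul_le_mul_right _ h1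
      _ < m := hv
  rcases le_or_gt 0 v with h | h
  · lift v to ℕ using h
    rw [Int.natAbs_natCast] at hbound
    have y1' : Y j = Y0 + j * v := by exact_mod_cast y1
    have y2' : Y j' = Y0 + j' * v := by exact_mod_cast y2
    have l1 : Y0 ≤ Y j := by rw [y1']; exact Nat.le_add_right _ _
    have l2 : Y j ≤ Y j' := by
      rw [y1', y2']; exact Nat.add_le_add_left (Nat.mul_le_mul_right _ hjj) _
    have f1 : k ^ 5 * Y0 / m ≤ k ^ 5 * Y j / m := Nat.div_le_div_right (Nat.mul_le_mul_left _ l1)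
    have f2 : k ^ 5 * Y j / m ≤ k ^ 5 * Y j' / m := Nat.div_le_div_right (Nat.mul_le_mul_left _ l2)
    have f3 : k ^ 5 * Y j' / m ≤ k ^ 5 * Y0 / m + 1 := by
      rw [← Nat.add_div_right _ hm]
      apply Nat.div_le_div_right
      rw [y2', mul_add]
      omega
    omega
  · obtain ⟨w, rfl⟩ : ∃ w : ℕ, v = -(w : ℤ) := ⟨v.natAbs, by omega⟩
    rw [Int.natAbs_neg, Int.natAbs_natCast] at hbound
    have y1' : Y0 = Y j + j * w := by
      have : (Y0 : ℤ) = Y j + j * w := by rw [y1]; ring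
      exact_mod_cast this
    have y2' : Y0 = Y j' + j' * w := by
      have : (Y0 : ℤ) = Y j' + j' * w := by rw [y2]; ring
      exact_mod_cast this
    have hjw : j * w ≤ j' * w := Nat.mul_le_mul_right _ hjj
    have l1 : Y j ≤ Y0 := by omega
    have l2 : Y j' ≤ Y j := by omega
    have f1 : k ^ 5 * Y j / m ≤ k ^ 5 * Y0 / m := Nat.div_le_div_right (Nat.mul_le_mul_left _ l1)
    have f2 : k ^ 5 * Y j' / m ≤ k ^ 5 * Y j / m := Nat.div_le_div_right (Nat.mul_le_mul_left _ l2)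
    have f3 : k ^ 5 * Y0 / m ≤ k ^ 5 * Y j' / m + 1 := by
      rw [← Nat.add_div_right _ hm]
      apply Nat.div_le_div_right
      have : k ^ 5 * Y0 = k ^ 5 * Y j' + k ^ 5 * (j' * w) := by rw [← mul_add, ← y2']
      omega
    omega

end VDW
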