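import Mathlib

/-! # S0086, module V1: transfer of coincidences from `ZMod q` to `ℤ` -/

set_option autoImplicit false

open Polynomial Finset

namespace VDW

/-- simultaneous pigeonhole -/
theorem exists_lambda (b K q : ℕ) [Fact q.Prime] (hK : 0 < K) (a : ℕ → ZMod q) :
    ∃ (lam : ℕ) (c : ℕ → ℤ), 1 ≤ lam ∧ lam ≤ K ^ b ∧
      ∀ i ∈ Finset.range b, ((c i : ℤ) : ZMod q) = (lam : ZMod q) * a i ∧
        (K : ℤ) * |c i| < q := by
  classical
  have hq0 : 0 < q := (Fact.out : q.Prime).pos
  have hbox : ∀ (l : ℕ) (i : ℕ), (((l : ZMod q) * a i).val * K) / q < K := by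
    intro l i
    have h1 : ((l : ZMod q) * a i).val < q := ZMod.val_lt _
    rw [Nat.div_lt_iff_lt_mul hq0]
    calc ((l : ZMod q) * a i).val * K < q * K := Nat.mul_lt_mul_of_pos_right h1 hK
      _ = K * q := Nat.mul_comm _ _
  let φ : ℕ → (Fin b → Fin K) := fun l i => ⟨(((l : ZMod q) * a i).val * K) / q, hbox l i⟩
  have hcard : (Finset.univ : Finset (Fin b → Fin K)).card < (Finset.range (K ^ b + 1)).card := by
    simp
  obtain ⟨l1, h1, l2, h2, hne, heq⟩ :=
    Finset.exists_ne_map_eq_of_card_lt_of_maps_to hcard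
      (f := φ) (fun x _ => Finset.mem_univ (φ x))
  wlog hlt : l1 < l2 generalizing l1 l2 with H
  · exact H l2 h2 l1 h1 hne.symm heq.symm (by omega)
  refine ⟨l2 - l1, fun i => (((l2 : ZMod q) * a i).val : ℤ) - (((l1 : ZMod q) * a i).val : ℤ),
    by omega, ?_, ?_⟩
  · simp only [Finset.mem_range] at h1 h2
    omega
  · intro i hi
    have hi' : i < b := Finset.mem_range.mp hi
    constructor
    · push_cast
      rw [ZMod.natCast_zmod_val, ZMod.natCast_zmod_val, Nat.cast_sub hlt.le]
      ring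
    · have hbx := congrArg Fin.val (congrFun heq ⟨i, hi'⟩)
      simp only [φ] at hbx
      set v1 := ((l1 : ZMod q) * a i).val with hv1
      set v2 := ((l2 : ZMod q) * a i).val with hv2
      have e1 := Nat.div_add_mod (v1 * K) q
      have e2 := Nat.div_add_mod (v2 * K) q
      have m1 := Nat.mod_lt (v1 * K) hq0
      have m2 := Nat.mod_lt (v2 * K) hq0
      rw [hbx] at e1
      have hK' : (K : ℤ) * |(v2 : ℤ) - v1| = |(v2 * K : ℤ) - v1 * K| := by
        rw [← sub_mul, abs_mul, mul_comm, Nat.abs_cast]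
      rw [hK', abs_lt]
      zify at e1 e2 m1 m2
      have n1 : (0 : ℤ) ≤ (v1 * K : ℤ) % q := Int.emod_nonneg _ (by exact_mod_cast hq0.ne')
      have n2 : (0 : ℤ) ≤ (v2 * K : ℤ) % q := Int.emod_nonneg _ (by exact_mod_cast hq0.ne')
      constructor <;> linarith

theorem transfer (b w q : ℕ) [Fact q.Prime] (hb : 1 ≤ b) (hq : (b * w ^ b + 1) ^ b < q)
    (f : (ZMod q)[X]) (hf : f.natDegree = b) :
    ∃ F : ℤ[X], F.natDegree = b ∧ ∀ x < w, ∀ y < w,
      f.eval (x : ZMod q) = f.eval (y : ZMod q) → F.eval (x : ℤ) = F.eval (y : ℤ) := by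
  classical
  obtain ⟨lam, c, hl1, hl2, hc⟩ := exists_lambda b (b * w ^ b + 1) q (Nat.succ_pos _)
    (fun i => f.coeff (i + 1))
  have hlq : lam < q := lt_of_le_of_lt hl2 hq
  have hlam : (lam : ZMod q) ≠ 0 := by
    intro h
    have := (ZMod.natCast_eq_zero_iff lam q).mp h
    have := Nat.le_of_dvd (by omega) this
    omega
  set F : ℤ[X] := ∑ i ∈ Finset.range b, C (c i) * X ^ (i + 1) with hF
  have hdeg : F.natDegree = b := by
    apply le_antisymm
    · apply Polynomial.natDegree_sum_le_of_forall_le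
      intro i hi
      refine (Polynomial.natDegree_C_mul_X_pow_le _ _).trans ?_
      have := Finset.mem_range.mp hi
      omega
    · apply Polynomial.le_natDegree_of_ne_zero
      obtain ⟨b', rfl⟩ : ∃ b', b = b' + 1 := ⟨b - 1, by omega⟩
      have hcoef : F.coeff (b' + 1) = c b' := by
        rw [hF, Polynomial.finsetSum_coeff]
        rw [Finset.sum_eq_single b']
        · simp
        · intro i _ hne
          rw [Polynomial.coeff_C_mul_X_pow]
          rw [if_neg (by omega)]
        · intro h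
          exact absurd (Finset.mem_range.mpr (Nat.lt_succ_self b')) h
      rw [hcoef]
      intro h0
      have h1 := (hc b' (Finset.mem_range.mpr (Nat.lt_succ_self b'))).1
      rw [h0] at h1
      simp only [Int.cast_zero] at h1
      have h2 : f.coeff (b' + 1) ≠ 0 := by
        rw [← hf]
        have : f ≠ 0 := by
          intro h
          rw [h] at hf
          simp at hf
        exact Polynomial.leadingCoeff_ne_zero.mpr this
      exact mul_ne_zero hlam h2 h1.symm
  refine ⟨F, hdeg, ?_⟩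
  intro x hx y hy hxy
  have hevalF : ∀ z : ℤ, F.eval z = ∑ i ∈ Finset.range b, c i * z ^ (i + 1) := by
    intro z
    rw [hF, Polynomial.eval_finsetSum]
    apply Finset.sum_congr rfl
    intro i _
    simp
  have hevalf : ∀ z : ZMod q, f.eval z = (∑ i ∈ Finset.range b, f.coeff (i + 1) * z ^ (i + 1))
      + f.coeff 0 := by
    intro z
    rw [Polynomial.eval_eq_sum_range, hf, Finset.sum_range_succ']
    simp
  -- congruence
  have hcong : ((F.eval (x : ℤ) - F.eval (y : ℤ) : ℤ) : ZMod q) = 0 := by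
    have h3 : ∀ z : ℕ, ((F.eval (z : ℤ) : ℤ) : ZMod q) =
        (lam : ZMod q) * (f.eval (z : ZMod q) - f.coeff 0) := by
      intro z
      rw [hevalF, hevalf]
      push_cast
      rw [add_sub_cancel_right, Finset.mul_sum]
      apply Finset.sum_congr rfl
      intro i hi
      rw [(hc i hi).1]
      ring
    push_cast
    rw [h3, h3, hxy, sub_self]
  -- size
  set K : ℕ := b * w ^ b + 1 with hK
  have hw1 : 1 ≤ w := by omega
  have hpow : ∀ i ∈ Finset.range b, |(x : ℤ) ^ (i + 1) - (y : ℤ) ^ (i + 1)| ≤ (w : ℤ) ^ b := by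
    intro i hi
    have hi' := Finset.mem_range.mp hi
    have hA : ∀ z : ℕ, z < w → (z : ℤ) ^ (i + 1) ≤ (w : ℤ) ^ b := by
      intro z hz
      have h4 : z ^ (i + 1) ≤ w ^ b :=
        (Nat.pow_le_pow_left hz.le _).trans (Nat.pow_le_pow_right hw1 (by omega))
      exact_mod_cast h4
    have hB : ∀ z : ℕ, (0 : ℤ) ≤ (z : ℤ) ^ (i + 1) := fun z => by positivity
    rw [abs_le]
    constructor
    · linarith [hA y hy, hB x, hA x hx, hB y]
    · linarith [hA y hy, hB x, hA x hx, hB y]
  have hsize : (K : ℤ) * |F.eval (x : ℤ) - F.eval (y : ℤ)| < K * q := by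
    have h5 : |F.eval (x : ℤ) - F.eval (y : ℤ)| ≤ ∑ i ∈ Finset.range b, |c i| * (w : ℤ) ^ b := by
      rw [hevalF, hevalF, ← Finset.sum_sub_distrib]
      refine (Finset.abs_sum_le_sum_abs _ _).trans ?_
      apply Finset.sum_le_sum
      intro i hi
      rw [← mul_sub, abs_mul]
      exact mul_le_mul_of_nonneg_left (hpow i hi) (abs_nonneg _)
    have h6 : (K : ℤ) * ∑ i ∈ Finset.range b, |c i| * (w : ℤ) ^ b ≤
        ∑ i ∈ Finset.range b, (q : ℤ) * (w : ℤ) ^ b := by
      rw [Finset.mul_sum]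
      apply Finset.sum_le_sum
      intro i hi
      have := (hc i hi).2
      rw [← mul_assoc]
      exact mul_le_mul_of_nonneg_right this.le (by positivity)
    rw [Finset.sum_const, Finset.card_range, nsmul_eq_mul] at h6
    have hKpos : (0 : ℤ) < K := by rw [hK]; positivity
    have hqpos : (0 : ℤ) < q := by exact_mod_cast (Fact.out : q.Prime).pos
    calc (K : ℤ) * |F.eval (x : ℤ) - F.eval (y : ℤ)|
        ≤ K * ∑ i ∈ Finset.range b, |c i| * (w : ℤ) ^ b := mul_le_mul_of_nonneg_left h5 hKpos.le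
      _ ≤ b * (q * w ^ b) := h6
      _ < (b * w ^ b + 1) * q := by nlinarith
      _ = K * q := by rw [hK]; push_cast; ring
  have hKpos : (0 : ℤ) < K := by rw [hK]; positivity
  have hlt : |F.eval (x : ℤ) - F.eval (y : ℤ)| < q := lt_of_mul_lt_mul_left hsize hKpos.le
  have hdvd : (q : ℤ) ∣ F.eval (x : ℤ) - F.eval (y : ℤ) :=
    (ZMod.intCast_zmod_eq_zero_iff_dvd _ _).mp hcong
  have h0 := Int.eq_zero_of_abs_lt_dvd hdvd hlt
  linarith

end VDW
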